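import Crest.Agent.R249.SReg3_352
import Crest.Agent.R330.Rellich_893
import Crest.Agent.N207.Tens

/-!
# Row 207, block K (helper1): `L²` limits, regularity of `H¹` limits of approximate solutions
-/

set_option autoImplicit false
set_option linter.unusedSectionVars false
open MeasureTheory Set Filter Topology
open scoped ContDiff RealInnerProductSpace
open Crest.GeometryTopology.CoordMetric (pderiv)
open Crest.Agent.R249.SReg352 Crest.Agent.R249.EV

noncomputable section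

namespace Crest.Agent.N207.K

section L2

variable {α : Type*} [MeasurableSpace α] {ν : Measure α} {f g φ : α → ℝ}

theorem mul_eq_inner (hf : MemLp f 2 ν) (hg : MemLp g 2 ν) :
    ∫ x, f x * g x ∂ν = ⟪hf.toLp f, hg.toLp g⟫ := by
  rw [L2.inner_def]
  apply integral_congr_ae
  filter_upwards [hf.coeFn_toLp, hg.coeFn_toLp] with x hx hy
  rw [hx, hy]; simp [mul_comm]

theorem sq_eq_norm (hf : MemLp f 2 ν) : ∫ x, f x ^ 2 ∂ν = ‖hf.toLp f‖ ^ 2 := by
  rw [← real_inner_self_eq_norm_sq, ← mul_eq_inner]; simp only [sq]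

theorem cs_int (hf : MemLp f 2 ν) (hg : MemLp g 2 ν) :
    |∫ x, f x * g x ∂ν| ≤ √(∫ x, f x ^ 2 ∂ν) * √(∫ x, g x ^ 2 ∂ν) := by
  rw [mul_eq_inner hf hg, sq_eq_norm hf, sq_eq_norm hg, Real.sqrt_sq (norm_nonneg _),
    Real.sqrt_sq (norm_nonneg _)]
  exact abs_real_inner_le_norm _ _

theorem sub_sq_eq (hf : MemLp f 2 ν) (hg : MemLp g 2 ν) :
    ∫ x, (f x - g x) ^ 2 ∂ν = ‖hf.toLp f - hg.toLp g‖ ^ 2 := by
  rw [← MemLp.toLp_sub]; exact sq_eq_norm (hf.sub hg)

theorem l2_lim {f : ℕ → α → ℝ} (hf : ∀ m, MemLp (f m) 2 ν)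
    (hc : ∀ ε > 0, ∃ M, ∀ m ≥ M, ∀ l ≥ M, ∫ x, (f m x - f l x) ^ 2 ∂ν ≤ ε) :
    ∃ g, MemLp g 2 ν ∧ Tendsto (fun m => ∫ x, (f m x - g x) ^ 2 ∂ν) atTop (𝓝 0) := by
  have h1 : CauchySeq fun m => (hf m).toLp (f m) := by
    refine Metric.cauchySeq_iff.2 fun ε hε => ?_
    obtain ⟨M, hM⟩ := hc ((ε / 2) ^ 2) (by positivity)
    refine ⟨M, fun m hm l hl => ?_⟩
    have := hM m hm l hl
    rw [sub_sq_eq (hf m) (hf l)] at this
    rw [dist_eq_norm]
    have := (pow_le_pow_iff_left₀ (norm_nonneg _) (by positivity) two_ne_zero).1 this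
    linarith
  obtain ⟨G, hG⟩ := cauchySeq_tendsto_of_complete h1
  refine ⟨G, Lp.memLp G, ?_⟩
  simp only [sub_sq_eq (hf _) (Lp.memLp G), Lp.toLp_coeFn]
  simpa using (tendsto_iff_norm_sub_tendsto_zero.1 hG).pow 2

theorem pair_lim {f : ℕ → α → ℝ} (hf : ∀ m, MemLp (f m) 2 ν) (hg : MemLp g 2 ν)
    (hφ : MemLp φ 2 ν) (hl : Tendsto (fun m => ∫ x, (f m x - g x) ^ 2 ∂ν) atTop (𝓝 0)) :
    Tendsto (fun m => ∫ x, f m x * φ x ∂ν) atTop (𝓝 (∫ x, g x * φ x ∂ν)) := by
  simp only [mul_eq_inner (hf _) hφ, mul_eq_inner hg hφ]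
  refine Tendsto.inner ?_ tendsto_const_nhds
  rw [tendsto_iff_norm_sub_tendsto_zero]
  simp only [sub_sq_eq (hf _) hg] at hl
  simpa [Real.sqrt_sq (norm_nonneg _)] using hl.sqrt

end L2

variable {n : ℕ} {κ : Type*} [Fintype κ]

theorem pd_eq (i : Fin n) (f : En n → ℝ) : pderiv i f = dd (EuclideanSpace.single i (1 : ℝ)) f := rfl

theorem smpd {U : Set (En n)} (hU : IsOpen U) {f : En n → ℝ} (hf : ContDiffOn ℝ ∞ f U) (i : Fin n) :
    ContDiffOn ℝ ∞ (pderiv i f) U := contDiffOn_dd hU hf _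

theorem int_test {U : Set (En n)} {φ : En n → ℝ} (hφ : TO U φ) (g : En n → ℝ) :
    ∫ x in U, g x * φ x = ∫ x, g x * φ x :=
  setIntegral_eq_integral_of_forall_compl_eq_zero fun x hx => by rw [hφ.zero_off hx, mul_zero]

theorem test_memLp {U : Set (En n)} {φ : En n → ℝ} (hφ : TO U φ) : MemLp φ 2 (volume.restrict U) :=
  (hφ.1.1.continuous.memLp_of_hasCompactSupport hφ.1.2).restrict U

theorem pair_lim' {U : Set (En n)} {f : ℕ → En n → ℝ} {g φ : En n → ℝ}
    (hf : ∀ m, MemLp (f m) 2 (volume.restrict U)) (hg : MemLp g 2 (volume.restrict U))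
    (hφ : TO U φ) (hl : Tendsto (fun m => ∫ x in U, (f m x - g x) ^ 2) atTop (𝓝 0)) :
    Tendsto (fun m => ∫ x, f m x * φ x) atTop (𝓝 (∫ x, g x * φ x)) := by
  simpa only [int_test hφ] using pair_lim hf hg (test_memLp hφ) hl

theorem l2on_of {U : Set (En n)} (hU : IsOpen U) {g : En n → ℝ} (hg : MemLp g 2 (volume.restrict U)) :
    L2on U g := by
  refine ⟨?_, (IntegrableOn.locallyIntegrableOn hg.integrable_sq)⟩
  refine (locallyIntegrableOn_iff hU.isLocallyClosed).2 fun K hK hc => ?_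
  have : IsFiniteMeasure (volume.restrict K) := isFiniteMeasure_restrict.2 hc.measure_lt_top.ne
  exact (hg.mono_measure (Measure.restrict_mono hK le_rfl)).integrable one_le_two

theorem pd_mul_test {U : Set (En n)} (hU : IsOpen U) {a φ : En n → ℝ} (ha : ContDiffOn ℝ ∞ a U)
    (hφ : TO U φ) (i : Fin n) (x : En n) :
    pderiv i (fun y => a y * φ y) x = pderiv i a x * φ x + a x * pderiv i φ x := by
  by_cases hx : x ∈ U
  · have h1 := (ha.contDiffAt (hU.mem_nhds hx)).differentiableAt (by simp)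
    have h2 := hφ.1.1.differentiable (by simp) x
    unfold pderiv
    rw [fderiv_fun_mul h1 h2]; simp; ring
  · rw [pd_eq, ((hφ.mul_on hU ha).dd _).zero_off hx, hφ.zero_off hx, pd_eq i φ,
      (hφ.dd _).zero_off hx]; simp

theorem pd_mul_on {U : Set (En n)} (hU : IsOpen U) {a f : En n → ℝ} (ha : ContDiffOn ℝ ∞ a U)
    (hf : ContDiffOn ℝ ∞ f U) (i : Fin n) {x : En n} (hx : x ∈ U) :
    pderiv i (fun y => a y * f y) x = pderiv i a x * f x + a x * pderiv i f x := by
  have h1 := (ha.contDiffAt (hU.mem_nhds hx)).differentiableAt (by simp)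
  have h2 := (hf.contDiffAt (hU.mem_nhds hx)).differentiableAt (by simp)
  unfold pderiv
  rw [fderiv_fun_mul h1 h2]; simp; ring

theorem pd_sum_on {U : Set (En n)} (hU : IsOpen U) {ι : Type*} [Fintype ι] {f : ι → En n → ℝ}
    (hf : ∀ k, ContDiffOn ℝ ∞ (f k) U) (i : Fin n) {x : En n} (hx : x ∈ U) :
    pderiv i (fun y => ∑ k, f k y) x = ∑ k, pderiv i (f k) x := by
  unfold pderiv
  rw [fderiv_fun_sum fun k _ => ((hf k).contDiffAt (hU.mem_nhds hx)).differentiableAt (by simp)]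
  simp

/-- a second order system with scalar principal part -/
def opc (a : En n → Matrix (Fin n) (Fin n) ℝ) (B : Fin n → κ → κ → En n → ℝ) (C : κ → κ → En n → ℝ)
    (f : κ → En n → ℝ) (I : κ) (y : En n) : ℝ :=
  -(∑ i, ∑ k, a y i k * pderiv i (pderiv k (f I)) y) +
    (∑ i, ∑ I', B i I I' y * pderiv i (f I') y + ∑ I', C I I' y * f I' y)

/-- smooth elliptic coefficients -/
structure Cf (U : Set (En n)) (a : En n → Matrix (Fin n) (Fin n) ℝ) (B : Fin n → κ → κ → En n → ℝ)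
    (C : κ → κ → En n → ℝ) : Prop where
  sa : ∀ i k, ContDiffOn ℝ ∞ (fun y => a y i k) U
  pos : ∀ y ∈ U, (a y).PosDef
  sB : ∀ i I I', ContDiffOn ℝ ∞ (B i I I') U
  sC : ∀ I I', ContDiffOn ℝ ∞ (C I I') U

variable {U : Set (En n)} {a : En n → Matrix (Fin n) (Fin n) ℝ} {B : Fin n → κ → κ → En n → ℝ}
  {C : κ → κ → En n → ℝ}

theorem Cf.mono (h : Cf U a B C) {V : Set (En n)} (hV : V ⊆ U) : Cf V a B C :=
  ⟨fun i k => (h.sa i k).mono hV, fun y hy => h.pos y (hV hy), fun i I I' => (h.sB i I I').mono hV,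
    fun I I' => (h.sC I I').mono hV⟩

theorem opc_congr {f g : κ → En n → ℝ} {y : En n} (h : ∀ I, f I =ᶠ[𝓝 y] g I) (I : κ) :
    opc a B C f I y = opc a B C g I y := by
  have h1 : ∀ I k, pderiv k (f I) =ᶠ[𝓝 y] pderiv k (g I) := fun I k => by
    filter_upwards [(h I).fderiv (𝕜 := ℝ)] with z hz
    simp only [pderiv, hz]
  have h2 : ∀ I k i, pderiv i (pderiv k (f I)) y = pderiv i (pderiv k (g I)) y := fun I k i => by
    rw [pderiv, pderiv, (h1 I k).fderiv_eq]
  simp only [opc, h2, fun I k => (h1 I k).eq_of_nhds, fun I => (h I).eq_of_nhds]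

/-- the weak form -/
def wk (a : En n → Matrix (Fin n) (Fin n) ℝ) (B : Fin n → κ → κ → En n → ℝ) (C : κ → κ → En n → ℝ)
    (u : κ → En n → ℝ) (u' : Fin n → κ → En n → ℝ) (I : κ) (φ : En n → ℝ) : ℝ :=
  (∑ i, ∑ k, ∫ x, u' k I x * pderiv i (fun y => a y i k * φ y) x) +
    ((∑ i, ∑ I', ∫ x, u' i I' x * (B i I I' x * φ x)) + ∑ I', ∫ x, u I' x * (C I I' x * φ x))

theorem int3 {ι₁ ι₂ ι₃ ι₄ ι₅ : Type*} [Fintype ι₁] [Fintype ι₂] [Fintype ι₃] [Fintype ι₄]
    [Fintype ι₅] {f : ι₁ → ι₂ → En n → ℝ} {g : ι₃ → ι₄ → En n → ℝ} {h : ι₅ → En n → ℝ}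
    (hf : ∀ i k, Integrable (f i k)) (hg : ∀ i k, Integrable (g i k)) (hh : ∀ i, Integrable (h i)) :
    (Integrable fun x => ∑ i, ∑ k, f i k x + (∑ i, ∑ k, g i k x + ∑ i, h i x)) ∧
    ∫ x, (∑ i, ∑ k, f i k x + (∑ i, ∑ k, g i k x + ∑ i, h i x)) =
      (∑ i, ∑ k, ∫ x, f i k x) + ((∑ i, ∑ k, ∫ x, g i k x) + ∑ i, ∫ x, h i x) := by
  have j1 : ∀ i, Integrable fun x => ∑ k, f i k x :=
    fun i => integrable_finsetSum _ fun k _ => hf i k
  have j2 : ∀ i, Integrable fun x => ∑ k, g i k x :=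
    fun i => integrable_finsetSum _ fun k _ => hg i k
  have k1 : Integrable fun x => ∑ i, ∑ k, f i k x := integrable_finsetSum _ fun i _ => j1 i
  have k2 : Integrable fun x => ∑ i, ∑ k, g i k x := integrable_finsetSum _ fun i _ => j2 i
  have k3 : Integrable fun x => ∑ i, h i x := integrable_finsetSum _ fun i _ => hh i
  have k4 : Integrable fun x => ∑ i, ∑ k, g i k x + ∑ i, h i x := k2.add k3
  refine ⟨k1.add k4, ?_⟩
  rw [integral_add k1 k4, integral_add k2 k3, integral_finsetSum _ fun i _ => j1 i,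
    integral_finsetSum _ fun i _ => j2 i, integral_finsetSum _ fun i _ => hh i]
  simp only [integral_finsetSum _ fun k _ => hf _ k, integral_finsetSum _ fun k _ => hg _ k]

theorem wk_smooth (hU : IsOpen U) (h : Cf U a B C) {f : κ → En n → ℝ}
    (hf : ∀ I, ContDiffOn ℝ ∞ (f I) U) (I : κ) {φ : En n → ℝ} (hφ : TO U φ) :
    ∫ x, opc a B C f I x * φ x = wk a B C f (fun i I => pderiv i (f I)) I φ := by
  have i1 : ∀ i k, Integrable fun x => pderiv i (pderiv k (f I)) x * (a x i k * φ x) :=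
    fun i k => integrable_mul_test (locInt_contOn hU (smpd hU (smpd hU (hf I) k) i).continuousOn)
      (hφ.mul_on hU (h.sa i k))
  have i2 : ∀ i I', Integrable fun x => pderiv i (f I') x * (B i I I' x * φ x) :=
    fun i I' => integrable_mul_test (locInt_contOn hU (smpd hU (hf I') i).continuousOn)
      (hφ.mul_on hU (h.sB i I I'))
  have i3 : ∀ I', Integrable fun x => f I' x * (C I I' x * φ x) :=
    fun I' => integrable_mul_test (locInt_contOn hU (hf I').continuousOn)
      (hφ.mul_on hU (h.sC I I'))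
  have e1 : ∀ i k, ∫ x, pderiv k (f I) x * pderiv i (fun y => a y i k * φ y) x =
      -∫ x, pderiv i (pderiv k (f I)) x * (a x i k * φ x) := fun i k =>
    ibp_on hU (smpd hU (hf I) k) (hφ.mul_on hU (h.sa i k)) _
  simp only [wk, e1, ← integral_neg]
  have i1' : ∀ i k, Integrable fun x => -(pderiv i (pderiv k (f I)) x * (a x i k * φ x)) :=
    fun i k => (i1 i k).neg
  rw [← (int3 i1' i2 i3).2]
  refine integral_congr_ae (.of_forall fun x => ?_)
  simp only [opc, add_mul, neg_mul, Finset.sum_mul, Finset.sum_neg_distrib]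
  congr 1
  · congr 1
    exact Finset.sum_congr rfl fun _ _ => Finset.sum_congr rfl fun _ _ => by ring
  · congr 1
    · exact Finset.sum_congr rfl fun _ _ => Finset.sum_congr rfl fun _ _ => by ring
    · exact Finset.sum_congr rfl fun _ _ => by ring

/-- regularity of weak solutions, non-divergence form -/
theorem wk_reg (hU : IsOpen U) (h : Cf U a B C) {F u : κ → En n → ℝ} {u' : Fin n → κ → En n → ℝ}
    (hF : ∀ I, ContDiffOn ℝ ∞ (F I) U) (hu : ∀ I, L2on U (u I)) (hu' : ∀ i I, L2on U (u' i I))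
    (hW : ∀ i I φ, TO U φ → ∫ x, u I x * pderiv i φ x = -∫ x, u' i I x * φ x)
    (heq : ∀ I φ, TO U φ → wk a B C u u' I φ = ∫ x, F I x * φ x) :
    ∃ v : κ → En n → ℝ, (∀ I, ContDiffOn ℝ ∞ (v I) U) ∧ (∀ I, ∀ᵐ x, x ∈ U → v I x = u I x) ∧
      (∀ i I, ∀ᵐ x, x ∈ U → pderiv i (v I) x = u' i I x) ∧
      ∀ I, ∀ y ∈ U, opc a B C v I y = F I y := by
  classical
  have sd : ∀ k, ContDiffOn ℝ ∞ (fun x => ∑ i, pderiv i (fun y => a y i k) x) U := fun k =>
    ContDiffOn.sum fun i _ => smpd hU (h.sa i k) i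
  obtain ⟨v, h1, h2, h3, h4⟩ := sys_reg_euclid (κ := κ) hU (A := a) h.sa h.pos
    (B := fun k I I' x => -B k I I' x - if I = I' then ∑ i, pderiv i (fun y => a y i k) x else 0)
    (fun k I I' => (h.sB k I I').neg.sub (by split_ifs; exacts [sd k, contDiffOn_const]))
    (C := fun I I' x => -C I I' x) (fun I I' => (h.sC I I').neg) hF hu hu'
    (fun i I φ a1 a2 a3 => hW i I φ ⟨⟨a1, a2⟩, a3⟩) (fun I φ a1 a2 a3 => by
      have hφ : TO U φ := ⟨⟨a1, a2⟩, a3⟩
      have q := heq I φ hφ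
      have i1 : ∀ i k, Integrable fun x => u' k I x * (a x i k * pderiv i φ x) := fun i k =>
        integrable_mul_test (hu' k I).1 ((hφ.dd _).mul_on hU (h.sa i k))
      have i0 : ∀ i k, Integrable fun x => u' k I x * (pderiv i (fun y => a y i k) x * φ x) :=
        fun i k => integrable_mul_test (hu' k I).1 (hφ.mul_on hU (smpd hU (h.sa i k) i))
      have i2 : ∀ i I', Integrable fun x => u' i I' x * (B i I I' x * φ x) :=
        fun i I' => integrable_mul_test (hu' i I').1 (hφ.mul_on hU (h.sB i I I'))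
      have i3 : ∀ I', Integrable fun x => u I' x * (C I I' x * φ x) :=
        fun I' => integrable_mul_test (hu I').1 (hφ.mul_on hU (h.sC I I'))
      have i4 : Integrable fun x => F I x * φ x :=
        integrable_mul_test (locInt_contOn hU (hF I).continuousOn) hφ
      have e1 : ∀ i k, ∫ x, u' k I x * pderiv i (fun y => a y i k * φ y) x =
          (∫ x, u' k I x * (pderiv i (fun y => a y i k) x * φ x)) +
            ∫ x, u' k I x * (a x i k * pderiv i φ x) := fun i k => by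
        rw [← integral_add (i0 i k) (i1 i k)]
        refine integral_congr_ae (.of_forall fun x => ?_)
        simp only [pd_mul_test hU (h.sa i k) hφ]; ring
      have e2 : ∀ i, ∫ x, (∑ k, a x i k * u' k I x) * pderiv i φ x =
          ∑ k, ∫ x, u' k I x * (a x i k * pderiv i φ x) := fun i => by
        rw [← integral_finsetSum _ fun k _ => i1 i k]
        refine integral_congr_ae (.of_forall fun x => ?_)
        simp only [Finset.sum_mul]
        exact Finset.sum_congr rfl fun _ _ => by ring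
      simp only [wk, e1, Finset.sum_add_distrib] at q
      have e3 : ∫ x, ((∑ k, ∑ I', (-B k I I' x -
            if I = I' then ∑ i, pderiv i (fun y => a y i k) x else 0) * u' k I' x) +
            (∑ I', -C I I' x * u I' x) + F I x) * φ x =
          ∫ x, (F I x * φ x - (∑ i, ∑ k, u' k I x * (pderiv i (fun y => a y i k) x * φ x) +
            (∑ i, ∑ I', u' i I' x * (B i I I' x * φ x) + ∑ I', u I' x * (C I I' x * φ x)))) := by
        refine integral_congr_ae (.of_forall fun x => ?_)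
        simp only [sub_mul, Finset.sum_sub_distrib, ite_mul, zero_mul, Finset.sum_ite_eq,
          Finset.mem_univ, if_true, add_mul, Finset.sum_mul, neg_mul, Finset.sum_neg_distrib]
        rw [Finset.sum_comm (f := fun i k => u' k I x * (pderiv i (fun y => a y i k) x * φ x))]
        simp only [mul_comm (u' _ _ x), mul_comm (u _ x), mul_right_comm _ (φ x)]
        ring
      rw [e3, integral_sub i4 (int3 i0 i2 i3).1, (int3 i0 i2 i3).2]
      simp only [e2]
      linarith)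
  refine ⟨v, h1, h2, h3, fun I y hy => ?_⟩
  have q := h4 I y hy
  have e1 : ∀ i, pderiv i (fun y => ∑ k, a y i k * pderiv k (v I) y) y =
      ∑ k, (pderiv i (fun y => a y i k) y * pderiv k (v I) y +
        a y i k * pderiv i (pderiv k (v I)) y) := fun i => by
    rw [pd_sum_on hU (fun k => (h.sa i k).mul (smpd hU (h1 I) k)) i hy]
    exact Finset.sum_congr rfl fun k _ => pd_mul_on hU (h.sa i k) (smpd hU (h1 I) k) i hy
  simp only [e1, sub_mul, Finset.sum_sub_distrib, ite_mul, zero_mul, Finset.sum_ite_eq,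
    Finset.mem_univ, if_true, Finset.sum_mul, neg_mul, Finset.sum_neg_distrib,
    Finset.sum_add_distrib] at q
  rw [Finset.sum_comm (f := fun i k => pderiv i (fun y => a y i k) y * pderiv k (v I) y)] at q
  rw [opc]
  linarith

/-- `H¹` limits of approximate solutions are smooth solutions -/
theorem reg_lim (hU : IsOpen U) (h : Cf U a B C) {F : κ → En n → ℝ}
    (hF : ∀ I, ContDiffOn ℝ ∞ (F I) U) {f : ℕ → κ → En n → ℝ}
    (hf : ∀ m I, ContDiffOn ℝ ∞ (f m I) U) (m0 : ∀ m I, MemLp (f m I) 2 (volume.restrict U))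
    (m1 : ∀ m i I, MemLp (pderiv i (f m I)) 2 (volume.restrict U))
    (c0 : ∀ I, ∀ ε > 0, ∃ M, ∀ m ≥ M, ∀ l ≥ M, ∫ x in U, (f m I x - f l I x) ^ 2 ≤ ε)
    (c1 : ∀ i I, ∀ ε > 0, ∃ M, ∀ m ≥ M, ∀ l ≥ M,
      ∫ x in U, (pderiv i (f m I) x - pderiv i (f l I) x) ^ 2 ≤ ε)
    (hw : ∀ I φ, TO U φ →
      Tendsto (fun m => ∫ x, opc a B C (f m) I x * φ x) atTop (𝓝 (∫ x, F I x * φ x))) :
    ∃ v : κ → En n → ℝ, (∀ I, ContDiffOn ℝ ∞ (v I) U) ∧
      (∀ I, Tendsto (fun m => ∫ x in U, (f m I x - v I x) ^ 2) atTop (𝓝 0)) ∧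
      (∀ i I, Tendsto (fun m => ∫ x in U, (pderiv i (f m I) x - pderiv i (v I) x) ^ 2)
        atTop (𝓝 0)) ∧ (∀ I, ∀ y ∈ U, opc a B C v I y = F I y) ∧
      (∀ I, MemLp (v I) 2 (volume.restrict U)) ∧
      ∀ i I, MemLp (pderiv i (v I)) 2 (volume.restrict U) := by
  choose u hu hul using fun I => l2_lim (fun m => m0 m I) (c0 I)
  choose u' hu' hul' using fun i I => l2_lim (fun m => m1 m i I) (c1 i I)
  obtain ⟨v, h1, h2, h3, h4⟩ := wk_reg hU h hF (fun I => l2on_of hU (hu I))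
    (fun i I => l2on_of hU (hu' i I)) (fun i I φ hφ => by
      refine tendsto_nhds_unique (pair_lim' (fun m => m0 m I) (hu I) (hφ.dd _) (hul I)) ?_
      refine (pair_lim' (fun m => m1 m i I) (hu' i I) hφ (hul' i I)).neg.congr fun m => ?_
      exact (ibp_on hU (hf m I) hφ _).symm) (fun I φ hφ => by
      refine tendsto_nhds_unique ?_ (hw I φ hφ)
      simp only [wk_smooth hU h (hf _) I hφ, wk]
      refine (tendsto_finsetSum _ fun i _ => tendsto_finsetSum _ fun k _ => ?_).add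
        ((tendsto_finsetSum _ fun i _ => tendsto_finsetSum _ fun I' _ => ?_).add
          (tendsto_finsetSum _ fun I' _ => ?_))
      · exact pair_lim' (fun m => m1 m k I) (hu' k I) ((hφ.mul_on hU (h.sa i k)).dd _) (hul' k I)
      · exact pair_lim' (fun m => m1 m i I') (hu' i I') (hφ.mul_on hU (h.sB i I I')) (hul' i I')
      · exact pair_lim' (fun m => m0 m I') (hu I') (hφ.mul_on hU (h.sC I I')) (hul I'))
  refine ⟨v, h1, fun I => (hul I).congr fun m => ?_, fun i I => (hul' i I).congr fun m => ?_, h4,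
    fun I => (memLp_congr_ae ((ae_restrict_iff' hU.measurableSet).2 (h2 I))).2 (hu I),
    fun i I => (memLp_congr_ae ((ae_restrict_iff' hU.measurableSet).2 (h3 i I))).2 (hu' i I)⟩
  · refine setIntegral_congr_ae hU.measurableSet ?_
    filter_upwards [h2 I] with x hx hxU
    rw [hx hxU]
  · refine setIntegral_congr_ae hU.measurableSet ?_
    filter_upwards [h3 i I] with x hx hxU
    rw [hx hxU]


end Crest.Agent.N207.K

end
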