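import Crest.Agent.N207.K.Sch
import Crest.Agent.N207.I.Defs
import Crest.Agent.N207.K.KDefs
import Crest.Agent.N207.I.Car3

-- ▼ part N207/K/Trf1
section

/-!
# Row 207, block K (helper10): Hölder bounds under changes of charts
-/

set_option autoImplicit false

open scoped ContDiff
open Metric Set Filter Topology
open Crest.GeometryTopology.CoordMetric
open Crest.Agent.NLib.Ell Crest.Agent.N207.I Crest.Agent.R273.SchA_152

noncomputable section

namespace Crest.Agent.N207.K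

/-- precomposition with a fixed smooth map -/
theorem precomp {n : ℕ} {Φ : EE n → EE n} {O W : Set (EE n)} (hO : IsOpen O) (hW : IsOpen W)
    (hΦ : ContDiffOn ℝ ∞ Φ O) {z0 : EE n} {R a : ℝ} (hR : closedBall z0 R ⊆ O)
    (hm : ∀ z ∈ ball z0 R, Φ z ∈ W) (ha : 0 ≤ a) (ha1 : a ≤ 1) (k : ℕ) :
    ∃ C : ℝ, 0 < C ∧ ∀ (F : Type) [NormedAddCommGroup F] [NormedSpace ℝ F] (f : EE n → F) (N : ℝ),
      CKA a W k N f → CKA a (ball z0 R) k (C * N) fun z => f (Φ z) := by
  rcases (ball z0 R).eq_empty_or_nonempty with he | ⟨z1, hz1⟩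
  · exact ⟨1, one_pos, fun F _ _ f N _ => he ▸ CKA.empty _⟩
  obtain ⟨V1, hV1⟩ := exists_cka hO hΦ hR ha ha1 1
  obtain ⟨L, hL1, hL⟩ : ∃ L : ℝ, 1 ≤ L ∧ ∀ x ∈ ball z0 R, ∀ y ∈ ball z0 R,
      ‖Φ x - Φ y‖ ≤ L * ‖x - y‖ :=
    ⟨max 1 (n * V1), le_max_left _ _, fun x hx y hy =>
      (convex_ball z0 R).norm_image_sub_le_of_norm_fderiv_le
        (fun w hw => hV1.diffAt isOpen_ball hw)
        (fun w hw => ((hV1.fderiv isOpen_ball).bdd hw).trans (le_max_right _ _)) hy hx⟩
  have h0 : ∀ (F : Type) [NormedAddCommGroup F] (f : EE n → F) (N : ℝ), HO a N W f →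
      HO a (L * N) (ball z0 R) fun z => f (Φ z) := fun F _ f N h => by
    have hN : 0 ≤ N := h.nonneg (hm z1 hz1)
    refine ⟨fun x hx => (h.bdd _ (hm x hx)).trans (le_mul_of_one_le_left hN hL1),
      fun x hx y hy => (h.hol _ (hm x hx) _ (hm y hy)).trans ?_⟩
    have h1 : ‖Φ x - Φ y‖ ^ a ≤ L * ‖x - y‖ ^ a := by
      refine (Real.rpow_le_rpow (norm_nonneg _) (hL x hx y hy) ha).trans ?_
      rw [Real.mul_rpow (by linarith) (norm_nonneg _)]
      refine mul_le_mul_of_nonneg_right ?_ (Real.rpow_nonneg (norm_nonneg _) _)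
      simpa using Real.rpow_le_rpow_of_exponent_le hL1 ha1
    calc N * ‖Φ x - Φ y‖ ^ a ≤ N * (L * ‖x - y‖ ^ a) := mul_le_mul_of_nonneg_left h1 hN
      _ = L * N * ‖x - y‖ ^ a := by ring
  induction k with
  | zero => exact ⟨L, by linarith, fun F _ _ f N h => h0 F f N h⟩
  | succ k ih =>
    obtain ⟨C, hC, ih⟩ := ih
    obtain ⟨V, hV⟩ := exists_cka hO hΦ hR ha ha1 (k + 1)
    have hV0 : 0 ≤ V := hV.nonneg hz1
    have hp : 0 ≤ 2 ^ (k + 1) * (C * n * V) := by positivity
    refine ⟨L + 2 ^ (k + 1) * (C * n * V), by linarith, fun F _ _ f N h => ?_⟩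
    have hN : 0 ≤ N := h.nonneg (hm z1 hz1)
    refine ⟨(h0 F f N h.ho).mono (by nlinarith), fun z hz =>
      ((h.diffAt hW (hm z hz)).comp z (hV.diffAt isOpen_ball hz)).differentiableWithinAt,
      fun i => ?_⟩
    refine ((CKA.app isOpen_ball (ih _ _ _ (h.fderiv hW)) (hV.pd i)).congr isOpen_ball
      fun z hz => ?_).mono (by nlinarith)
    exact DFunLike.congr_fun (fderiv_comp z (h.diffAt hW (hm z hz)) (hV.diffAt isOpen_ball hz)) _

/-- smooth functions on the cells inside a compact set -/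
theorem cka_cpt {n : ℕ} {F : Type} [NormedAddCommGroup F] [NormedSpace ℝ F] {g : EE n → F}
    {U K : Set (EE n)} (hU : IsOpen U) (hg : ContDiffOn ℝ ∞ g U) (hK : IsCompact K) (hKU : K ⊆ U)
    {a : ℝ} (ha : 0 ≤ a) (ha1 : a ≤ 1) (k : ℕ) (ρ : ℝ) :
    ∃ V : ℝ, 0 ≤ V ∧ ∀ (x : EE n) (r : ℝ), 0 < r → r ≤ ρ → (∀ y ∈ ball (0 : EE n) 1, x + r • y ∈ K) →
      CKA a (ball 0 1) k V fun y => g (x + r • y) := by
  have hb : ∀ j : ℕ, ∃ B, ∀ x ∈ K, ‖iteratedFDeriv ℝ j g x‖ ≤ B := fun j =>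
    hK.exists_bound_of_continuousOn fun x hx =>
      ((hg.contDiffAt (hU.mem_nhds (hKU hx))).iteratedFDeriv_right (m := 0) (i := j)
        (by exact_mod_cast le_top)).continuousAt.continuousWithinAt
  choose B hB using hb
  refine ⟨max 1 ρ ^ (k + 1) * (2 * ∑ j ∈ Finset.range (k + 2), |B j|), by positivity,
    fun x r hr hρ h => ?_⟩
  have hs : ball x r ⊆ K := fun z hz => by
    have := h (r⁻¹ • (z - x)) (by
      rw [mem_ball_zero_iff, norm_smul, norm_inv, Real.norm_of_nonneg hr.le, inv_mul_lt_iff₀ hr,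
        mul_one]
      exact mem_ball_iff_norm.1 hz)
    rwa [smul_inv_smul₀ hr.ne', add_sub_cancel] at this
  have h1 : CKA a (ball x r) k (2 * ∑ j ∈ Finset.range (k + 2), |B j|) g :=
    CKA.of_bounds isOpen_ball (convex_ball _ _) ha ha1
      ((hg.mono (hs.trans hKU)).of_le (by exact_mod_cast le_top)) fun j hj z hz =>
      ((hB j z (hs hz)).trans (le_abs_self _)).trans (Finset.single_le_sum
        (f := fun j => |B j|) (fun _ _ => abs_nonneg _) (Finset.mem_range.2 (by omega)))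
  refine (h1.affine isOpen_ball ha ha1 x (r := r)
    ((abs_of_pos hr).le.trans (hρ.trans (le_max_right _ _))) (le_max_left _ _)).subset
    fun y hy => ?_
  rw [mem_preimage, mem_ball_iff_norm, add_sub_cancel_left, norm_smul, Real.norm_of_nonneg hr.le]
  exact mul_lt_of_lt_one_right hr (mem_ball_zero_iff.1 hy)

variable {X : Type*} {α : Type} {A : Atl X α}

theorem tr_evt (h : A.Ok) {a b : α} {x : E4} {F : E4 → E4} (t : A.Tr a b x F) :
    ∀ᶠ z in 𝓝 x, A.Tr a b z F := by
  filter_upwards [(h.isOpen a).mem_nhds t.mem,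
    t.sm.self_of_nhds.continuousAt.eventually ((h.isOpen b).mem_nhds t.mem'),
    t.sm.eventually_nhds, t.eq.eventually_nhds] with z h1 h2 h3 h4
  exact ⟨h1, h2, h3, h4⟩

/-- transfer of a cell bound through one change of charts -/
theorem trf_tr (h : A.Ok) {s s' : α} {z0 : E4} {H : E4 → E4} (t : A.Tr s s' z0 H) {ρ : ℝ}
    (hρ : 0 < ρ) (k j : ℕ) : ∃ R C : ℝ, 0 < R ∧ 0 < C ∧ ∀ (F : α → MetricField 4) (N : ℝ),
      A.Compat (fun s => matT (F s)) →
      (∀ a b, CKA (1 / 2) (ball 0 1) k N fun y => ρ ^ j * F s' (H z0 + ρ • y) a b) →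
      ∀ a b, CKA (1 / 2) (ball z0 R) k (C * N) fun z => F s z a b := by
  have hc : ContinuousAt (fun z => ρ⁻¹ • (H z - H z0)) z0 :=
    (t.sm.self_of_nhds.continuousAt.sub continuousAt_const).const_smul ρ⁻¹
  obtain ⟨ε, hε, hb⟩ := Metric.eventually_nhds_iff_ball.1 ((tr_evt h t).and
    (hc.eventually (isOpen_ball.mem_nhds (x := ρ⁻¹ • (H z0 - H z0)) (s := ball 0 1) (by simp))))
  have hH : ContDiffOn ℝ ∞ H (ball z0 ε) := fun z hz =>
    (hb z hz).1.sm.self_of_nhds.contDiffWithinAt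
  have hR : closedBall z0 (ε / 2) ⊆ ball z0 ε := closedBall_subset_ball (half_lt_self hε)
  obtain ⟨C, hC, hp⟩ := precomp (Φ := fun z => ρ⁻¹ • (H z - H z0)) (a := 1 / 2) isOpen_ball
    (isOpen_ball (x := (0 : E4)) (ε := 1)) ((hH.sub contDiffOn_const).const_smul _) hR
    (fun z hz => (hb z (hR (ball_subset_closedBall hz))).2) (by norm_num) (by norm_num) k
  have hD : ContDiffOn ℝ ∞ (fderiv ℝ H) (ball z0 ε) :=
    hH.fderiv_of_isOpen isOpen_ball (by exact_mod_cast le_rfl)
  obtain ⟨V, hV⟩ := exists_cka (a := 1 / 2) (g := fun z (I J : Fin 2 → Fin 4) =>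
      (ρ ^ j)⁻¹ * ∏ p, fderiv ℝ H z (EuclideanSpace.single (I p) 1) (J p)) isOpen_ball
    (contDiffOn_pi.2 fun I => contDiffOn_pi.2 fun J => contDiffOn_const.mul
      (contDiffOn_prod fun p _ => (EuclideanSpace.proj (𝕜 := ℝ) (J p)).contDiff.comp_contDiffOn
        (hD.clm_apply contDiffOn_const))) hR (by norm_num) (by norm_num) k
  have hV0 : 0 ≤ V := hV.nonneg (mem_ball_self (half_pos hε))
  refine ⟨ε / 2, 16 * (2 ^ (k + 1) * (V * C)) + 1, half_pos hε, by positivity,
    fun F N hF hN a b => ?_⟩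
  have hN0 : 0 ≤ N := (hN a b).nonneg (mem_ball_self one_pos)
  refine ((CKA.sum_le isOpen_ball fun J : Fin 2 → Fin 4 => CKA.mul isOpen_ball
    ((hV.apply isOpen_ball ![a, b]).apply isOpen_ball J) (hp _ _ _ (hN (J 0) (J 1)))).congr
    isOpen_ball fun z hz => ?_).mono ?_
  · have e := congrFun (hF s s' z H (hb z (hR (ball_subset_closedBall hz))).1) ![a, b]
    refine e.trans ?_
    rw [smul_inv_smul₀ hρ.ne', add_sub_cancel, pullT, evT]
    refine Finset.sum_congr rfl fun J _ => ?_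
    simp only [matT]
    field_simp
  · simp only [Fintype.card_fun, Fintype.card_fin]
    push_cast
    nlinarith

/-- cell bounds give bounds on small balls around the points of a compact set -/
theorem trf_cpt [Fintype α] {χ : α → X → ℝ} {K : α → Set E4} (h : A.Ok) (hp : A.PoU χ K)
    {ρ : α → E4 → ℝ} (hρ : ∀ s, ∀ x ∈ K s, 0 < ρ s x) (k j : ℕ) {s : α} {K0 : Set E4}
    (hK : IsCompact K0) (hU : K0 ⊆ A.U s) :
    ∀ᶠ t in 𝓝 (0 : ℝ), ∀ z ∈ K0, 0 < t → ∀ (F : α → MetricField 4) (N : ℝ),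
      A.Compat (fun s => matT (F s)) →
      (∀ s, ∀ x ∈ K s, ∀ a b,
        CKA (1 / 2) (ball 0 1) k N fun y => ρ s x ^ j * F s (x + ρ s x • y) a b) →
      ∀ a b, CKA (1 / 2) (ball z t) k (t⁻¹ * N) fun z => F s z a b := by
  refine hK.eventually_forall_of_forall_eventually fun z0 hz0 => ?_
  obtain ⟨s', -, hs'⟩ := Finset.exists_ne_zero_of_sum_ne_zero
    ((hp.sum s z0 (hU hz0)).trans_ne one_ne_zero)
  obtain ⟨x', hx', e⟩ := hp.supp s' s z0 (hU hz0) hs'
  obtain ⟨H, t, rfl⟩ := h.loc s s' z0 (hU hz0) x' (hp.sub s' hx') e.symm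
  obtain ⟨R, C, hR, hC, hb⟩ := trf_tr h t (hρ s' _ hx') k j
  have c1 : Continuous fun p : ℝ × E4 => p.1 + dist p.2 z0 := by fun_prop
  have c2 : Continuous fun p : ℝ × E4 => p.1 * C := by fun_prop
  filter_upwards [c1.continuousAt.eventually (gt_mem_nhds (a := R) (by simpa using hR)),
    c2.continuousAt.eventually (gt_mem_nhds (a := 1) (by simp))] with p h1 h2 h0 F N hF hN a b
  have hN0 : 0 ≤ N := (hN s' _ hx' a b).nonneg (mem_ball_self one_pos)
  refine ((hb F N hF (hN s' _ hx') a b).subset (ball_subset_ball' h1.le)).mono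
    (mul_le_mul_of_nonneg_right ?_ hN0)
  rw [← one_div, le_div_iff₀' h0]
  exact h2.le

end Crest.Agent.N207.K

end
end

-- ▼ part N207/K/Trf

/-!
# Row 207, block K (helper10): the leaves `TRF` and `PSB`
-/

set_option autoImplicit false

open scoped ContDiff
open Metric Set Filter Topology
open Crest.GeometryTopology.CoordMetric
open Crest.Agent.NLib.Ell Crest.Agent.N207.I Crest.Agent.N207.CB Crest.Agent.N207.I.TD

noncomputable section

namespace Crest.Agent.N207.K

variable {M : Type*} {T : TD M}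

theorem rad_pos' {v : T.V} {s : T.S} {x : E4} (hx : x ∈ T.cK v s) : 0 < rad T s x := by
  cases s with
  | inl a => norm_num [rad]
  | inr w =>
    have : 0 < ‖x‖ := by
      by_cases hw : w = v
      · subst hw; linarith [mem_cK_out.1 hx]
      · exact ((mem_cK_inn hw).1 hx).2.1
    simpa [rad] using this

theorem nrm_cell (x : E4) {y : E4} (hy : y ∈ B1) {r : ℝ} (hr : 0 ≤ r) :
    ‖x‖ - r ≤ ‖x + r • y‖ ∧ ‖x + r • y‖ ≤ ‖x‖ + r := by
  have h1 : ‖r • y‖ ≤ r := by
    rw [norm_smul, Real.norm_of_nonneg hr]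
    exact mul_le_of_le_one_right hr (mem_ball_zero_iff.1 hy).le
  have h2 := norm_sub_le (x + r • y) (r • y)
  rw [add_sub_cancel_right] at h2
  exact ⟨by linarith, (norm_add_le _ _).trans (by linarith)⟩

theorem cpt_ann (p q : ℝ) : IsCompact {z : E4 | p ≤ ‖z‖ ∧ ‖z‖ ≤ q} :=
  (isCompact_closedBall (0 : E4) q).of_isClosed_subset
    ((isClosed_le continuous_const continuous_norm).inter
      (isClosed_le continuous_norm continuous_const)) fun _ h => mem_closedBall_zero_iff.2 h.2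

/-- the points of a cell are in a fixed compact set, or deep in the end -/
theorem cell_cases (h : T.Ok) (v : T.V) (s : T.S) {R ε : ℝ} (hR : 2 ≤ R) (hε : 0 < ε) :
    ∃ K : Set E4, IsCompact K ∧ K ⊆ (T.core v).U s ∧ ∀ x ∈ T.cK v s,
      (8 * rad T s x ≤ R ∧ ∀ y ∈ B1, x + rad T s x • y ∈ K) ∨
      (s = Sum.inr v ∧ R ≤ ‖x‖) ∨ ∃ w, w ≠ v ∧ s = Sum.inr w ∧ ‖x‖ ≤ ε := by
  have hr := h.r_pos
  have hr1 := h.r_lt
  cases s with
  | inl a =>
    by_cases hv : T.vx a = v
    · refine ⟨_, cpt_ann 0 (13 / 8), fun z hz => mem_core_inl.2 ⟨hv, by linarith [hz.2]⟩,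
        fun x hx => Or.inl ⟨by simp only [rad, Sum.elim_inl]; linarith, fun y hy =>
          ⟨norm_nonneg _, ?_⟩⟩⟩
      have := (nrm_cell x hy (rad_pos' hx).le).2
      simp only [rad, Sum.elim_inl] at this ⊢
      linarith [(mem_cK_inl.1 hx).2]
    · exact ⟨∅, isCompact_empty, empty_subset _, fun x hx => absurd (mem_cK_inl.1 hx).1 hv⟩
  | inr w =>
    by_cases hw : w = v
    · subst hw
      refine ⟨_, cpt_ann (21 / 16) (9 / 8 * R), fun z hz => mem_core_out.2 (by linarith [hz.1]),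
        fun x hx => ?_⟩
      rcases le_total ‖x‖ R with h1 | h1
      · refine Or.inl ⟨by simp only [rad, Sum.elim_inr]; linarith, fun y hy => ?_⟩
        have := nrm_cell x hy (rad_pos' hx).le
        simp only [rad, Sum.elim_inr] at this ⊢
        exact ⟨by linarith [mem_cK_out.1 hx, this.1], by linarith [this.2]⟩
      · exact Or.inr (Or.inl ⟨rfl, h1⟩)
    · by_cases hk : T.kid v w
      · refine ⟨_, cpt_ann (7 / 8 * ε) (27 / 32 * T.r), fun z hz =>
          (mem_core_inn hw).2 ⟨hk, by linarith [hz.1], by linarith [hz.2]⟩, fun x hx => ?_⟩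
        have h2 := ((mem_cK_inn hw).1 hx).2.2
        rcases le_total ε ‖x‖ with h1 | h1
        · refine Or.inl ⟨by simp only [rad, Sum.elim_inr]; linarith, fun y hy => ?_⟩
          have := nrm_cell x hy (rad_pos' hx).le
          simp only [rad, Sum.elim_inr] at this ⊢
          exact ⟨by linarith [this.1], by linarith [this.2]⟩
        · exact Or.inr (Or.inr ⟨w, hw, rfl, h1⟩)
      · exact ⟨∅, isCompact_empty, empty_subset _,
          fun x hx => absurd ((mem_cK_inn hw).1 hx).1 hk⟩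

variable (T)

theorem trf : TRF T := by
  intro h k j
  have hr := h.r_pos
  choose K hK hU hc using fun v s =>
    cell_cases h v s (R := 2) (ε := 2 / 3 * T.r) le_rfl (by positivity)
  have h1 := eventually_all.2 fun v => eventually_all.2 fun s =>
    trf_cpt (h.core_ok v) (h.core_pou v) (ρ := rad T) (fun _ _ hx => rad_pos' hx) k j
      (hK v s) (hU v s)
  obtain ⟨t, ⟨ht, ht8⟩, ht0⟩ := (((h1.and (Iio_mem_nhds (by norm_num : (0 : ℝ) < 1 / 8))).filter_mono
    (nhdsWithin_le_nhds (s := Ioi 0))).and self_mem_nhdsWithin).exists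
  have ht0 : 0 < t := ht0
  have ht8 : t < 1 / 8 := ht8
  refine ⟨t⁻¹ + 2 ^ j * 2 ^ (k + 1), t, by positivity, ht0, ht8.le,
    fun v F N hF hN s x hx y0 hy0 a b => ?_⟩
  have hρ := rad_pos' hx
  have hN0 : 0 ≤ N := (hN s x hx trivial a b).nonneg (mem_ball_self one_pos)
  have nb : x + rad T s x • y0 ∈ T.cK v s → rad T s x ≤ 2 * rad T s (x + rad T s x • y0) →
      CKA (1 / 2) (ball y0 t) k ((t⁻¹ + 2 ^ j * 2 ^ (k + 1)) * N)
        fun y => rad T s x ^ j * F s (x + rad T s x • y) a b := fun hz h2 => by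
    have hρ' := rad_pos' hz
    have h3 := resc (w := fun p => rad T s (x + rad T s x • y0) ^ j * F s p a b) (L := 2)
      (by norm_num) (by norm_num) ((hN s _ hz trivial a b).subset
        (ball_subset_ball (by norm_num : (1 / 4 : ℝ) ≤ 1))) hρ hρ' (by norm_num) h2 rfl
    refine (((h3.subset (ball_subset_ball (by linarith))).const_mul isOpen_ball
      ((rad T s x / rad T s (x + rad T s x • y0)) ^ j)).congr isOpen_ball fun y _ => ?_).mono ?_
    · rw [div_pow]; field_simp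
    · have : (rad T s x / rad T s (x + rad T s x • y0)) ^ j ≤ 2 ^ j :=
        pow_le_pow_left₀ (by positivity) ((div_le_iff₀ hρ').2 h2) j
      rw [abs_of_pos (by positivity), add_mul, mul_assoc]
      exact le_add_of_nonneg_of_le (by positivity)
        (mul_le_mul_of_nonneg_right this (by positivity))
  have hn := nrm_cell x hy0 hρ.le
  rcases hc v s x hx with ⟨h2, h3⟩ | ⟨rfl, h2⟩ | ⟨w, hw, rfl, h2⟩
  · have h4 := (ht v s _ (h3 y0 hy0) ht0 F N hF.sec.compat (fun s x hx => hN s x hx trivial)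
      a b).dilate isOpen_ball (by norm_num) (by norm_num) x (r := rad T s x)
      (by rw [abs_of_pos hρ]; linarith)
    refine ((h4.subset fun y hy => ?_).const_mul isOpen_ball (rad T s x ^ j)).mono ?_
    · rw [mem_preimage, mem_ball_iff_norm, add_sub_add_left_eq_sub, ← smul_sub, norm_smul,
        Real.norm_of_nonneg hρ.le]
      exact (mul_le_of_le_one_left (norm_nonneg _) (by linarith)).trans_lt (mem_ball_iff_norm.1 hy)
    · have : rad T s x ^ j ≤ 1 := pow_le_one₀ hρ.le (by linarith)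
      rw [abs_of_pos (by positivity), add_mul]
      exact le_add_of_le_of_nonneg (mul_le_of_le_one_left (by positivity) this) (by positivity)
  · simp only [rad, Sum.elim_inr] at hn nb ⊢
    exact nb (mem_cK_out.2 (by linarith [hn.1])) (by linarith [hn.1])
  · simp only [rad, Sum.elim_inr] at hn nb hρ ⊢
    exact nb ((mem_cK_inn hw).2 ⟨((mem_cK_inn hw).1 hx).1, by linarith [hn.1], by linarith [hn.2]⟩)
      (by linarith [hn.1])

theorem psb : PSB T := by
  intro h k j v T1 F hF hV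
  have key : ∀ s, ∃ N : ℝ, 0 ≤ N ∧ ∀ x ∈ T.cK v s, ∀ a b,
      CKA (1 / 2) B1 k N fun y => rad T s x ^ j * F s (x + rad T s x • y) a b := fun s => by
    have e1 := Real.exp_pos T1
    have e2 := Real.exp_pos (-T1)
    obtain ⟨K, hK, hU, hc⟩ := cell_cases h v s (R := 2 + 2 * Real.exp T1)
      (ε := Real.exp (-T1) / 2) (by linarith) (by positivity)
    obtain ⟨V, hV0, hb⟩ := cka_cpt (g := fun z (I : Fin 2 → Fin 4) => matT (F s) z I) (a := 1 / 2)
      ((h.core_ok v).isOpen s) (contDiffOn_pi.2 (hF.sec.sm s)) hK hU (by norm_num) (by norm_num) k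
      (2 + 2 * Real.exp T1)
    refine ⟨(2 + 2 * Real.exp T1) ^ j * V, by positivity, fun x hx a b => ?_⟩
    have hρ := rad_pos' hx
    have z0 : (∀ y ∈ B1, F s (x + rad T s x • y) = 0) → CKA (1 / 2) B1 k
        ((2 + 2 * Real.exp T1) ^ j * V) fun y => rad T s x ^ j * F s (x + rad T s x • y) a b :=
      fun h0 => (CKA.zero.congr isOpen_ball fun y hy => by simp [h0 y hy]).mono (by positivity)
    rcases hc x hx with ⟨h2, h3⟩ | ⟨rfl, h2⟩ | ⟨w, hw, rfl, h2⟩
    · refine (((hb x _ hρ (by linarith) h3).apply isOpen_ball ![a, b]).const_mul isOpen_ball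
        (rad T s x ^ j)).mono (mul_le_mul_of_nonneg_right ?_ hV0)
      rw [abs_of_pos (by positivity)]
      exact pow_le_pow_left₀ hρ.le (by linarith) j
    · refine z0 fun y hy => ?_
      have hn := nrm_cell x hy hρ.le
      simp only [rad, Sum.elim_inr] at hn ⊢
      refine hV v _ (mem_core_out.2 (by linarith [hn.1])) ?_
      rw [tau, if_pos rfl, sub_nonneg, Real.le_log_iff_exp_le (by linarith [hn.1])]
      linarith [hn.1]
    · refine z0 fun y hy => ?_
      have hn := nrm_cell x hy hρ.le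
      have hx' := (mem_cK_inn hw).1 hx
      simp only [rad, Sum.elim_inr] at hn ⊢
      refine hV w _ ((mem_core_inn hw).2 ⟨hx'.1, by linarith [hn.1, hx'.2.1],
        by linarith [hn.2, hx'.2.2, h.r_pos]⟩) ?_
      rw [tau, if_neg hw, sub_nonneg, le_neg,
        Real.log_le_iff_le_exp (by linarith [hn.1, hx'.2.1])]
      linarith [hn.2]
  choose N hN0 hN using key
  exact ⟨∑ s, N s, Finset.sum_nonneg fun s _ => hN0 s, fun s x hx _ a b => (hN s x hx a b).mono
    (Finset.single_le_sum (fun s _ => hN0 s) (Finset.mem_univ s))⟩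

end Crest.Agent.N207.K

end
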