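import Crest.Agent.N207.K.Hd1
import Crest.Agent.N207.J.Sph4
import Crest.Agent.R070.Polar_664
import Crest.Agent.N207.I.Defs

-- ▼ part N207/K/Hd2
section

/-!
# Row 207, block K (helper5): Hardy inequalities on necks, constants independent of the length
-/

set_option autoImplicit false
open MeasureTheory Set Filter Topology Metric
open scoped ContDiff
open Crest.GeometryTopology.CoordMetric

noncomputable section

namespace Crest.Agent.N207.Hd

variable {U : Set E4} {u : E4 → ℝ} {a c : ℝ}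

/-- a smooth step from `0` (`s ≤ 1`) to `1` (`κ² ≤ s`) -/
structure Step (κ C : ℝ) (S : ℝ → ℝ) : Prop where
  sm : ContDiff ℝ ∞ S
  nn : ∀ s, 0 ≤ S s
  le : ∀ s, S s ≤ 1
  zero : ∀ s, s ≤ 1 → S s = 0
  one : ∀ s, κ ^ 2 ≤ s → S s = 1
  d0 : ∀ s, 0 ≤ deriv S s
  dle : ∀ s, s * deriv S s ≤ C
  dz : ∀ s, s < 1 → deriv S s = 0
  dz' : ∀ s, κ ^ 2 < s → deriv S s = 0

theorem exists_step {κ : ℝ} (hκ : 1 < κ) : ∃ C, 0 ≤ C ∧ ∃ S, Step κ C S := by
  have hk : 0 < κ ^ 2 - 1 := by nlinarith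
  set S : ℝ → ℝ := fun s => Real.smoothTransition ((s - 1) / (κ ^ 2 - 1)) with hS
  have sm : ContDiff ℝ ∞ S :=
    Real.smoothTransition.contDiff.comp ((contDiff_id.sub contDiff_const).div_const _)
  have zero : ∀ s, s ≤ 1 → S s = 0 := fun s hs =>
    Real.smoothTransition.zero_of_nonpos (div_nonpos_of_nonpos_of_nonneg (by linarith) hk.le)
  have one : ∀ s, κ ^ 2 ≤ s → S s = 1 := fun s hs =>
    Real.smoothTransition.one_of_one_le ((one_le_div hk).2 (by linarith))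
  have mono : Monotone S := fun s t h =>
    Real.smoothTransition.monotone (div_le_div_of_nonneg_right (by linarith) hk.le)
  have dz : ∀ s, s < 1 → deriv S s = 0 := fun s hs => by
    have : S =ᶠ[𝓝 s] fun _ => 0 := by
      filter_upwards [Iio_mem_nhds hs] with t ht using zero t (le_of_lt ht)
    rw [this.deriv_eq, deriv_const]
  have dz' : ∀ s, κ ^ 2 < s → deriv S s = 0 := fun s hs => by
    have : S =ᶠ[𝓝 s] fun _ => 1 := by
      filter_upwards [Ioi_mem_nhds hs] with t ht using one t (le_of_lt ht)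
    rw [this.deriv_eq, deriv_const]
  have cd : Continuous fun s => s * deriv S s := continuous_id.mul (sm.continuous_deriv (by simp))
  obtain ⟨C, hC⟩ := (isCompact_Icc (a := (1 : ℝ)) (b := κ ^ 2)).exists_bound_of_continuousOn
    cd.continuousOn
  have h0 : 0 ≤ C := (norm_nonneg _).trans (hC 1 ⟨le_rfl, by linarith⟩)
  refine ⟨C, h0, S, sm, fun _ => Real.smoothTransition.nonneg _,
    fun _ => Real.smoothTransition.le_one _, zero, one, fun s => mono.deriv_nonneg, fun s => ?_,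
    dz, dz'⟩
  by_cases h1 : s < 1
  · rw [dz s h1, mul_zero]; exact h0
  by_cases h2 : κ ^ 2 < s
  · rw [dz' s h2, mul_zero]; exact h0
  exact (le_abs_self _).trans (hC s ⟨not_lt.1 h1, not_lt.1 h2⟩)

theorem Step.hasDeriv {κ C : ℝ} {S : ℝ → ℝ} (h : Step κ C S) (t s : ℝ) :
    HasDerivAt (fun s => S (t * s)) (deriv S (t * s) * t) s := by
  have := ((h.sm.differentiable (by simp) (t * s)).hasDerivAt).comp s
    ((hasDerivAt_id s).const_mul t)
  simpa [Function.comp_def] using this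

theorem contOn_wt (ha : 0 < a) (p : ℝ) : ContinuousOn (fun x : E4 => (‖x‖ ^ 2) ^ p) (An a c) :=
  contOn_rad (φ := fun s => s ^ p) (fun s hs =>
    (Real.continuousAt_rpow_const s p (Or.inl (ne_of_gt hs))).continuousWithinAt) ha

theorem int_ind {f : E4 → ℝ} {S T : Set E4} (hS : MeasurableSet S) (h : S ⊆ T) :
    ∫ x in T, S.indicator f x = ∫ x in S, f x := by
  rw [setIntegral_indicator hS, inter_eq_right.2 h]

/-- Hardy on a neck: the error lives on the outer collar if `-1 ≤ σ`, on the inner one if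
`σ ≤ -1` -/
theorem hardy_neck {κ : ℝ} (hκ : 1 < κ) : ∃ C : ℝ, 0 ≤ C ∧ ∀ (U : Set E4) (u : E4 → ℝ) (a c σ : ℝ),
    IsOpen U → ContDiffOn ℝ 1 u U → 0 < a → κ * a ≤ c → An a c ⊆ U →
    (1 + σ) ^ 2 * ∫ x in An (κ * a) (c / κ), (‖x‖ ^ 2) ^ (σ - 1) * u x ^ 2 ≤
      (∫ x in An a c, (‖x‖ ^ 2) ^ (σ - 1) * dr u x ^ 2) + C * |1 + σ| *
        ∫ x in (if -1 ≤ σ then An (c / κ) c else An a (κ * a)), (‖x‖ ^ 2) ^ (σ - 1) * u x ^ 2 := by
  obtain ⟨C, hC, S, h⟩ := exists_step hκ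
  refine ⟨2 * C, by positivity, fun U u a c σ hU hu ha hac hsub => ?_⟩
  have hκ0 : 0 < κ := by linarith
  have hc : 0 < c := lt_of_lt_of_le (by positivity) hac
  set t1 : ℝ := (a ^ 2)⁻¹ with ht1
  set t2 : ℝ := κ ^ 2 * (c ^ 2)⁻¹ with ht2
  have t1p : 0 < t1 := by positivity
  have t2p : 0 < t2 := by positivity
  set β : ℝ → ℝ := fun s => S (t1 * s) * (1 - S (t2 * s)) with hβ
  have sβ : ContDiff ℝ 1 β := by
    have := h.sm.of_le (m := 1) (by simp)
    exact (this.comp (contDiff_const.mul contDiff_id)).mul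
      (contDiff_const.sub (this.comp (contDiff_const.mul contDiff_id)))
  have dβ : ∀ s, deriv β s = deriv S (t1 * s) * t1 * (1 - S (t2 * s))
      + S (t1 * s) * -(deriv S (t2 * s) * t2) := fun s =>
    ((h.hasDeriv t1 s).mul ((h.hasDeriv t2 s).const_sub 1)).deriv
  have k1 : ∀ r : ℝ, 0 ≤ r → r ≤ a → t1 * r ^ 2 ≤ 1 := fun r h0 h1 => by
    rw [ht1, inv_mul_le_iff₀ (by positivity), mul_one]; exact pow_le_pow_left₀ h0 h1 2
  have k2 : ∀ r : ℝ, κ * a ≤ r → κ ^ 2 ≤ t1 * r ^ 2 := fun r h1 => by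
    rw [ht1, le_inv_mul_iff₀ (by positivity), mul_comm, ← mul_pow]
    exact pow_le_pow_left₀ (by positivity) h1 2
  have k2' : ∀ r : ℝ, κ * a < r → κ ^ 2 < t1 * r ^ 2 := fun r h1 => by
    rw [ht1, lt_inv_mul_iff₀ (by positivity), mul_comm, ← mul_pow]
    exact pow_lt_pow_left₀ h1 (by positivity) two_ne_zero
  have e2 : ∀ r : ℝ, t2 * r ^ 2 = (κ * r / c) ^ 2 := fun r => by rw [ht2]; field_simp
  have k3 : ∀ r : ℝ, 0 ≤ r → r ≤ c / κ → t2 * r ^ 2 ≤ 1 := fun r h0 h1 => by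
    rw [e2]
    refine pow_le_one₀ (by positivity) ((div_le_one hc).2 ?_)
    rwa [le_div_iff₀ hκ0, mul_comm] at h1
  have k3' : ∀ r : ℝ, 0 ≤ r → r < c / κ → t2 * r ^ 2 < 1 := fun r h0 h1 => by
    rw [e2]
    refine pow_lt_one₀ (by positivity) ((div_lt_one hc).2 ?_) two_ne_zero
    rwa [lt_div_iff₀ hκ0, mul_comm] at h1
  have k4 : ∀ r : ℝ, c ≤ r → κ ^ 2 ≤ t2 * r ^ 2 := fun r h1 => by
    rw [e2]
    refine pow_le_pow_left₀ hκ0.le ?_ 2
    rw [le_div_iff₀ hc]; exact mul_le_mul_of_nonneg_left h1 hκ0.le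
  have h1 := hardy_pow hU hu ha hsub σ sβ fun x _ _ hx => by
    by_cases h2 : a ≤ ‖x‖
    · have h3 : c ≤ ‖x‖ := le_of_not_ge fun h3 => hx ⟨h2, h3⟩
      simp only [hβ, h.one _ (k4 _ h3), sub_self, mul_zero, zero_mul]
    · simp only [hβ, h.zero _ (k1 _ (norm_nonneg x) (le_of_not_ge h2)), zero_mul]
  set A2 : Set E4 := if -1 ≤ σ then An (c / κ) c else An a (κ * a) with hA2
  have hac' : a ≤ c / κ := by rw [le_div_iff₀ hκ0, mul_comm]; exact hac
  have s1 : An (κ * a) (c / κ) ⊆ An a c := An_mono (by nlinarith) (div_le_self hc.le hκ.le)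
  have s2 : A2 ⊆ An a c := by
    rw [hA2]; split_ifs
    exacts [An_mono hac' le_rfl, An_mono le_rfl hac]
  have m2 : MeasurableSet A2 := by
    rw [hA2]; split_ifs <;> exact measurableSet_An _ _
  set F : E4 → ℝ := fun x => (‖x‖ ^ 2) ^ (σ - 1) * u x ^ 2 with hF
  have cu : ContinuousOn u (An a c) := hu.continuousOn.mono hsub
  have iF : IntegrableOn F (An a c) :=
    ((contOn_wt ha _).mul (cu.pow 2)).integrableOn_compact (isCompact_An a c)
  rw [← int_ind (measurableSet_An _ _) s1, ← int_ind m2 s2, ← sub_le_iff_le_add,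
    ← integral_const_mul, ← integral_const_mul, ← integral_sub
      ((iF.indicator (measurableSet_An _ _)).const_mul _) ((iF.indicator m2).const_mul _)]
  refine le_trans (setIntegral_mono_on (((iF.indicator (measurableSet_An _ _)).const_mul _).sub
    ((iF.indicator m2).const_mul _)) ?_ (measurableSet_An a c) fun x hx => ?_) h1
  · have cn : ContinuousOn (fun x : E4 => ‖x‖ ^ 2) (An a c) := (continuous_norm.pow 2).continuousOn
    have c1 := contOn_rad (c := c) sβ.continuous.continuousOn ha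
    have c2 := contOn_rad (c := c) (sβ.continuous_deriv le_rfl).continuousOn ha
    exact (((contOn_wt ha _).mul ((continuousOn_const.mul ((continuousOn_const.mul c1).sub
      (c1.pow 2))).add (continuousOn_const.mul (cn.mul c2)))).mul
      (cu.pow 2)).integrableOn_compact (isCompact_An a c)
  have F0 : 0 ≤ F x := mul_nonneg (Real.rpow_nonneg (sq_nonneg _) _) (sq_nonneg _)
  have b0 : 0 ≤ β (‖x‖ ^ 2) := mul_nonneg (h.nn _) (sub_nonneg.2 (h.le _))
  have b1 : β (‖x‖ ^ 2) ≤ 1 := mul_le_one₀ (h.le _) (sub_nonneg.2 (h.le _)) (by linarith [h.nn (t2 * ‖x‖ ^ 2)])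
  have p1 : (An (κ * a) (c / κ)).indicator F x ≤ (2 * β (‖x‖ ^ 2) - β (‖x‖ ^ 2) ^ 2) * F x := by
    by_cases h2 : x ∈ An (κ * a) (c / κ)
    · rw [indicator_of_mem h2]
      simp only [hβ, h.one _ (k2 _ h2.1), h.zero _ (k3 _ (norm_nonneg x) h2.2)]
      norm_num
    · rw [indicator_of_notMem h2]
      exact mul_nonneg (by nlinarith) F0
  set d1 := t1 * ‖x‖ ^ 2 * deriv S (t1 * ‖x‖ ^ 2) with hd1
  set d2 := t2 * ‖x‖ ^ 2 * deriv S (t2 * ‖x‖ ^ 2) with hd2
  have d10 : 0 ≤ d1 := mul_nonneg (by positivity) (h.d0 _)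
  have d20 : 0 ≤ d2 := mul_nonneg (by positivity) (h.d0 _)
  have d1C : d1 ≤ C := h.dle _
  have d2C : d2 ≤ C := h.dle _
  have eβ : ‖x‖ ^ 2 * deriv β (‖x‖ ^ 2) =
      d1 * (1 - S (t2 * ‖x‖ ^ 2)) - S (t1 * ‖x‖ ^ 2) * d2 := by rw [dβ, hd1, hd2]; ring
  have q1 : 0 ≤ d1 * (1 - S (t2 * ‖x‖ ^ 2)) := mul_nonneg d10 (sub_nonneg.2 (h.le _))
  have q2 : 0 ≤ S (t1 * ‖x‖ ^ 2) * d2 := mul_nonneg (h.nn _) d20
  have q3 : d1 * (1 - S (t2 * ‖x‖ ^ 2)) ≤ d1 :=
    mul_le_of_le_one_right d10 (by linarith [h.nn (t2 * ‖x‖ ^ 2)])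
  have q4 : S (t1 * ‖x‖ ^ 2) * d2 ≤ d2 := mul_le_of_le_one_left d20 (h.le _)
  have p2 : -(C * |1 + σ| * A2.indicator F x) ≤
      (1 + σ) * (‖x‖ ^ 2 * deriv β (‖x‖ ^ 2)) * F x := by
    rw [eβ, hA2]
    split_ifs with hσ
    · rw [abs_of_nonneg (by linarith)]
      have hσ' : 0 ≤ (1 + σ) * F x := mul_nonneg (by linarith) F0
      by_cases h2 : x ∈ An (c / κ) c
      · rw [indicator_of_mem h2]; nlinarith
      · have h3 : ‖x‖ < c / κ := lt_of_not_ge fun h3 => h2 ⟨h3, hx.2⟩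
        have : d2 = 0 := by rw [hd2, h.dz _ (k3' _ (norm_nonneg x) h3), mul_zero]
        rw [indicator_of_notMem h2, this]; nlinarith
    · rw [abs_of_nonpos (by linarith)]
      have hσ' : 0 ≤ -(1 + σ) * F x := mul_nonneg (by linarith) F0
      by_cases h2 : x ∈ An a (κ * a)
      · rw [indicator_of_mem h2]; nlinarith
      · have h3 : κ * a < ‖x‖ := lt_of_not_ge fun h3 => h2 ⟨hx.1, h3⟩
        have : d1 = 0 := by rw [hd1, h.dz' _ (k2' _ h3), mul_zero]
        rw [indicator_of_notMem h2, this]; nlinarith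
  have p3 := mul_le_mul_of_nonneg_left p1 (sq_nonneg (1 + σ))
  simp only [hF] at p2 p3 ⊢
  nlinarith

theorem int_dr_le (hU : IsOpen U) (hu : ContDiffOn ℝ 1 u U) (ha : 0 < a) (hsub : An a c ⊆ U)
    (σ : ℝ) : ∫ x in An a c, (‖x‖ ^ 2) ^ (σ - 1) * dr u x ^ 2 ≤
      ∫ x in An a c, (‖x‖ ^ 2) ^ σ * g2 u x := by
  refine setIntegral_mono_on (((contOn_wt ha _).mul
    (((contOn_dr hU hu).mono hsub).pow 2)).integrableOn_compact (isCompact_An a c))
    (((contOn_wt ha _).mul ((contOn_g2 hU hu).mono hsub)).integrableOn_compact (isCompact_An a c))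
    (measurableSet_An a c) fun x hx => ?_
  have hs : 0 < ‖x‖ ^ 2 := pow_pos (pos_of_An ha hx) 2
  calc _ ≤ (‖x‖ ^ 2) ^ (σ - 1) * (‖x‖ ^ 2 * g2 u x) :=
        mul_le_mul_of_nonneg_left (dr_sq_le u x) (Real.rpow_nonneg hs.le _)
    _ = _ := by
        have := (pos_of_An ha hx).ne'
        rw [Real.rpow_sub_one hs.ne']; field_simp

/-- the unweighted form: `∫ u²/|x|² ≤ ∫ |Du|² + C ∫_(outer collar) u²/|x|²` -/
theorem hardy0 {κ : ℝ} (hκ : 1 < κ) : ∃ C : ℝ, 0 ≤ C ∧ ∀ (U : Set E4) (u : E4 → ℝ) (a c : ℝ),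
    IsOpen U → ContDiffOn ℝ 1 u U → 0 < a → κ * a ≤ c → An a c ⊆ U →
    ∫ x in An (κ * a) (c / κ), (‖x‖ ^ 2)⁻¹ * u x ^ 2 ≤
      (∫ x in An a c, g2 u x) + C * ∫ x in An (c / κ) c, (‖x‖ ^ 2)⁻¹ * u x ^ 2 := by
  obtain ⟨C, hC, h⟩ := hardy_neck hκ
  refine ⟨C, hC, fun U u a c hU hu ha hac hsub => ?_⟩
  have h1 := h U u a c 0 hU hu ha hac hsub
  have h2 := int_dr_le hU hu ha hsub 0
  simp only [add_zero, one_pow, one_mul, zero_sub, Real.rpow_neg_one, abs_one, mul_one,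
    Real.rpow_zero, show (-1 : ℝ) ≤ 0 by norm_num, if_true] at h1 h2
  linarith

end Crest.Agent.N207.Hd

end
end

-- ▼ part N207/K/Hd3
section

/-!
# Row 207, block K (helper5): Poincaré inequalities on spheres, polar coordinates
-/

set_option autoImplicit false
open MeasureTheory Set Filter Topology Metric
open scoped ContDiff InnerProductSpace
open Crest.GeometryTopology.CoordMetric
open Crest.Agent.R246.Zon797 (Pr rotV rotS rotS_coe rotV_i rotV_j rotV_ne rotV_zero isoS isoS_coe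
  integral_isoS)

noncomputable section

namespace Crest.Agent.N207.Hd

variable {U : Set E4} {u f : E4 → ℝ} {a c r : ℝ}

/-- rotation derivative -/
def ro (p : Pr 4) (u : E4 → ℝ) (x : E4) : ℝ :=
  x p.1.1 * pderiv p.1.2 u x - x p.1.2 * pderiv p.1.1 u x

theorem sum_ro_sq (u : E4 → ℝ) (x : E4) :
    ∑ p, ro p u x ^ 2 = ‖x‖ ^ 2 * g2 u x - dr u x ^ 2 := by
  rw [J.sum_Pr4, norm_sq_eq, dr_eq_sum, g2]
  simp only [ro, Fin.sum_univ_four]
  ring

theorem contOn_ro (hU : IsOpen U) (hu : ContDiffOn ℝ 1 u U) (p : Pr 4) :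
    ContinuousOn (ro p u) U :=
  ((contDiff_coord (n := 0) _).continuous.continuousOn.mul (contOn_pderiv hU hu _)).sub
    ((contDiff_coord (n := 0) _).continuous.continuousOn.mul (contOn_pderiv hU hu _))

theorem hasDerivAt_rotV (p : Pr 4) (x : E4) :
    HasDerivAt (fun θ : ℝ => rotV p.1.1 p.1.2 θ x)
      (x p.1.1 • EuclideanSpace.single p.1.2 (1 : ℝ) - x p.1.2 • EuclideanSpace.single p.1.1 1) 0 := by
  have hne : p.1.1 ≠ p.1.2 := ne_of_lt p.2
  set e1 : E4 := EuclideanSpace.single p.1.1 (1 : ℝ)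
  set e2 : E4 := EuclideanSpace.single p.1.2 (1 : ℝ)
  have e : (fun θ : ℝ => rotV p.1.1 p.1.2 θ x) = fun θ => x + (Real.cos θ - 1) •
      (x p.1.1 • e1 + x p.1.2 • e2) + Real.sin θ • (x p.1.1 • e2 - x p.1.2 • e1) := by
    funext θ
    ext k
    by_cases h1 : k = p.1.1
    · subst h1; rw [rotV_i]; simp [e1, e2, hne]; ring
    · by_cases h2 : k = p.1.2
      · subst h2; rw [rotV_j hne]; simp [e1, e2, h1]; ring
      · rw [rotV_ne h1 h2]; simp [e1, e2, h1, h2]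
  rw [e]
  have hc : HasDerivAt (fun θ => Real.cos θ - 1) 0 0 := by
    simpa using (Real.hasDerivAt_cos 0).sub_const 1
  have hs : HasDerivAt Real.sin 1 0 := by simpa using Real.hasDerivAt_sin 0
  have := ((hc.smul_const (x p.1.1 • e1 + x p.1.2 • e2)).const_add x).add
    (hs.smul_const (x p.1.1 • e2 - x p.1.2 • e1))
  rw [zero_smul, one_smul, zero_add] at this
  exact this

/-- restriction to the sphere of radius `r` -/
def sp (f : E4 → ℝ) (r : ℝ) (h : Continuous fun s : J.S3 => f (r • (s : E4))) : J.CS :=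
  ⟨fun s => (f (r • (s : E4)) : ℂ), Complex.continuous_ofReal.comp h⟩

theorem cont_sp (hf : ContinuousOn f U) (hs : ∀ s : J.S3, r • (s : E4) ∈ U) :
    Continuous fun s : J.S3 => f (r • (s : E4)) :=
  hf.comp_continuous (continuous_subtype_val.const_smul r) hs

theorem integrable_sp (hf : ContinuousOn f U) (hs : ∀ s : J.S3, r • (s : E4) ∈ U) :
    Integrable (fun s : J.S3 => f (r • (s : E4))) J.sg := J.integrable_CSR _ (cont_sp hf hs)

theorem norm_sp (h : Continuous fun s : J.S3 => f (r • (s : E4))) :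
    ‖J.toH (sp f r h)‖ ^ 2 = ∫ s : J.S3, f (r • (s : E4)) ^ 2 ∂J.sg := by
  rw [J.norm_toH_sq]
  refine integral_congr_ae (Eventually.of_forall fun s => ?_)
  simp [sp]

theorem HR_sp (hU : IsOpen U) (hu : ContDiffOn ℝ 1 u U) (hs : ∀ s : J.S3, r • (s : E4) ∈ U)
    (p : Pr 4) : J.HR p (sp u r (cont_sp hu.continuousOn hs))
      (sp (ro p u) r (cont_sp (contOn_ro hU hu p) hs)) := by
  intro s
  have h1 := (hasDerivAt_rotV p s).const_smul r
  have h2 : HasFDerivAt u (fderiv ℝ u (r • (s : E4))) (r • rotV p.1.1 p.1.2 0 s) := by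
    rw [rotV_zero]
    exact ((hu.contDiffAt (hU.mem_nhds (hs s))).differentiableAt one_ne_zero).hasFDerivAt
  have h3 := (h2.comp_hasDerivAt (0 : ℝ) h1).ofReal_comp
  refine h3.congr_deriv ?_
  simp only [sp, ContinuousMap.coe_mk, ro, pderiv, map_smul, map_sub, smul_eq_mul,
    PiLp.smul_apply]
  congr 1
  ring

theorem poinc_CS {F : J.CS} {G : Pr 4 → J.CS} (h : ∀ p, J.HR p F (G p)) (m : ℕ)
    (hm : J.Q m (J.toH F) = 0) :
    (m * (m + 2) : ℝ) * ‖J.toH F‖ ^ 2 ≤ ∑ p, ‖J.toH (G p)‖ ^ 2 := by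
  have h1 := (J.parseval (J.toH F)).mul_left (m * (m + 2) : ℝ)
  have h2 := hasSum_sum fun p (_ : p ∈ Finset.univ) => J.parseval (J.toH (G p))
  refine hasSum_le (fun k => ?_) h1 h2
  rw [J.sum_norm_P_HR h k]
  rcases lt_or_ge k m with hk | hk
  · have : J.P k (J.toH F) = 0 := by
      rw [J.P_apply, ← J.Q_Q_of_ge (show k + 1 ≤ m by omega), ← J.Q_Q_of_ge hk.le, hm, map_zero,
        map_zero, sub_self]
    rw [this]; simp
  · have : (m : ℝ) ≤ k := by exact_mod_cast hk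
    have h0 : (0 : ℝ) ≤ m := Nat.cast_nonneg m
    exact mul_le_mul_of_nonneg_right (by nlinarith) (sq_nonneg _)

theorem Q_eq_zero {m : ℕ} {F : J.H} (h : ∀ w ∈ J.W m, ⟪J.toH w, F⟫_ℂ = 0) : J.Q m F = 0 := by
  refine ext_inner_left ℂ fun z => ?_
  obtain ⟨w, hw, hz⟩ := J.Q_mem m z
  rw [← J.inner_Q, ← hz, inner_zero_right]
  exact h w hw

theorem orth_V0 {F : J.H} {v : J.CS} (h : ⟪J.toH v, F⟫_ℂ = 0) {w : J.CS} (hw : w ∈ J.V 0) :
    ⟪J.toH (v * w), F⟫_ℂ = 0 := by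
  obtain ⟨t, rfl⟩ := Submodule.mem_span_singleton.1 hw
  rw [mul_smul_comm, mul_one, map_smul, inner_smul_left, h, mul_zero]


theorem inner_sp (h : Continuous fun s : J.S3 => f (r • (s : E4))) {v : J.CS} {w : J.S3 → ℝ}
    (hv : ∀ s, v s = w s) :
    ⟪J.toH v, J.toH (sp f r h)⟫_ℂ = ((∫ s : J.S3, w s * f (r • (s : E4)) ∂J.sg : ℝ) : ℂ) := by
  rw [J.inner_toH, ← integral_complex_ofReal]
  refine integral_congr_ae (Eventually.of_forall fun s => ?_)
  simp [sp, hv]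

theorem sph_poinc (hU : IsOpen U) (hu : ContDiffOn ℝ 1 u U) (hs : ∀ s : J.S3, r • (s : E4) ∈ U)
    (m : ℕ) (hm : J.Q m (J.toH (sp u r (cont_sp hu.continuousOn hs))) = 0) :
    (m * (m + 2) : ℝ) * ∫ s : J.S3, u (r • (s : E4)) ^ 2 ∂J.sg ≤
      ∫ s : J.S3, (‖r • (s : E4)‖ ^ 2 * g2 u (r • (s : E4)) - dr u (r • (s : E4)) ^ 2) ∂J.sg := by
  have h := poinc_CS (HR_sp hU hu hs) m hm
  simp only [norm_sp] at h
  rw [← integral_finsetSum (f := fun p (s : J.S3) => ro p u (r • (s : E4)) ^ 2) _ fun p _ =>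
    integrable_sp ((contOn_ro hU hu p).pow 2) hs] at h
  simpa only [sum_ro_sq] using h

/-- zero mean on the sphere of radius `r` -/
def M0 (u : E4 → ℝ) (r : ℝ) : Prop := ∫ s : J.S3, u (r • (s : E4)) ∂J.sg = 0

/-- orthogonal to the affine functions on the sphere of radius `r` -/
def M1 (u : E4 → ℝ) (r : ℝ) : Prop :=
  M0 u r ∧ ∀ i, ∫ s : J.S3, (s : E4) i * u (r • (s : E4)) ∂J.sg = 0

theorem sph_poinc3 (hU : IsOpen U) (hu : ContDiffOn ℝ 1 u U)
    (hs : ∀ s : J.S3, r • (s : E4) ∈ U) (h0 : M0 u r) :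
    3 * ∫ s : J.S3, u (r • (s : E4)) ^ 2 ∂J.sg ≤
      ∫ s : J.S3, (‖r • (s : E4)‖ ^ 2 * g2 u (r • (s : E4)) - dr u (r • (s : E4)) ^ 2) ∂J.sg := by
  have h := sph_poinc hU hu hs 1 (Q_eq_zero fun w hw => by
    have := orth_V0 (v := 1) (F := J.toH (sp u r (cont_sp hu.continuousOn hs))) (by
      rw [inner_sp _ (w := fun _ => 1) fun _ => rfl]
      simp only [one_mul]
      rw [h0]; rfl) hw
    rwa [one_mul] at this)
  norm_num at h ⊢
  exact h


theorem norm_smul_sph (hr : 0 < r) (s : J.S3) : ‖r • (s : E4)‖ = r := by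
  rw [norm_smul, Real.norm_of_nonneg hr.le, norm_eq_of_mem_sphere, mul_one]

theorem int_ind' {f : ℝ → ℝ} {S T : Set ℝ} (hS : MeasurableSet S) (h : S ⊆ T) :
    ∫ x in T, S.indicator f x = ∫ x in S, f x := by
  rw [setIntegral_indicator hS, inter_eq_right.2 h]

/-- polar coordinates on annuli -/
theorem int_An (ha : 0 < a) (hf : IntegrableOn f (An a c)) :
    ∫ x in An a c, f x = ∫ r in Icc a c, r ^ 3 * ∫ s : J.S3, f (r • (s : E4)) ∂J.sg := by
  have h := Crest.Agent.R070.Polar664.integral_polar (volume : Measure E4)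
    ((integrable_indicator_iff (measurableSet_An a c)).2 hf)
  rw [integral_indicator (measurableSet_An a c)] at h
  rw [h, ← int_ind' (measurableSet_Icc) (show Icc a c ⊆ Ioi 0 from fun r hr => ha.trans_le hr.1)]
  refine setIntegral_congr_fun measurableSet_Ioi fun r hr => ?_
  have e : ∀ s : J.S3, r • (s : E4) ∈ An a c ↔ r ∈ Icc a c := fun s => by
    simp only [An, mem_ofPred_eq, norm_smul_sph hr, mem_Icc]
  by_cases h1 : r ∈ Icc a c
  · simp only [indicator_of_mem h1, fun s => indicator_of_mem ((e s).2 h1) f]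
    simp
  · simp only [indicator_of_notMem h1, fun s => indicator_of_notMem (mt (e s).1 h1) f]
    simp

theorem int_An_nonneg (ha : 0 < a) (hf : IntegrableOn f (An a c))
    (h : ∀ r ∈ Icc a c, 0 ≤ ∫ s : J.S3, f (r • (s : E4)) ∂J.sg) : 0 ≤ ∫ x in An a c, f x := by
  rw [int_An ha hf]
  exact setIntegral_nonneg measurableSet_Icc fun r hr =>
    mul_nonneg (pow_nonneg (ha.le.trans hr.1) 3) (h r hr)

/-- radially weighted form of a Poincaré inequality on spheres -/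
theorem int_An_poinc (hU : IsOpen U) (hu : ContDiffOn ℝ 1 u U) (ha : 0 < a) (hsub : An a c ⊆ U)
    {w : ℝ → ℝ} (hw : ContinuousOn w (Ioi 0)) (hw0 : ∀ s, 0 < s → 0 ≤ w s) {m : ℝ}
    (h : ∀ r ∈ Icc a c, m * ∫ s : J.S3, u (r • (s : E4)) ^ 2 ∂J.sg ≤
      ∫ s : J.S3, (‖r • (s : E4)‖ ^ 2 * g2 u (r • (s : E4)) - dr u (r • (s : E4)) ^ 2) ∂J.sg) :
    m * (∫ x in An a c, w (‖x‖ ^ 2) * u x ^ 2) + ∫ x in An a c, w (‖x‖ ^ 2) * dr u x ^ 2 ≤
      ∫ x in An a c, w (‖x‖ ^ 2) * (‖x‖ ^ 2 * g2 u x) := by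
  have cw := contOn_rad (c := c) hw ha
  have cn : ContinuousOn (fun x : E4 => ‖x‖ ^ 2) U := (continuous_norm.pow 2).continuousOn
  have c1 := hu.continuousOn.pow 2
  have c2 := (contOn_dr hU hu).pow 2
  have c3 := cn.mul (contOn_g2 hU hu)
  have i1 := (cw.mul (c1.mono hsub)).integrableOn_compact (μ := volume) (isCompact_An a c)
  have i2 := (cw.mul (c2.mono hsub)).integrableOn_compact (μ := volume) (isCompact_An a c)
  have i3 := (cw.mul (c3.mono hsub)).integrableOn_compact (μ := volume) (isCompact_An a c)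
  have key := int_An_nonneg ha ((i3.sub i2).sub (i1.const_mul m)) fun r hr => by
    have r0 : 0 < r := ha.trans_le hr.1
    have hs : ∀ s : J.S3, r • (s : E4) ∈ U := fun s =>
      hsub (by simp only [An, mem_ofPred_eq, norm_smul_sph r0]; exact hr)
    have h1 := mul_nonneg (hw0 (r ^ 2) (by positivity)) (sub_nonneg.2 (h r hr))
    have j1 : Integrable (fun s : J.S3 => ‖r • (s : E4)‖ ^ 2 * g2 u (r • (s : E4)) -
        dr u (r • (s : E4)) ^ 2) J.sg := integrable_sp (c3.sub c2) hs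
    have j2 : Integrable (fun s : J.S3 => m * u (r • (s : E4)) ^ 2) J.sg :=
      (integrable_sp c1 hs).const_mul m
    rw [← integral_const_mul, ← integral_sub j1 j2, ← integral_const_mul] at h1
    refine h1.trans_eq (integral_congr_ae (Eventually.of_forall fun s => ?_))
    simp only [Pi.sub_apply, Pi.mul_apply, Pi.pow_apply, norm_smul_sph r0]
    ring
  rw [integral_sub' (i3.sub i2) (i1.const_mul m), integral_sub' i3 i2, integral_const_mul] at key
  simp only [Pi.mul_apply, Pi.pow_apply] at key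
  linarith

end Crest.Agent.N207.Hd

end
end

-- ▼ part N207/K/Hd4

/-!
# Row 207, block K (helper5): `Atl.Conn`; Hardy inequalities for equivariant fields
-/

set_option autoImplicit false
open MeasureTheory Set Filter Topology Metric
open scoped ContDiff InnerProductSpace
open Crest.GeometryTopology.CoordMetric
open Crest.Agent.R246.Zon797 (isoS isoS_coe integral_isoS)

noncomputable section

namespace Crest.Agent.N207

/-- the part of the carrier covered by the charts is connected -/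
def I.Atl.Conn {X : Type*} {α : Type} (A : I.Atl X α) : Prop :=
  ∀ S : Set X, A.Cl S → A.Cl Sᶜ →
    (∀ a, ∀ x ∈ A.U a, A.c a x ∈ S) ∨ (∀ a, ∀ x ∈ A.U a, A.c a x ∉ S)

namespace Hd

variable {U : Set E4} {u : E4 → ℝ} {a c r : ℝ}

theorem mem_An_sph (ha : 0 < a) (hr : r ∈ Icc a c) (s : J.S3) : r • (s : E4) ∈ An a c := by
  simp only [An, mem_ofPred_eq, norm_smul_sph (ha.trans_le hr.1)]; exact hr

theorem contOn_rpow (p : ℝ) : ContinuousOn (fun s : ℝ => s ^ p) (Ioi 0) := fun s hs =>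
  (Real.continuousAt_rpow_const s p (Or.inl (ne_of_gt hs))).continuousWithinAt

theorem int_wt_g2 (ha : 0 < a) (σ : ℝ) (u : E4 → ℝ) :
    ∫ x in An a c, (‖x‖ ^ 2) ^ (σ - 1) * (‖x‖ ^ 2 * g2 u x) =
      ∫ x in An a c, (‖x‖ ^ 2) ^ σ * g2 u x := by
  refine setIntegral_congr_fun (measurableSet_An a c) fun x hx => ?_
  have := (pos_of_An ha hx).ne'
  rw [Real.rpow_sub_one (pow_pos (pos_of_An ha hx) 2).ne']; field_simp

/-- `3 ∫ |x|^(2σ-2) u² + ∫ |x|^(2σ-2) (x·Du)² ≤ ∫ |x|^(2σ) |Du|²`, no boundary terms -/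
theorem poinc3 (hU : IsOpen U) (hu : ContDiffOn ℝ 1 u U) (ha : 0 < a) (hsub : An a c ⊆ U)
    (h : ∀ r ∈ Icc a c, M0 u r) (σ : ℝ) :
    3 * (∫ x in An a c, (‖x‖ ^ 2) ^ (σ - 1) * u x ^ 2) +
      ∫ x in An a c, (‖x‖ ^ 2) ^ (σ - 1) * dr u x ^ 2 ≤ ∫ x in An a c, (‖x‖ ^ 2) ^ σ * g2 u x := by
  rw [← int_wt_g2 ha σ u]
  exact int_An_poinc hU hu ha hsub (contOn_rpow (σ - 1)) (fun s hs => Real.rpow_nonneg hs.le _)
    fun r hr => sph_poinc3 hU hu (fun s => hsub (mem_An_sph ha hr s)) (h r hr)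


/-- Hardy with constant `(1+σ)² + 3` -/
theorem hardy_M0 {κ : ℝ} (hκ : 1 < κ) : ∃ C : ℝ, 0 ≤ C ∧ ∀ (U : Set E4) (u : E4 → ℝ) (a c σ : ℝ),
    IsOpen U → ContDiffOn ℝ 1 u U → 0 < a → κ * a ≤ c → An a c ⊆ U → (∀ r ∈ Icc a c, M0 u r) →
    (1 + σ) ^ 2 * (∫ x in An (κ * a) (c / κ), (‖x‖ ^ 2) ^ (σ - 1) * u x ^ 2) +
      3 * ∫ x in An a c, (‖x‖ ^ 2) ^ (σ - 1) * u x ^ 2 ≤
      (∫ x in An a c, (‖x‖ ^ 2) ^ σ * g2 u x) + C * |1 + σ| *
        ∫ x in (if -1 ≤ σ then An (c / κ) c else An a (κ * a)), (‖x‖ ^ 2) ^ (σ - 1) * u x ^ 2 := by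
  obtain ⟨C, hC, h⟩ := hardy_neck hκ
  refine ⟨C, hC, fun U u a c σ hU hu ha hac hsub h0 => ?_⟩
  linarith [h U u a c σ hU hu ha hac hsub, poinc3 hU hu ha hsub h0 σ]


/-- the components of an equivariant `1`-form have mean zero on spheres -/
theorem M0_of_eqv {γ : I.Iso4} (hγ : ∀ x : E4, γ x = x → x = 0) (hr : 0 < r) {w : Fin 4 → E4 → ℝ}
    (hw : ∀ i, Continuous fun s : J.S3 => w i (r • (s : E4)))
    (h : ∀ x : E4, ‖x‖ = r → ∀ i, w i x = ∑ j, γ (EuclideanSpace.single i 1) j * w j (γ x))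
    (i : Fin 4) : M0 (w i) r := by
  set m : E4 := WithLp.toLp 2 fun i => ∫ s : J.S3, w i (r • (s : E4)) ∂J.sg with hm
  have h1 : ∀ i, m i = ∑ j, γ (EuclideanSpace.single i 1) j * m j := fun i => by
    have e : ∀ j, m j = ∫ s : J.S3, w j (γ (r • (s : E4))) ∂J.sg := fun j => by
      have := integral_isoS γ fun s : J.S3 => w j (r • (s : E4))
      simp only [isoS_coe] at this
      simp only [map_smul, this, hm]
    have ci : ∀ j, Integrable (fun s : J.S3 => w j (γ (r • (s : E4)))) J.sg := fun j => by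
      have := (hw j).comp (Crest.Agent.R246.Zon797.continuous_isoS γ)
      refine J.integrable_CSR _ (this.congr fun s => ?_)
      simp only [Function.comp_apply, isoS_coe, map_smul]
    simp only [e, ← integral_const_mul]
    rw [← integral_finsetSum _ fun j _ => (ci j).const_mul _, ← e]
    exact integral_congr_ae (Eventually.of_forall fun s => h _ (norm_smul_sph hr s) i)
  have h2 : γ.symm m = m := by
    ext i
    have : γ.symm m i = ⟪γ (EuclideanSpace.single i 1), m⟫_ℝ := by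
      rw [← γ.symm.inner_map_map, γ.symm_apply_apply, EuclideanSpace.inner_single_left]; simp
    rw [this, h1 i, PiLp.inner_apply]
    exact Finset.sum_congr rfl fun j _ => by simp [mul_comm]
  have h3 : m = 0 := hγ m (by rw [← h2, γ.apply_symm_apply, h2])
  have := congrArg (fun v : E4 => v i) h3
  simpa [hm, M0] using this

theorem sum_fin1 (f : (Fin 1 → Fin 4) → ℝ) : ∑ J, f J = ∑ j, f fun _ => j :=
  ((Equiv.funUnique (Fin 1) (Fin 4)).symm.sum_comp f).symm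

/-- the same for `T = γ^* T` -/
theorem M0_of_pull {γ : I.Iso4} (hγ : ∀ x : E4, γ x = x → x = 0) (hr : 0 < r) {T : Tn 4 1}
    (hT : ∀ I, Continuous fun s : J.S3 => T (r • (s : E4)) I)
    (h : ∀ x : E4, ‖x‖ = r → T x = pullT γ T x) (I : Fin 1 → Fin 4) : M0 (fun y => T y I) r := by
  have hI : I = fun _ => I 0 := funext fun s => by rw [Subsingleton.elim s 0]
  rw [hI]
  refine M0_of_eqv (w := fun i y => T y fun _ => i) hγ hr (fun i => hT _) (fun x hx i => ?_) (I 0)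
  have hf : fderiv ℝ γ x = (γ.toContinuousLinearEquiv : E4 →L[ℝ] E4) :=
    γ.toContinuousLinearEquiv.hasFDerivAt.fderiv
  have := congrFun (h x hx) fun _ => i
  rw [this, pullT, evT, sum_fin1, hf]
  simp


theorem exists_free {Γ : Subgroup I.Iso4} (h1 : Γ ≠ ⊥)
    (h2 : ∀ γ ∈ Γ, ∀ x : E4, x ≠ 0 → γ x = x → γ = 1) :
    ∃ γ ∈ Γ, ∀ x : E4, γ x = x → x = 0 := by
  obtain ⟨⟨γ, hγ⟩, h⟩ := Subgroup.ne_bot_iff_exists_ne_one.1 h1
  refine ⟨γ, hγ, fun x hx => by_contra fun h0 => h (Subtype.ext (h2 γ hγ x h0 hx))⟩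

/-- compatible `1`-forms have components of mean zero on the spheres of a chart -/
theorem M0_of_sec {X : Type*} {α : Type} {A : I.Atl X α} (hA : A.Ok) {T : α → Tn 4 1}
    (hT : A.Sec T) {s : α} {γ : I.Iso4} (hs : γ ∈ A.Γ s) (hγ : ∀ x : E4, γ x = x → x = 0)
    (hr : 0 < r) (hU : ∀ x : E4, ‖x‖ = r → x ∈ A.U s) (I : Fin 1 → Fin 4) :
    M0 (fun y => T s y I) r := by
  refine M0_of_pull hγ hr (fun I => cont_sp (f := fun y => T s y I) (hT.sm s I).continuousOn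
    fun z => hU _ (norm_smul_sph hr z)) (fun x hx => hT.compat s s x γ ?_) I
  refine ⟨hU x hx, hA.inv s γ hs x (hU x hx),
    Eventually.of_forall fun z => γ.toContinuousLinearEquiv.contDiff.contDiffAt, ?_⟩
  filter_upwards [(hA.isOpen s).mem_nhds (hU x hx)] with z hz
  exact ((hA.fib s z hz _ (hA.inv s γ hs z hz)).2 ⟨γ, hs, rfl⟩).symm

end Hd

end Crest.Agent.N207

end
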