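import Crest.Agent.N207.K.Hd5
import Crest.Agent.N207.I.Cal1
import Crest.Agent.N207.I.Car3
import Crest.Agent.N207.I.Cal4
import Crest.Agent.N207.A.Arr
import Crest.Agent.N207.Sk.Sta
import Crest.Agent.R238.HolDefs

-- ▼ part N207/K/Hd6
section

/-!
# Row 207, block K (helper5): Poincaré inequality on a connected atlas
-/

set_option autoImplicit false
open MeasureTheory Set Filter Topology Metric
open scoped ContDiff ENNReal NNReal
open Crest.GeometryTopology.CoordMetric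

noncomputable section

namespace Crest.Agent.N207.Hd

open I

variable {X : Type*} {α : Type} {A : Atl X α} {a b : α} {x y : E4} {F : E4 → E4}

theorem L2_tr (h : A.Ok) (t : A.Tr a b x F) {δ' : ℝ} (hδ' : 0 < δ') :
    ∃ δ > 0, ∃ C : ℝ≥0, ∀ f : α → E4 → ℝ, A.CompF f →
      L2 (f a) (ball x δ) ≤ C * L2 (f b) (ball (F x) δ') := by
  obtain ⟨V, hV, hx, hT, hi⟩ := t.exists_nbhd h
  have hd : (fderiv ℝ F x).det ≠ 0 :=
    (LinearEquiv.ofInjectiveEndo (fderiv ℝ F x : E4 →ₗ[ℝ] E4) (t.inj h)).isUnit_det'.ne_zero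
  set c := |(fderiv ℝ F x).det| / 2 with hc
  have c0 : 0 < c := half_pos (abs_pos.2 hd)
  have cd : ContinuousAt (fun z => |(fderiv ℝ F z).det|) x :=
    (ContinuousLinearMap.continuous_det.continuousAt.comp
      (t.cda.continuousAt_fderiv (by simp))).abs
  have e : ∀ᶠ z in 𝓝 x, z ∈ V ∧ c < |(fderiv ℝ F z).det| ∧ F z ∈ ball (F x) δ' :=
    (hV.eventually_mem hx).and ((cd.eventually (lt_mem_nhds (half_lt_self (abs_pos.2 hd)))).and
      (t.cont.eventually (ball_mem_nhds _ hδ')))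
  obtain ⟨δ, hδ, hb⟩ := Metric.eventually_nhds_iff_ball.1 e
  refine ⟨δ, hδ, ⟨c⁻¹, (inv_pos.2 c0).le⟩, fun f hf => ?_⟩
  have h1 := lintegral_image_eq_lintegral_abs_det_fderiv_mul volume (measurableSet_ball (x := x)
    (ε := δ)) (fun z hz => (hT z (hb z hz).1).diff.hasFDerivAt.hasFDerivWithinAt)
    (hi.mono fun z hz => (hb z hz).1) fun y => ENNReal.ofReal (f b y ^ 2)
  refine le_trans ?_ (mul_le_mul_right (L2_mono (S := F '' ball x δ) ?_) _)
  · rw [L2, L2, h1, ← lintegral_const_mul' _ _ ENNReal.coe_ne_top]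
    refine setLIntegral_mono' measurableSet_ball fun z hz => ?_
    rw [hf.tr (hT z (hb z hz).1), ENNReal.coe_nnreal_eq, ← mul_assoc,
      ← ENNReal.ofReal_mul (NNReal.coe_nonneg _)]
    refine le_mul_of_one_le_left zero_le (ENNReal.one_le_ofReal.2 ?_)
    exact (le_inv_mul_iff₀ c0).2 (by linarith [(hb z hz).2.1])
  · rintro _ ⟨z, hz, rfl⟩; exact (hb z hz).2.2

variable [Fintype α]

/-- compact subsets of the chart domains -/
def CK (A : Atl X α) (K : α → Set E4) : Prop := ∀ s, IsCompact (K s) ∧ K s ⊆ A.U s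

/-- compatible `C¹` families -/
def Adm (A : Atl X α) (f : α → E4 → ℝ) : Prop :=
  (∀ s, ContDiffOn ℝ 1 (f s) (A.U s)) ∧ A.CompF f

/-- the functional `Φ` is bounded by the Dirichlet energy on compact sets and `Z` -/
def Bnd (A : Atl X α) (Z Φ : (α → E4 → ℝ) → ℝ≥0∞) : Prop :=
  ∃ K, CK A K ∧ ∃ C : ℝ≥0, ∀ f, Adm A f → Φ f ≤ C * (∑ s, DD (f s) (K s) + Z f)

variable {Z Φ Ψ : (α → E4 → ℝ) → ℝ≥0∞}

theorem Bnd.mono (h : Bnd A Z Ψ) (e : ∀ f, Adm A f → Φ f ≤ Ψ f) : Bnd A Z Φ :=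
  let ⟨K, hK, C, hC⟩ := h
  ⟨K, hK, C, fun f hf => (e f hf).trans (hC f hf)⟩

theorem Bnd.add (h : Bnd A Z Φ) (h' : Bnd A Z Ψ) : Bnd A Z fun f => Φ f + Ψ f := by
  obtain ⟨K, hK, C, hC⟩ := h
  obtain ⟨K', hK', C', hC'⟩ := h'
  refine ⟨fun s => K s ∪ K' s, fun s => ⟨(hK s).1.union (hK' s).1,
    union_subset (hK s).2 (hK' s).2⟩, C + C', fun f hf => ?_⟩
  rw [ENNReal.coe_add, add_mul]
  refine add_le_add ((hC f hf).trans ?_) ((hC' f hf).trans ?_)
  · gcongr with s; exact DD_mono subset_union_left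
  · gcongr with s; exact DD_mono subset_union_right

theorem Bnd.mul (h : Bnd A Z Φ) (c : ℝ≥0) : Bnd A Z fun f => c * Φ f := by
  obtain ⟨K, hK, C, hC⟩ := h
  refine ⟨K, hK, c * C, fun f hf => ?_⟩
  rw [ENNReal.coe_mul, mul_assoc]
  exact mul_le_mul_right (hC f hf) _

theorem bnd_self : Bnd A Z Z :=
  ⟨fun _ => ∅, fun _ => ⟨isCompact_empty, empty_subset _⟩, 1, fun f _ => by simp⟩

theorem bnd_zero : Bnd A Z fun _ => 0 := bnd_self.mono fun _ _ => zero_le

theorem bnd_DD {K : Set E4} (hK : IsCompact K) (hU : K ⊆ A.U a) :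
    Bnd A Z fun f => DD (f a) K := by
  classical
  refine ⟨fun s => if s = a then K else ∅, fun s => ?_, 1, fun f _ => ?_⟩
  · by_cases hs : s = a
    · subst hs; simp [hK, hU]
    · simp [hs]
  · rw [ENNReal.coe_one, one_mul]
    refine le_add_right (le_trans ?_ (Finset.single_le_sum
      (f := fun s => DD (f s) (if s = a then K else ∅)) (fun _ _ => zero_le) (Finset.mem_univ a)))
    simp


/-- controlled points -/
def Ctl (A : Atl X α) (Z : (α → E4 → ℝ) → ℝ≥0∞) (a : α) (x : E4) : Prop :=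
  ∃ δ > 0, Bnd A Z fun f => L2 (f a) (ball x δ)

theorem Ctl.tr (h : A.Ok) (hx : x ∈ A.U a) (hy : y ∈ A.U b) (e : A.c a x = A.c b y)
    (hc : Ctl A Z b y) : Ctl A Z a x := by
  obtain ⟨F, t, rfl⟩ := h.loc a b x hx y hy e
  obtain ⟨δ', hδ', hb⟩ := hc
  obtain ⟨δ, hδ, C, hC⟩ := L2_tr h t hδ'
  exact ⟨δ, hδ, (hb.mul C).mono fun f hf => hC f hf.2⟩

theorem ctl_of_ball {δ : ℝ} (hb : Bnd A Z fun f => L2 (f a) (ball y δ)) (hx : x ∈ ball y δ) :
    Ctl A Z a x := by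
  obtain ⟨ε, hε, hs⟩ := Metric.isOpen_iff.1 isOpen_ball x hx
  exact ⟨ε, hε, hb.mono fun f _ => L2_mono hs⟩

theorem Ctl.ball (h : A.Ok) (hc : Ctl A Z a y) {ρ : ℝ} (hρ : 0 < ρ)
    (hU : closedBall y (2 * ρ) ⊆ A.U a) : Bnd A Z fun f => L2 (f a) (ball y ρ) := by
  obtain ⟨δ, hδ, hb⟩ := hc
  obtain ⟨C, hC⟩ := ball_poinc (lt_min hδ hρ) (min_le_right δ ρ)
  refine (((bnd_DD (isCompact_closedBall y _) hU).add hb).mul C).mono fun f hf => ?_
  refine (hC _ _ y (h.isOpen a) (hf.1 a) hU).trans ?_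
  gcongr
  exact L2_mono (ball_subset_ball (min_le_left _ _))

theorem ctl_all (h : A.Ok) (hc : A.Conn) {a₀ : α} {x₀ : E4} (h₀ : x₀ ∈ A.U a₀)
    (hz : Ctl A Z a₀ x₀) (hx : x ∈ A.U a) : Ctl A Z a x := by
  set S : Set X := {p | ∃ a, ∃ x ∈ A.U a, A.c a x = p ∧ Ctl A Z a x} with hS
  have key : ∀ b, ∀ y ∈ A.U b, A.c b y ∈ S → Ctl A Z b y := by
    rintro b y hy ⟨a, x, hx, e, hc⟩
    exact hc.tr h hy hx e.symm
  have c1 : A.Cl S := fun b y hy hn => by
    obtain ⟨ε, hε, hs⟩ := Metric.nhds_basis_closedBall.mem_iff.1 ((h.isOpen b).mem_nhds hy)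
    filter_upwards [ball_mem_nhds y (show 0 < ε / 3 by positivity)] with z hz hzS
    have s1 : closedBall z (2 * (ε / 3)) ⊆ closedBall y ε :=
      closedBall_subset_closedBall' (by linarith [mem_ball.1 hz])
    have hzU : z ∈ A.U b := hs (s1 (mem_closedBall_self (by positivity)))
    exact hn ⟨b, y, hy, rfl, ctl_of_ball ((key b z hzU hzS).ball h (by positivity) (s1.trans hs))
      (mem_ball_comm.1 hz)⟩
  have c2 : A.Cl Sᶜ := fun b y hy hn => by
    obtain ⟨δ, hδ, hb⟩ := key b y hy (not_not.1 hn)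
    filter_upwards [ball_mem_nhds y hδ, (h.isOpen b).mem_nhds hy] with z hz hzU
    exact not_not.2 ⟨b, z, hzU, rfl, ctl_of_ball hb hz⟩
  rcases hc S c1 c2 with h1 | h1
  · exact key a x hx (h1 a x hx)
  · exact absurd ⟨a₀, x₀, h₀, rfl, hz⟩ (h1 a₀ x₀ h₀)

theorem bnd_cpt {K : Set E4} (hK : IsCompact K) (hc : ∀ x ∈ K, Ctl A Z a x) :
    Bnd A Z fun f => L2 (f a) K := by
  refine hK.induction_on (p := fun S => Bnd A Z fun f => L2 (f a) S) ?_ ?_ ?_ ?_
  · simpa [L2] using bnd_zero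
  · exact fun S T hST hT => hT.mono fun f _ => L2_mono hST
  · exact fun S T hS hT => (hS.add hT).mono fun f _ => L2_union S T
  · intro x hx
    obtain ⟨δ, hδ, hb⟩ := hc x hx
    exact ⟨_, mem_nhdsWithin_of_mem_nhds (ball_mem_nhds x hδ), hb⟩


end Crest.Agent.N207.Hd

end
end

-- ▼ part N207/K/Hd7
section

/-!
# Row 207, block K (helper5): the Hardy inequality on `glob L`, uniform in `L` (scalar, flat form)
-/

set_option autoImplicit false
open MeasureTheory Set Filter Topology Metric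
open scoped ContDiff ENNReal NNReal
open Crest.GeometryTopology.CoordMetric

noncomputable section

namespace Crest.Agent.N207.Hd

open I I.TD

theorem rs_ok {X : Type*} {α : Type} {A : Atl X α} (h : A.Ok) {U' : α → Set E4}
    (ho : ∀ a, IsOpen (U' a)) (hs : ∀ a, U' a ⊆ A.U a)
    (hi : ∀ a, ∀ γ ∈ A.Γ a, ∀ x ∈ U' a, γ x ∈ U' a) : (⟨A.c, U', A.Γ⟩ : Atl X α).Ok := by
  refine ⟨ho, h.fin, hi, fun a γ hγ x hx => h.free a γ hγ x (hs a hx),
    fun a x hx y hy => h.fib a x (hs a hx) y (hs a hy), fun a b x hx y hy e => ?_,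
    fun a b x hx y hy => h.t2 a b x (hs a hx) y (hs b hy)⟩
  obtain ⟨F, t, rfl⟩ := h.loc a b x (hs a hx) y (hs b hy) e
  exact ⟨F, ⟨hx, hy, t.sm, t.eq⟩, rfl⟩

theorem rs_conn {X : Type*} {α : Type} {A : Atl X α} (h : A.Ok) (hc : A.Conn) {U' : α → Set E4}
    (hs : ∀ a, U' a ⊆ A.U a) (hv : ∀ b, ∀ y ∈ A.U b, ∃ a, ∃ x ∈ U' a, A.c a x = A.c b y) :
    (⟨A.c, U', A.Γ⟩ : Atl X α).Conn := by
  have k : ∀ S, (⟨A.c, U', A.Γ⟩ : Atl X α).Cl S → A.Cl S := fun S hS b y hy hn => by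
    obtain ⟨a, x, hx, e⟩ := hv b y hy
    obtain ⟨F, t, rfl⟩ := h.loc b a y hy x (hs a hx) e.symm
    filter_upwards [t.cont.eventually (hS a _ hx (fun h => hn (e ▸ h))), t.eq] with z h1 h2
    exact h2 ▸ h1
  intro S h1 h2
  rcases hc S (k S h1) (k _ h2) with h3 | h3
  exacts [Or.inl fun a x hx => h3 a x (hs a hx), Or.inr fun a x hx => h3 a x (hs a hx)]

variable {M : Type*} (T : TD M)

/-- `base v` with smaller balls -/
def bs (v : T.V) : Atl M T.S := ⟨(T.base v).c, fun s =>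
  (T.base v).U s ∩ Sum.elim (fun _ => ball 0 (15 / 8)) (fun _ => univ) s, (T.base v).Γ⟩

/-- an exhaustion of the chart domains of `glob L` (`θ → 1`); `gK L s ⊆ gKt (4/5) L s` -/
def gKt (θ : ℝ) (L : T.V → ℝ) : T.S → Set E4 :=
  Sum.elim (fun _ => closedBall 0 (15 / 8 * θ)) fun w =>
    {x | θ⁻¹ ≤ ‖x‖ ∧ (w ≠ T.root → ‖x‖ ≤ θ * T.r * Real.exp (L w))}

/-- `ε²` -/
def e2 (L : T.V → ℝ) (v : T.V) : ℝ≥0∞ := ENNReal.ofReal (T.eps L v ^ 2)

/-- the Dirichlet energy in root units -/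
def EG (θ : ℝ) (L : T.V → ℝ) (f : T.S → E4 → ℝ) : ℝ≥0∞ :=
  ∑ s, e2 T L (T.un s) * DD (f s) (gKt T θ L s)

/-- admissible families -/
def AG (L : T.V → ℝ) (f : T.S → E4 → ℝ) : Prop :=
  T.Long L ∧ Adm (T.glob L) f ∧ ∃ R, Lw (f (Sum.inr T.root)) {x | R ≤ ‖x‖} ≠ ⊤

/-- bounded by the energy -/
def BG (Φ : (T.V → ℝ) → (T.S → E4 → ℝ) → ℝ≥0∞) : Prop :=
  ∃ θ : ℝ, 1 / 2 ≤ θ ∧ θ < 1 ∧ ∃ C : ℝ≥0, ∀ L f, AG T L f → Φ L f ≤ C * EG T θ L f

/-- a family on `glob L` read in the charts of `base v` -/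
def res (L : T.V → ℝ) (v : T.V) (f : T.S → E4 → ℝ) (s : T.S) (y : E4) : ℝ :=
  f s (0 + (sc (lm L) s v)⁻¹ • y)

variable {T} {L : T.V → ℝ} {θ θ' : ℝ} {Φ Ψ : (T.V → ℝ) → (T.S → E4 → ℝ) → ℝ≥0∞}
  {f : T.S → E4 → ℝ}

theorem gKt_mono (h : T.Ok) (h0 : 0 < θ') (hθ : θ' ≤ θ) (s : T.S) : gKt T θ' L s ⊆ gKt T θ L s := by
  have := h.r_pos
  cases s with
  | inl a => exact closedBall_subset_closedBall (by linarith)
  | inr w =>
    exact fun x hx => ⟨(inv_anti₀ h0 hθ).trans hx.1, fun hw => (hx.2 hw).trans (by gcongr)⟩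

theorem bs_ok (h : T.Ok) (v : T.V) : (bs T v).Ok := by
  refine rs_ok (h.base v) (fun s => ((h.base v).isOpen s).inter ?_) (fun _ => inter_subset_left)
    fun s γ hγ x hx => ⟨(h.base v).inv s γ hγ x hx.1, ?_⟩
  · cases s
    exacts [isOpen_ball, isOpen_univ]
  · cases s
    · simpa using hx.2
    · trivial

theorem bs_conn (h : T.Ok) {v : T.V} (hc : (T.base v).Conn) : (bs T v).Conn := by
  refine rs_conn (h.base v) hc (fun _ => inter_subset_left) fun s x hx => ?_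
  cases s with
  | inr w => exact ⟨_, x, ⟨hx, trivial⟩, rfl⟩
  | inl a =>
    rcases h.cover v _ x hx with ⟨b, hb, y, hy, e⟩ | ⟨y, h1, h2, e⟩ | ⟨w, hw, y, h1, h2, e⟩
    · have := mem_ball_zero_iff.1 hy
      exact ⟨Sum.inl b, y, ⟨mem_base_inl.2 ⟨hb, by linarith⟩, mem_ball_zero_iff.2 (by linarith)⟩, e⟩
    · exact ⟨Sum.inr v, y, ⟨mem_base_out.2 ⟨by linarith, h2⟩, trivial⟩, by rw [base_c_out, e]⟩
    · exact ⟨Sum.inr w, y, ⟨(mem_base_inn (h.kid_ne hw)).2 ⟨hw, h1, by linarith [h.r_pos]⟩,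
        trivial⟩, by rw [base_c_inn (h.kid_ne hw), e]⟩

theorem gK_sub (h : T.Ok) (s : T.S) : T.gK L s ⊆ gKt T (4 / 5) L s := by
  have := h.r_pos
  cases s with
  | inl a => exact closedBall_subset_closedBall (by norm_num)
  | inr w =>
    exact fun x hx => ⟨le_trans (by norm_num) hx.1, fun hw => (hx.2 hw).trans
      (mul_le_mul_of_nonneg_right (by linarith) (Real.exp_pos _).le)⟩

theorem gKt_sub (h : T.Ok) (h0 : 0 < θ) (hθ : θ < 1) (s : T.S) : gKt T θ L s ⊆ (T.glob L).U s := by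
  have := h.r_pos
  cases s with
  | inl a => exact closedBall_subset_ball (by linarith)
  | inr w =>
    refine fun x hx => ⟨((one_lt_inv₀ h0).2 hθ).trans_le hx.1, fun hw => (hx.2 hw).trans_lt ?_⟩
    have : 0 < T.r * Real.exp (L w) := by positivity
    nlinarith

theorem isClosed_gKt (s : T.S) : IsClosed (gKt T θ L s) := by
  cases s with
  | inl a => exact isClosed_closedBall
  | inr w =>
    refine (isClosed_le continuous_const continuous_norm).inter ?_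
    by_cases hw : w = T.root
    · have : (fun x : E4 => w ≠ T.root → ‖x‖ ≤ θ * T.r * Real.exp (L w)) = univ := by
        ext x; exact ⟨fun _ => trivial, fun _ h => absurd hw h⟩
      rw [this]; exact isClosed_univ
    · have : (fun x : E4 => w ≠ T.root → ‖x‖ ≤ θ * T.r * Real.exp (L w)) =
          {x : E4 | ‖x‖ ≤ θ * T.r * Real.exp (L w)} := by
        ext x; exact ⟨fun h => h hw, fun h _ => h⟩
      rw [this]; exact isClosed_le continuous_norm continuous_const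

theorem EG_mono (h : T.Ok) (h0 : 0 < θ') (hθ : θ' ≤ θ) : EG T θ' L f ≤ EG T θ L f :=
  Finset.sum_le_sum fun s _ => mul_le_mul_right (DD_mono (gKt_mono h h0 hθ s)) _

theorem BG.mono (h : BG T Ψ) (e : ∀ L f, AG T L f → Φ L f ≤ Ψ L f) : BG T Φ :=
  let ⟨θ, h1, h2, C, hC⟩ := h
  ⟨θ, h1, h2, C, fun L f hf => (e L f hf).trans (hC L f hf)⟩

theorem BG.add (hT : T.Ok) (h : BG T Φ) (h' : BG T Ψ) : BG T fun L f => Φ L f + Ψ L f := by
  obtain ⟨θ, h1, h2, C, hC⟩ := h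
  obtain ⟨θ', h1', h2', C', hC'⟩ := h'
  refine ⟨max θ θ', le_max_of_le_left h1, max_lt h2 h2', C + C', fun L f hf => ?_⟩
  rw [ENNReal.coe_add, add_mul]
  exact add_le_add
    ((hC L f hf).trans (mul_le_mul_right (EG_mono hT (by linarith) (le_max_left _ _)) _))
    ((hC' L f hf).trans (mul_le_mul_right (EG_mono hT (by linarith) (le_max_right _ _)) _))

theorem BG.mul (h : BG T Φ) (c : ℝ≥0) : BG T fun L f => c * Φ L f := by
  obtain ⟨θ, h1, h2, C, hC⟩ := h
  refine ⟨θ, h1, h2, c * C, fun L f hf => ?_⟩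
  rw [ENNReal.coe_mul, mul_assoc]
  exact mul_le_mul_right (hC L f hf) _

theorem bg_zero : BG T fun _ _ => 0 :=
  ⟨1 / 2, le_rfl, by norm_num, 0, fun _ _ _ => zero_le⟩

theorem bg_sum (hT : T.Ok) {ι : Type*} {Φ : ι → (T.V → ℝ) → (T.S → E4 → ℝ) → ℝ≥0∞} (t : Finset ι)
    (h : ∀ i ∈ t, BG T (Φ i)) : BG T fun L f => ∑ i ∈ t, Φ i L f := by
  classical
  induction t using Finset.induction_on with
  | empty => simpa using bg_zero
  | insert i t hi ih =>
    simp only [Finset.sum_insert hi]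
    exact (h i (Finset.mem_insert_self _ _)).add hT
      (ih fun j hj => h j (Finset.mem_insert_of_mem hj))

theorem bg_DD (h : T.Ok) (h0 : 0 < θ) (h1 : θ < 1) (s : T.S) :
    BG T fun L f => e2 T L (T.un s) * DD (f s) (gKt T θ L s) := by
  refine ⟨max (1 / 2) θ, le_max_left _ _, max_lt (by norm_num) h1, 1, fun L f _ => ?_⟩
  rw [ENNReal.coe_one, one_mul]
  exact le_trans (Finset.single_le_sum (f := fun s => e2 T L (T.un s) * DD (f s) (gKt T θ L s))
    (fun _ _ => zero_le) (Finset.mem_univ s)) (EG_mono h h0 (le_max_right _ _))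

theorem res_mem (h : T.Ok) (hL : T.Long L) {v : T.V} {s : T.S} {y : E4}
    (hy : y ∈ (T.base v).U s) : 0 + (sc (lm L) s v)⁻¹ • y ∈ (T.glob L).U s ∧
      (T.glob L).c s (0 + (sc (lm L) s v)⁻¹ • y) = Sum.inl (v, (T.base v).c s y) := by
  have hS := h.str_glob hL
  have e : sc (lm L) s v • (0 + (sc (lm L) s v)⁻¹ • y) = y := by
    rw [zero_add, smul_smul, mul_inv_cancel₀ (hS.sc_pos s v).ne', one_smul]
  have := hS.conv' (s := s) (v := v) (x := 0 + (sc (lm L) s v)⁻¹ • y) trivial (by rwa [e])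
  rwa [e] at this

theorem res_adm (h : T.Ok) (hL : T.Long L) (hf : Adm (T.glob L) f) (v : T.V) :
    Adm (bs T v) (res T L v f) := by
  refine ⟨fun s => (cd_affine 0 _ (hf.1 s)).mono fun y hy => (res_mem h hL hy.1).1,
    fun a b x hx y hy e => hf.2 a b _ (res_mem h hL hx.1).1 _ (res_mem h hL hy.1).1 ?_⟩
  rw [(res_mem h hL hx.1).2, (res_mem h hL hy.1).2]
  exact congrArg (fun p => Sum.inl (v, p)) e

theorem res_inl (v : T.V) (a : T.B) : res T L v f (Sum.inl a) = f (Sum.inl a) := by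
  funext y; simp [res, sc]

theorem res_out (v : T.V) : res T L v f (Sum.inr v) = f (Sum.inr v) := by
  funext y; simp [res, sc, lm]

theorem res_inn {v w : T.V} (hw : w ≠ v) :
    res T L v f (Sum.inr w) = fun y => f (Sum.inr w) (0 + Real.exp (L w) • y) := by
  funext y; simp [res, sc, lm, hw, Real.exp_neg]

theorem e2_kid (h : T.Ok) {w : T.V} (hw : w ≠ T.root) :
    e2 T L w * ENNReal.ofReal (Real.exp (L w) ^ 2) = e2 T L (T.par w) := by
  rw [e2, e2, ← ENNReal.ofReal_mul (sq_nonneg _), h.eps_kid L hw, ← mul_pow, mul_assoc,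
    ← Real.exp_add, neg_add_cancel, Real.exp_zero, mul_one]

theorem cpt_lt {K : Set E4} (hK : IsCompact K) {φ : E4 → ℝ} (hφ : ContinuousOn φ K)
    (h1 : ∀ x ∈ K, φ x < 1) : ∃ θ : ℝ, 1 / 2 ≤ θ ∧ θ < 1 ∧ ∀ x ∈ K, φ x ≤ θ := by
  rcases K.eq_empty_or_nonempty with rfl | hne
  · exact ⟨1 / 2, le_rfl, by norm_num, fun _ h => h.elim⟩
  · obtain ⟨x, hx, hm⟩ := hK.exists_isMaxOn hne hφ
    exact ⟨max (1 / 2) (φ x), le_max_left _ _, max_lt (by norm_num) (h1 x hx),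
      fun y hy => le_max_of_le_right (hm hy)⟩

theorem bg_base_DD (h : T.Ok) (v : T.V) (s : T.S) {K : Set E4} (hK : IsCompact K)
    (hU' : K ⊆ (bs T v).U s) : BG T fun L f => e2 T L v * DD (res T L v f s) K := by
  have hU : K ⊆ (T.base v).U s := fun x hx => (hU' hx).1
  rcases K.eq_empty_or_nonempty with rfl | ⟨x₀, h₀⟩
  · simpa [DD] using bg_zero
  have hr := h.r_pos
  cases s with
  | inl a =>
    obtain rfl : T.vx a = v := (mem_base_inl.1 (hU h₀)).1
    obtain ⟨θ, h1, h2, h3⟩ := cpt_lt hK (φ := fun x => ‖x‖ * (8 / 15)) (by fun_prop) fun x hx => by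
      linarith [mem_ball_zero_iff.1 (hU' hx).2]
    refine (bg_DD h (by linarith) h2 (Sum.inl a)).mono fun L f _ => ?_
    rw [res_inl]
    exact mul_le_mul_right (DD_mono fun x hx => mem_closedBall_zero_iff.2
      (by linarith [h3 x hx])) _
  | inr w =>
    by_cases hw : w = v
    · subst hw
      have p : ∀ x ∈ K, 1 < ‖x‖ ∧ ‖x‖ < 4 := fun x hx => mem_base_out.1 (hU hx)
      obtain ⟨θ, h1, h2, h3⟩ := cpt_lt hK (φ := fun x => ‖x‖⁻¹)
        (continuous_norm.continuousOn.inv₀ fun x hx => by linarith [(p x hx).1])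
        fun x hx => inv_lt_one_of_one_lt₀ (p x hx).1
      refine (bg_DD h (by linarith) h2 (Sum.inr w)).mono fun L f hf => ?_
      rw [res_out]
      have s1 : K ⊆ gKt T θ L (Sum.inr w) := fun x hx =>
        ⟨inv_le_of_inv_le₀ (by linarith [(p x hx).1]) (h3 x hx), fun hw => by
          have := hf.1 w hw
          nlinarith [(p x hx).2]⟩
      exact mul_le_mul_right (DD_mono s1) _
    · have p : ∀ x ∈ K, T.r / 4 < ‖x‖ ∧ ‖x‖ < T.r := fun x hx => ((mem_base_inn hw).1 (hU hx)).2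
      obtain ⟨hw0, rfl⟩ : T.kid v w := ((mem_base_inn hw).1 (hU h₀)).1
      obtain ⟨θ, h1, h2, h3⟩ := cpt_lt hK (φ := fun x => ‖x‖ / T.r) (by fun_prop) fun x hx =>
        (div_lt_one hr).2 (p x hx).2
      refine (bg_DD h (by linarith) h2 (Sum.inr w)).mono fun L f hf => ?_
      have e0 := Real.exp_pos (L w)
      have s1 : (fun z => 0 + Real.exp (L w) • z) '' K ⊆ gKt T θ L (Sum.inr w) := by
        rintro _ ⟨z, hz, rfl⟩
        have := hf.1 w hw0
        have h4 := (div_le_iff₀ hr).1 (h3 z hz)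
        have h5 : θ⁻¹ ≤ 2 := inv_le_of_inv_le₀ two_pos (by linarith)
        simp only [gKt, Sum.elim_inr, mem_ofPred_eq, zero_add, norm_smul, Real.norm_of_nonneg e0.le]
        exact ⟨by nlinarith [(p z hz).1], fun _ => by nlinarith⟩
      rw [res_inn hw, ← e2_kid h hw0, mul_assoc, ← DD_affine 0 e0 hK.measurableSet (glob_open w)
        (hf.2.1.1 _) (s1.trans (gKt_sub h (by linarith) h2 _))]
      exact mul_le_mul_right (DD_mono s1) _

/-- the neck of `w` is controlled -/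
def NG (T : TD M) (w : T.V) : Prop := ∀ θ : ℝ, 1 / 2 ≤ θ → θ < 1 →
  BG T fun L f => e2 T L w * Lw (f (Sum.inr w)) (gKt T θ L (Sum.inr w))

theorem bg_base (h : T.Ok) {v : T.V} (hc : (T.base v).Conn) (hv : NG T v) (s : T.S) {K : Set E4}
    (hK : IsCompact K) (hU : K ⊆ (bs T v).U s) :
    BG T fun L f => e2 T L v * L2 (res T L v f s) K := by
  set x₀ : E4 := EuclideanSpace.single 0 (5 / 2) with hx₀
  have n₀ : ‖x₀‖ = 5 / 2 := by rw [hx₀]; simp
  have h₀ : x₀ ∈ (bs T v).U (Sum.inr v) := ⟨mem_base_out.2 (by rw [n₀]; norm_num), trivial⟩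
  obtain ⟨K', hK', C, hC⟩ : Bnd (bs T v) (fun f => L2 (f (Sum.inr v)) (ball x₀ (1 / 2)))
      fun f => L2 (f s) K := bnd_cpt hK fun _ hx =>
    ctl_all (bs_ok h v) (bs_conn h hc) h₀ ⟨1 / 2, by norm_num, bnd_self⟩ (hU hx)
  refine (((bg_sum h Finset.univ fun s _ => bg_base_DD h v s (hK' s).1 (hK' s).2).add h
    ((hv (1 / 2) le_rfl (by norm_num)).mul 9)).mul C).mono fun L f hf => ?_
  refine (mul_le_mul_right (hC _ (res_adm h hf.1 hf.2.1 v)) _).trans ?_
  beta_reduce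
  rw [mul_left_comm, mul_add, Finset.mul_sum, res_out, mul_left_comm (↑(9 : ℝ≥0) : ℝ≥0∞)]
  have p : ∀ x ∈ ball x₀ (1 / 2), 2 ≤ ‖x‖ ∧ ‖x‖ ≤ 3 := fun x hx => by
    have h1 := mem_ball_iff_norm.1 hx
    have h2 := abs_le.1 (abs_norm_sub_norm_le x x₀)
    constructor <;> linarith [h2.1, h2.2]
  gcongr
  refine (L2_le_Lw (c := 3) measurableSet_ball fun x hx =>
    ⟨by linarith [(p x hx).1], (p x hx).2⟩).trans ?_
  rw [show ((9 : ℝ≥0) : ℝ≥0∞) = ENNReal.ofReal (3 ^ 2) by norm_num]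
  have s1 : ball x₀ (1 / 2) ⊆ gKt T (1 / 2) L (Sum.inr v) := fun x hx =>
    ⟨by linarith [(p x hx).1], fun hw => by linarith [hf.1 v hw, (p x hx).2]⟩
  exact mul_le_mul_right (Lw_mono s1) _

theorem ng_all (h : T.Ok) (hc : ∀ v, (T.base v).Conn) (v : T.V) : NG T v := by
  have hr := h.r_pos
  have k : ∀ θ : ℝ, 1 / 2 ≤ θ → θ < 1 → 1 < (1 + θ) / 2 / θ ∧
      (1 + θ) / 2 / θ * ((1 + θ) / 2)⁻¹ = θ⁻¹ := fun θ h1 h2 =>
    ⟨(one_lt_div (by linarith)).2 (by linarith), by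
      have : 1 + θ ≠ 0 := by linarith
      field_simp⟩
  refine h.ind (fun θ h1 h2 => ?_) (fun w hw ih θ h1 h2 => ?_) v
  · refine (bg_DD h (θ := (1 + θ) / 2) (by linarith) (by linarith) (Sum.inr T.root)).mono
      fun L f hf => mul_le_mul_right ?_ _
    obtain ⟨R, hR⟩ := hf.2.2
    have s1 : {x : E4 | ((1 + θ) / 2)⁻¹ ≤ ‖x‖} ⊆ gKt T ((1 + θ) / 2) L (Sum.inr T.root) :=
      fun x hx => ⟨hx, fun h => absurd rfl h⟩
    have := hardyL_end (k θ h1 h2).1 (glob_open T.root) (hf.2.1.1 _) (by positivity)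
      (s1.trans (gKt_sub h (by linarith) (by linarith) _)) hR
    rw [(k θ h1 h2).2] at this
    exact ((Lw_mono fun x hx => hx.1).trans this).trans (DD_mono s1)
  · obtain ⟨C, hC⟩ := hardyL (k θ h1 h2).1
    have hne := h.par_ne hw
    have hb := bg_base h (hc (T.par w)) ih (Sum.inr w)
      (isCompact_An (θ * T.r) ((1 + θ) / 2 * T.r)) fun x hx => ⟨(mem_base_inn hne).2
        ⟨⟨hw, rfl⟩, by nlinarith [hx.1], by nlinarith [hx.2]⟩, trivial⟩
    refine ((bg_DD h (θ := (1 + θ) / 2) (by linarith) (by linarith) (Sum.inr w)).add h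
      ((hb.mul ⟨((θ * T.r) ^ 2)⁻¹, by positivity⟩).mul C)).mono fun L f hf => ?_
    have e0 := Real.exp_pos (L w)
    have hL := hf.1 w hw
    have s1 : An ((1 + θ) / 2)⁻¹ ((1 + θ) / 2 * T.r * Real.exp (L w)) ⊆
        gKt T ((1 + θ) / 2) L (Sum.inr w) := fun x hx => ⟨hx.1, fun _ => hx.2⟩
    have h5 : θ⁻¹ ≤ 2 := inv_le_of_inv_le₀ two_pos (by linarith)
    have h6 := hC _ (f (Sum.inr w)) _ _ (glob_open w) (hf.2.1.1 _) (by positivity)
      (by rw [(k θ h1 h2).2]; nlinarith) (s1.trans (gKt_sub h (by linarith) (by linarith) _))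
    have e1 : (1 + θ) / 2 * T.r * Real.exp (L w) / ((1 + θ) / 2 / θ) =
        θ * T.r * Real.exp (L w) := by
      have : 1 + θ ≠ 0 := by linarith
      have : θ ≠ 0 := by linarith
      field_simp
    rw [(k θ h1 h2).2, e1, mul_comm (θ * T.r), mul_comm (_ * T.r) (Real.exp _), ← img_An0 e0,
      Lw_dil e0 (measurableSet_An _ _), mul_comm (Real.exp _), mul_comm (Real.exp _),
      ← res_inn hne] at h6
    have s2 : gKt T θ L (Sum.inr w) ⊆ An θ⁻¹ (θ * T.r * Real.exp (L w)) := fun x hx =>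
      ⟨hx.1, hx.2 hw⟩
    refine (mul_le_mul_right ((Lw_mono s2).trans h6) _).trans ?_
    rw [mul_add, mul_left_comm, ← mul_assoc (e2 T L w), e2_kid h hw]
    refine add_le_add (mul_le_mul_right (DD_mono s1) _) (mul_le_mul_right ?_ _)
    rw [mul_left_comm, ENNReal.coe_nnreal_eq]
    exact mul_le_mul_right (Lw_le_L2 (measurableSet_An _ _) (by positivity) fun x hx => hx.1) _

/-- **Hardy inequality on `glob L`**, chartwise flat form, uniform in `L` -/
theorem hardyG_flat (h : T.Ok) (hc : ∀ v, (T.base v).Conn) (h0 : 0 < θ') (h1 : θ' < 1) :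
    ∃ θ : ℝ, 1 / 2 ≤ θ ∧ θ < 1 ∧ ∃ C : ℝ≥0, ∀ L f, AG T L f →
      ∑ s, e2 T L (T.un s) * ∫⁻ x in gKt T θ' L s,
        ENNReal.ofReal ((Sum.elim (fun _ => (1 : ℝ)) (fun _ => ‖x‖) s ^ 2)⁻¹ * f s x ^ 2) ≤
      C * EG T θ L f := by
  refine bg_sum h Finset.univ fun s _ => ?_
  have m1 : (1 / 2 : ℝ) ≤ max (1 / 2) θ' := le_max_left _ _
  have m2 : max (1 / 2) θ' < 1 := max_lt (by norm_num) h1
  cases s with
  | inl a =>
    refine (bg_base h (hc _) (ng_all h hc (T.vx a)) (Sum.inl a)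
      (isCompact_closedBall 0 (15 / 8 * θ')) fun x hx =>
        ⟨mem_base_inl.2 ⟨rfl, by linarith [mem_closedBall_zero_iff.1 hx]⟩,
          mem_ball_zero_iff.2 (by linarith [mem_closedBall_zero_iff.1 hx])⟩).mono fun L f _ => ?_
    simp only [res_inl, Sum.elim_inl, one_pow, inv_one, one_mul]
    exact le_rfl
  | inr w =>
    exact (ng_all h hc w _ m1 m2).mono fun L f _ =>
      mul_le_mul_right (Lw_mono (gKt_mono h h0 (le_max_right _ _) _)) _

end Crest.Agent.N207.Hd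

end
end

-- ▼ part N207/K/Hd8

/-!
# Row 207, block K (helper5): Kato's inequality and the Hardy inequality for tensors on `glob L`
-/

set_option autoImplicit false
open MeasureTheory Set Filter Topology Metric
open scoped ContDiff ENNReal NNReal
open Crest.GeometryTopology.CoordMetric
open Crest.Agent.R238 (Ell)
open Crest.Agent.R202.Tens (bil bil_apply)

noncomputable section

namespace Crest.Agent.N207.Hd

open I I.TD

variable {lo hi : ℝ} {A : Matrix (Fin 4) (Fin 4) ℝ} {k : ℕ}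

theorem ell_hi (h : Ell lo hi A) (v : E4) : bil A v v ≤ hi * ‖v‖ ^ 2 := by
  rw [bil_apply, norm_sq_eq]; exact (h.2 v).2

theorem ell_lo (h : Ell lo hi A) (v : E4) : lo * ‖v‖ ^ 2 ≤ bil A v v := by
  rw [bil_apply, norm_sq_eq]; exact (h.2 v).1

theorem ell_smul (h : Ell lo hi A) {c : ℝ} (hc : 0 ≤ c) : Ell (lo * c) (hi * c) (c • A) := by
  refine ⟨fun i j => by simp [h.1 i j], fun z => ?_⟩
  have e : ∑ i, ∑ j, (c • A) i j * z i * z j = c * ∑ i, ∑ j, A i j * z i * z j := by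
    simp only [Finset.mul_sum, Matrix.smul_apply, smul_eq_mul, mul_assoc]
  rw [e]
  constructor <;> nlinarith [(h.2 z).1, (h.2 z).2]

theorem ell_mono (h : Ell lo hi A) {lo' hi' : ℝ} (h1 : lo' ≤ lo) (h2 : hi ≤ hi') :
    Ell lo' hi' A := by
  refine ⟨h.1, fun z => ?_⟩
  have : 0 ≤ ∑ i, z i ^ 2 := Finset.sum_nonneg fun _ _ => sq_nonneg _
  constructor <;> nlinarith [(h.2 z).1, (h.2 z).2]

theorem ell_det (h : Ell lo hi A) (h0 : 0 ≤ lo) : lo ^ 2 ≤ √A.det ∧ √A.det ≤ hi ^ 2 := by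
  have hA : A.IsHermitian := Matrix.IsHermitian.ext fun i j => by simp [h.1 i j]
  have e : ∀ i, lo ≤ hA.eigenvalues i ∧ hA.eigenvalues i ≤ hi := fun i => by
    have h1 := ell_lo h (hA.eigenvectorBasis i)
    have h2 := ell_hi h (hA.eigenvectorBasis i)
    have h3 : bil A (hA.eigenvectorBasis i) (hA.eigenvectorBasis i) = hA.eigenvalues i := by
      rw [hA.eigenvalues_eq, bil_apply]
      simp only [dotProduct, Matrix.mulVec, star_trivial, RCLike.re_to_real, Finset.mul_sum]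
      exact Finset.sum_congr rfl fun a _ => Finset.sum_congr rfl fun b _ => by ring
    rw [hA.eigenvectorBasis.orthonormal.1 i, h3] at h1 h2
    constructor <;> linarith
  have hd : A.det = ∏ i, hA.eigenvalues i := by simpa using hA.det_eq_prod_eigenvalues
  have d1 : lo ^ 4 ≤ A.det := by
    rw [hd]
    simpa using Finset.prod_le_prod (s := Finset.univ) (f := fun _ : Fin 4 => lo)
      (fun _ _ => h0) fun i _ => (e i).1
  have d2 : A.det ≤ hi ^ 4 := by
    rw [hd]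
    simpa using Finset.prod_le_prod (s := Finset.univ) (g := fun _ : Fin 4 => hi)
      (fun i _ => h0.trans (e i).1) fun i _ => (e i).2
  exact ⟨Real.le_sqrt_of_sq_le (by linarith), Real.sqrt_le_iff.2 ⟨sq_nonneg _, by linarith⟩⟩

/-- a smooth approximation of `√N` -/
def rt0 (δ N : ℝ) : ℝ := √(N + δ ^ 2) - δ

theorem rt0_nonneg {δ N : ℝ} (hN : 0 ≤ N) : 0 ≤ rt0 δ N :=
  sub_nonneg.2 (Real.le_sqrt_of_sq_le (by linarith))

theorem rt0_anti {δ δ' N : ℝ} (hN : 0 ≤ N) (h0 : 0 ≤ δ) (h : δ ≤ δ') : rt0 δ' N ≤ rt0 δ N := by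
  have h1 : δ ≤ √(N + δ ^ 2) := Real.le_sqrt_of_sq_le (by linarith)
  have h2 : √(N + δ ^ 2) ^ 2 = N + δ ^ 2 := Real.sq_sqrt (by positivity)
  have : √(N + δ' ^ 2) ≤ √(N + δ ^ 2) + (δ' - δ) :=
    Real.sqrt_le_iff.2 ⟨by linarith, by nlinarith⟩
  unfold rt0; linarith

theorem rt0_zero {N : ℝ} (hN : 0 ≤ N) : rt0 0 N ^ 2 = N := by
  simp [rt0, Real.sq_sqrt hN]

theorem rt0_sq_le {δ N : ℝ} (hN : 0 ≤ N) (h0 : 0 ≤ δ) : rt0 δ N ^ 2 ≤ N :=
  (pow_le_pow_left₀ (rt0_nonneg hN) (rt0_anti hN le_rfl h0) 2).trans_eq (rt0_zero hN)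

variable {G : MetricField 4} {U : Set E4} {w : Tn 4 k} {y : E4}

theorem nsq_nonneg (hG : IsRiemannianOn G U) (hy : y ∈ U) (w : Tn 4 k) : 0 ≤ nsq G w y :=
  Ar.ipA_nonneg (hG.posDef y hy) _

theorem sm_rt0 (hG : IsRiemannianOn G U) (hw : SmT w U) {δ : ℝ} (hδ : 0 < δ) :
    ContDiffOn ℝ ∞ (fun y => rt0 δ (nsq G w y)) U :=
  (((hw.nsq hG).add contDiffOn_const).sqrt fun y hy => by
    have := nsq_nonneg hG hy w
    positivity).sub contDiffOn_const

/-- Kato's inequality -/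
theorem kato (hG : IsRiemannianOn G U) (hw : SmT w U) {δ : ℝ} (hδ : 0 < δ) (hy : y ∈ U)
    (h0 : 0 ≤ hi) (hh : ∀ v, bil (G y) v v ≤ hi * ‖v‖ ^ 2) :
    g2 (fun y => rt0 δ (nsq G w y)) y ≤ hi * nsq G (cov G w) y := by
  have hN := nsq_nonneg hG hy w
  have hN' := nsq_nonneg hG hy (cov G w)
  have hp : 0 < nsq G w y + δ ^ 2 := by positivity
  have hd : HasDerivAt (rt0 δ) (1 / (2 * √(nsq G w y + δ ^ 2))) (nsq G w y) :=
    (((hasDerivAt_id _).add_const (δ ^ 2)).sqrt hp.ne').sub_const δ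
  have h1 : g2 (fun y => rt0 δ (nsq G w y)) y =
      (1 / (2 * √(nsq G w y + δ ^ 2))) ^ 2 * ∑ I, dT (nsq G w) y I ^ 2 := by
    rw [sum_fin1, g2, Finset.mul_sum]
    refine Finset.sum_congr rfl fun i _ => ?_
    rw [pd_comp i hd.differentiableAt (dAt (hw.nsq hG) hG.isOpen hy), hd.deriv, mul_pow]
    rfl
  have h2 := Ar.sum_sq_le_ipA (hG.posDef y hy) h0 hh (dT (nsq G w) y)
  have h3 : ipA (G y)⁻¹ (dT (nsq G w) y) (dT (nsq G w) y) ≤ 4 * (nsq G w y * nsq G (cov G w) y) := by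
    rw [dT_nsq hG hy (hw.dAt hG.isOpen hy), Ar.ipA_smul_left, Ar.ipA_smul_right, ← mul_assoc,
      show (2 * 2 : ℝ) = 4 by norm_num]
    exact mul_le_mul_of_nonneg_left (Ar.ipA_con_le (hG.posDef y hy) (w y) (cov G w y)) (by norm_num)
  rw [h1, div_pow, mul_pow, Real.sq_sqrt hp.le, one_pow, div_mul_eq_mul_div, one_mul,
    div_le_iff₀ (by positivity)]
  rw [pow_one] at h2
  have h4 := mul_le_mul_of_nonneg_left h3 h0
  have h5 : 0 ≤ hi * nsq G (cov G w) y * δ ^ 2 := by positivity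
  nlinarith

variable {M : Type*} {T : TD M} {L : T.V → ℝ} {θ Λ : ℝ} {b : T.S → MetricField 4}

/-- ellipticity (root units) -/
def EllG (T : TD M) (θ Λ : ℝ) (L : T.V → ℝ) (b : T.S → MetricField 4) : Prop :=
  ∀ s, ∀ x ∈ gKt T θ L s,
    Ell (Λ⁻¹ * T.eps L (T.un s) ^ 2) (Λ * T.eps L (T.un s) ^ 2) (b s x)

theorem mem_gK_of_norm {s : T.S} {x y : E4} (hy : y ∈ T.gK L s) (e : ‖x‖ = ‖y‖) :
    x ∈ T.gK L s := by
  cases s with
  | inl a => exact mem_gK_inl.2 (e ▸ mem_gK_inl.1 hy)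
  | inr w => exact mem_gK_inr.2 (e ▸ mem_gK_inr.1 hy)

theorem den_le {X : Type*} {α : Type} [Fintype α] {A : Atl X α} {χ : α → X → ℝ} {K : α → Set E4}
    (h : A.Ok) (hχ : A.PoU χ K) (G : α → MetricField 4) {s : α} {x : E4} (hx : x ∈ A.U s) :
    A.den χ G s x ≤ √(G s x).det := by
  have h1 : χ s (A.c s x) ≤ 1 := (hχ.sum s x hx) ▸ Finset.single_le_sum
    (f := fun a => χ a (A.c s x)) (fun a _ => hχ.nonneg a _) (Finset.mem_univ s)
  have h2 : (1 : ℝ) ≤ Nat.card (A.Γ s) := by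
    have := Atl.card_pos h s
    exact_mod_cast (show 0 < Nat.card (A.Γ s) by exact_mod_cast this)
  exact (mul_le_of_le_one_left (mul_nonneg (hχ.nonneg _ _) (Real.sqrt_nonneg _))
    (inv_le_one_of_one_le₀ h2)).trans (mul_le_of_le_one_left (Real.sqrt_nonneg _) h1)

/-- upper bound of the integral by chart integrals -/
theorem lint_le_gK (h : T.Ok) (hL : T.Long L) (φ : T.S → E4 → ℝ≥0∞) :
    (T.glob L).lint T.χ b φ ≤ ∑ s, ∫⁻ x in T.gK L s, Atl.rho b s x * φ s x := by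
  have hχ := h.glob_pou hL
  have hO := h.glob_ok hL
  refine Finset.sum_le_sum fun s _ => ?_
  have mK : MeasurableSet (T.gK L s) := by
    cases s with
    | inl a => exact measurableSet_closedBall
    | inr w =>
      exact (measurableSet_le measurable_const measurable_norm).inter
        ((MeasurableSet.const (w ≠ T.root)).imp (measurableSet_le measurable_norm measurable_const))
  rw [← lintegral_indicator mK]
  refine (setLIntegral_mono' (hO.isOpen s).measurableSet fun x hx => ?_).trans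
    (setLIntegral_le_lintegral _ _)
  by_cases hK : x ∈ T.gK L s
  · rw [indicator_of_mem hK]
    exact mul_le_mul_left (ENNReal.ofReal_le_ofReal (den_le hO hχ b hx)) _
  · have : T.χ s ((T.glob L).c s x) = 0 := by
      by_contra h0
      obtain ⟨y, hy, e⟩ := hχ.supp s s x hx h0
      obtain ⟨γ, -, rfl⟩ := (hO.fib s y (hχ.sub s hy) x hx).1 e
      exact hK (mem_gK_of_norm hy (γ.norm_map y))
    simp [Atl.den, this]

/-- lower bound of the integral by chart integrals -/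
theorem chart_le' {X : Type*} {α : Type} [Fintype α] {A : Atl X α} {χ : α → X → ℝ}
    {K : α → Set E4} {G : α → MetricField 4} (h : A.Ok) (hG : A.IsMet G) (hχ : A.PoU χ K)
    {φ : α → E4 → ℝ} (hφ : A.CompF φ) (hc : A.Ct φ) (s : α) {B : Set E4} (hB : B ⊆ A.U s) :
    ∫⁻ x in B, Atl.rho G s x * ENNReal.ofReal (φ s x) ≤
      (Nat.card (A.Γ s) : ℝ≥0∞) * A.lint χ G fun a x => ENNReal.ofReal (φ a x) := by
  have h1 := Atl.chart_le h hG hχ (hφ.map ENNReal.ofReal) s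
    ((hc s).aemeasurable (h.isOpen s).measurableSet).ennreal_ofReal
  refine (lintegral_mono_set hB).trans ?_
  rwa [ENNReal.inv_mul_le_iff (Atl.card_ne h s) (ENNReal.natCast_ne_top _)] at h1

theorem scl_pos (s : T.S) {x : E4} (hx : x ∈ (T.glob L).U s) :
    0 < Sum.elim (fun _ => (1 : ℝ)) (fun _ => ‖x‖) s := by
  cases s with
  | inl a => exact one_pos
  | inr w => exact one_pos.trans hx.1

theorem rw_pos (s : T.S) {x : E4} (hx : x ∈ (T.glob L).U s) : 0 < Sk.rw T L s x :=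
  mul_pos (eps_pos L _) (scl_pos s hx)

theorem cont_scl (s : T.S) : Continuous fun x : E4 => Sum.elim (fun _ => (1 : ℝ)) (fun _ => ‖x‖) s := by
  cases s
  exacts [continuous_const, continuous_norm]

theorem cont_rw (s : T.S) : Continuous (Sk.rw T L s) := continuous_const.mul (cont_scl s)

/-- **the Hardy inequality for tensor fields on `glob L`**, uniform in `L` -/
theorem hardyG (h : T.Ok) (hc : ∀ v, (T.base v).Conn) : ∃ θ : ℝ, 4 / 5 ≤ θ ∧ θ < 1 ∧
    ∀ Λ : ℝ, 0 < Λ → ∃ C : ℝ≥0, ∀ L b, T.Long L → (T.glob L).IsMet b → EllG T θ Λ L b →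
      ∀ (k : ℕ) (w : T.S → Tn 4 k), (T.glob L).Sec w →
      (∃ R, ∫⁻ x in {x : E4 | R ≤ ‖x‖},
        ENNReal.ofReal ((‖x‖ ^ 2)⁻¹ * nsq (b (Sum.inr T.root)) (w (Sum.inr T.root)) x) ≠ ⊤) →
      ((T.glob L).lint T.χ b fun s x => ENNReal.ofReal (nsq (b s) (w s) x / Sk.rw T L s x ^ 2)) ≤
        C * (T.glob L).lint T.χ b fun s x => ENNReal.ofReal (nsq (b s) (cov (b s) (w s)) x) := by
  obtain ⟨θ₀, h1, h2, C, hC⟩ := hardyG_flat (θ' := 4 / 5) h hc (by norm_num) (by norm_num)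
  refine ⟨max θ₀ (4 / 5), le_max_right _ _, max_lt h2 (by norm_num), fun Λ hΛ =>
    ⟨(Λ ^ 2).toNNReal * (C * ((Λ ^ 3).toNNReal * ∑ s, (Nat.card (T.grp s) : ℝ≥0))),
      fun L b hL hb hE k w hw ⟨R, hR⟩ => ?_⟩⟩
  have hO := h.glob_ok hL
  have hχ := h.glob_pou hL
  have sub : ∀ s, gKt T (max θ₀ (4 / 5)) L s ⊆ (T.glob L).U s :=
    gKt_sub h (by positivity) (max_lt h2 (by norm_num))
  have s0 : ∀ s, gKt T θ₀ L s ⊆ gKt T (max θ₀ (4 / 5)) L s :=
    gKt_mono h (by linarith) (le_max_left _ _)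
  have s1 : ∀ s, gKt T (4 / 5) L s ⊆ gKt T (max θ₀ (4 / 5)) L s :=
    gKt_mono h (by linarith) (le_max_right _ _)
  set Q := (T.glob L).lint T.χ b fun s x => ENNReal.ofReal (nsq (b s) (cov (b s) (w s)) x)
  set sc : T.S → E4 → ℝ := fun s x => Sum.elim (fun _ => (1 : ℝ)) (fun _ => ‖x‖) s with hsc
  -- the estimate for the approximations
  have k1 : ∀ δ : ℝ, 0 < δ → ∑ s, e2 T L (T.un s) * ∫⁻ x in gKt T (4 / 5) L s,
      ENNReal.ofReal ((sc s x ^ 2)⁻¹ * rt0 δ (nsq (b s) (w s) x) ^ 2) ≤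
      C * ((Λ ^ 3).toNNReal * ((∑ s, (Nat.card (T.grp s) : ℝ≥0) : ℝ≥0) * Q)) := fun δ hδ => by
    refine (hC L (fun s x => rt0 δ (nsq (b s) (w s) x)) ⟨hL, ⟨fun s =>
      (sm_rt0 (hb.riem s) (hw.sm s) hδ).of_le (by simp), (hw.compat.nsq hO hb).map _⟩,
      max R 2, ne_top_of_le_ne_top hR ?_⟩).trans (mul_le_mul_right ?_ _)
    · refine (setLIntegral_mono' (measurableSet_le measurable_const measurable_norm)
        fun x hx => ENNReal.ofReal_le_ofReal (mul_le_mul_of_nonneg_left (rt0_sq_le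
          (nsq_nonneg (hb.riem _) ?_ _) hδ.le) (by positivity))).trans
        (lintegral_mono_set fun x hx => show R ≤ ‖x‖ from (le_max_left R 2).trans hx)
      exact ⟨one_lt_two.trans_le ((le_max_right _ _).trans hx), fun h => absurd rfl h⟩
    rw [ENNReal.ofNNReal_finsetSum, Finset.sum_mul, Finset.mul_sum]
    refine Finset.sum_le_sum fun s _ => ?_
    refine le_trans ?_ (mul_le_mul_right (chart_le' hO hb hχ ((hw.cov hO hb).compat.nsq hO hb)
      ((hw.cov hO hb).ct_ip hb (hw.cov hO hb)) s ((s0 s).trans (sub s))) _)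
    rw [DD, e2, ← lintegral_const_mul' _ _ ENNReal.ofReal_ne_top,
      ← lintegral_const_mul' _ _ ENNReal.coe_ne_top]
    refine setLIntegral_mono' (isClosed_gKt s).measurableSet fun x hx => ?_
    have hx' := sub s (s0 s hx)
    have e := hE s x (s0 s hx)
    have e0 := eps_pos L (T.un s)
    have d := (ell_det e (by positivity)).1
    have n := nsq_nonneg (hb.riem s) hx' (cov (b s) (w s))
    have kt := kato (hb.riem s) (hw.sm s) hδ hx' (by positivity) (ell_hi e)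
    rw [Atl.rho, ← ENNReal.ofReal_mul (Real.sqrt_nonneg _), ← ENNReal.ofReal_mul (sq_nonneg _)]
    change _ ≤ ENNReal.ofReal (Λ ^ 3) * _
    rw [← ENNReal.ofReal_mul (by positivity)]
    refine ENNReal.ofReal_le_ofReal ((mul_le_mul_of_nonneg_left kt (sq_nonneg _)).trans ?_)
    calc _ = Λ ^ 3 * ((Λ⁻¹ * T.eps L (T.un s) ^ 2) ^ 2 * nsq (b s) (cov (b s) (w s)) x) := by
          field_simp
      _ ≤ _ := by gcongr
  -- the limit
  have k2 : ∑ s, e2 T L (T.un s) * ∫⁻ x in gKt T (4 / 5) L s,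
      ENNReal.ofReal ((sc s x ^ 2)⁻¹ * nsq (b s) (w s) x) ≤
      C * ((Λ ^ 3).toNNReal * ((∑ s, (Nat.card (T.grp s) : ℝ≥0) : ℝ≥0) * Q)) := by
    refine le_of_tendsto' (f := fun n : ℕ => ∑ s, e2 T L (T.un s) * ∫⁻ x in gKt T (4 / 5) L s,
      ENNReal.ofReal ((sc s x ^ 2)⁻¹ * rt0 (1 / ((n : ℝ) + 1)) (nsq (b s) (w s) x) ^ 2))
      (x := atTop) (tendsto_finsetSum _ fun s _ => ENNReal.Tendsto.const_mul ?_
        (Or.inr ENNReal.ofReal_ne_top)) fun n => k1 _ (by positivity)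
    have m := (isClosed_gKt (θ := 4 / 5) (L := L) s).measurableSet
    have su := (s1 s).trans (sub s)
    refine lintegral_tendsto_of_tendsto_of_monotone (fun n => ?_) ?_ ?_
    · refine (ContinuousOn.aemeasurable ?_ m).ennreal_ofReal
      exact ((((cont_scl s).pow 2).continuousOn.inv₀ fun x hx =>
        (pow_pos (scl_pos s (su hx)) 2).ne')).mul
        (((sm_rt0 (hb.riem s) (hw.sm s) (by positivity)).continuousOn.mono su).pow 2)
    · filter_upwards [ae_restrict_mem m] with x hx n n' hn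
      have n0 := nsq_nonneg (hb.riem s) (su hx) (w s)
      refine ENNReal.ofReal_le_ofReal (mul_le_mul_of_nonneg_left (pow_le_pow_left₀ (rt0_nonneg n0)
        (rt0_anti n0 (by positivity) ?_) 2) (by positivity))
      exact one_div_le_one_div_of_le (by positivity) (by simpa using hn)
    · filter_upwards [ae_restrict_mem m] with x hx
      have n0 := nsq_nonneg (hb.riem s) (su hx) (w s)
      have c : Continuous fun δ => (sc s x ^ 2)⁻¹ * rt0 δ (nsq (b s) (w s) x) ^ 2 := by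
        unfold rt0; fun_prop
      have := (c.tendsto 0).comp tendsto_one_div_add_atTop_nhds_zero_nat
      rw [rt0_zero n0] at this
      exact ENNReal.tendsto_ofReal this
  refine (lint_le_gK h hL _).trans ?_
  rw [ENNReal.coe_mul, ENNReal.coe_mul, ENNReal.coe_mul, mul_assoc, mul_assoc, mul_assoc]
  refine le_trans ?_ (mul_le_mul_right k2 _)
  rw [Finset.mul_sum]
  refine Finset.sum_le_sum fun s _ => (lintegral_mono_set (gK_sub h s)).trans ?_
  rw [e2, ← lintegral_const_mul' _ _ ENNReal.ofReal_ne_top,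
    ← lintegral_const_mul' _ _ ENNReal.coe_ne_top]
  refine setLIntegral_mono' (isClosed_gKt s).measurableSet fun x hx => ?_
  have hx' := sub s (s1 s hx)
  have e0 := eps_pos L (T.un s)
  have d := (ell_det (hE s x (s1 s hx)) (by positivity)).2
  have n := nsq_nonneg (hb.riem s) hx' (w s)
  have p := scl_pos s hx'
  rw [Atl.rho, ← ENNReal.ofReal_mul (Real.sqrt_nonneg _), ← ENNReal.ofReal_mul (sq_nonneg _)]
  change _ ≤ ENNReal.ofReal (Λ ^ 2) * _
  rw [← ENNReal.ofReal_mul (by positivity)]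
  refine ENNReal.ofReal_le_ofReal ((mul_le_mul_of_nonneg_right d (by positivity)).trans_eq ?_)
  simp only [Sk.rw, hsc]
  field_simp

end Crest.Agent.N207.Hd

end
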