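import Crest.Agent.N207.K.Grn
import Crest.Agent.N207.I.Cal4
import Crest.Agent.N207.A.Arr

-- ▼ part N207/K/Ins1
section

/-!
# Row 207, block K (helper1): comparison of jets and covariant norms, limits of compatible families
-/

set_option autoImplicit false
set_option linter.unusedSectionVars false
open MeasureTheory Set Filter Topology Metric
open scoped ContDiff
open Crest.GeometryTopology.CoordMetric
open Crest.Agent.R249.SReg352 Crest.Agent.R249.EV Crest.Agent.N207.I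

noncomputable section

namespace Crest.Agent.N207.K

open Sys

variable {n k : ℕ} {G : MetricField n} {U D : Set (En n)} {y : En n}

/-- the squared 1-jet of a tensor -/
abbrev jT (T : Tn n k) : En n → ℝ := jet fun I z => T z I

theorem quad_le {ι : Type*} [Fintype ι] {a : ι → ι → ℝ} {C : ℝ} (h : ∀ i j, |a i j| ≤ C)
    (u : ι → ℝ) : ∑ i, ∑ j, a i j * (u i * u j) ≤ C * Fintype.card ι * ∑ i, u i ^ 2 := by
  have e : C * Fintype.card ι * ∑ i, u i ^ 2 = ∑ i, ∑ j, C * (u i ^ 2 / 2 + u j ^ 2 / 2) := by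
    simp only [mul_add, Finset.sum_add_distrib, Finset.sum_const, Finset.card_univ, nsmul_eq_mul,
      ← Finset.mul_sum, ← Finset.sum_div]
    ring
  rw [e]
  refine Finset.sum_le_sum fun i _ => Finset.sum_le_sum fun j _ => (le_abs_self _).trans ?_
  rw [abs_mul]
  refine mul_le_mul (h i j) (abs_le.2 ⟨?_, ?_⟩) (abs_nonneg _) ((abs_nonneg _).trans (h i j))
  · nlinarith [sq_nonneg (u i + u j)]
  · nlinarith [sq_nonneg (u i - u j)]

theorem ipA_cmp (hG : IsRiemannianOn G U) (hD : IsCompact D) (hU : D ⊆ U) (k : ℕ) :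
    ∃ C : ℝ, 0 < C ∧ ∀ y ∈ D, ∀ B : Arr n k,
      ∑ I, B I ^ 2 ≤ C * ipA (G y)⁻¹ B B ∧ ipA (G y)⁻¹ B B ≤ C * ∑ I, B I ^ 2 := by
  have hc : ∀ I J : Fin k → Fin n, ContinuousOn (fun y => ∏ s, (G y)⁻¹ (I s) (J s)) D :=
    fun I J => continuousOn_finsetProd _ fun s _ => (sm_inv hG _ _).continuousOn.mono hU
  have e : ∀ y (B : Arr n k), ∑ I, ∑ J, (∏ s, (G y)⁻¹ (I s) (J s)) * B J * B I =
      ipA (G y)⁻¹ B B := fun y B =>
    Finset.sum_congr rfl fun _ _ => Finset.sum_congr rfl fun _ _ => by ring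
  obtain ⟨lam, h0, h1⟩ := exists_ell_on hD hc fun x hx ξ hξ => by
    rw [e]
    exact lt_of_le_of_ne (Ar.ipA_nonneg (hG.posDef x (hU hx)) ξ) fun h =>
      hξ (Ar.eq_zero_of_ipA (hG.posDef x (hU hx)) h.symm)
  choose C C0 hC using fun I J => exists_ub hD (hc I J)
  have h2 : ∀ I J, C I J ≤ ∑ I, ∑ J, C I J := fun I J =>
    (Finset.single_le_sum (fun J _ => (C0 I J).le) (Finset.mem_univ J)).trans
      (Finset.single_le_sum (f := fun I => ∑ J, C I J)
        (fun I _ => Finset.sum_nonneg fun J _ => (C0 I J).le) (Finset.mem_univ I))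
  refine ⟨max lam⁻¹ ((∑ I, ∑ J, C I J) * Fintype.card (Fin k → Fin n)), by positivity,
    fun y hy B => ⟨?_, ?_⟩⟩
  · have := h1 y hy B
    rw [e] at this
    exact ((le_inv_mul_iff₀ h0).2 this).trans (mul_le_mul_of_nonneg_right (le_max_left _ _)
      (Ar.ipA_nonneg (hG.posDef y (hU hy)) B))
  · exact (quad_le (fun I J => (hC I J y hy).trans (h2 I J)) B).trans
      (mul_le_mul_of_nonneg_right (le_max_right _ _) (Finset.sum_nonneg fun _ _ => sq_nonneg _))

theorem sum_cons' (f : (Fin (k + 1) → Fin n) → ℝ) :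
    ∑ J, f J = ∑ l, ∑ I : Fin k → Fin n, f (Fin.cons l I) := by
  rw [← Fintype.sum_prod_type', ← (Fin.consEquiv fun _ : Fin (k + 1) => Fin n).sum_comp]
  rfl

theorem actA_sq {B : Fin n → Fin n → ℝ} {C : ℝ} (h : ∀ m i, |B m i| ≤ C) (A : Arr n k)
    (I : Fin k → Fin n) : actA B A I ^ 2 ≤ (k * n * C) ^ 2 * ∑ J, A J ^ 2 := by
  have p : 0 ≤ ∑ J, A J ^ 2 := Finset.sum_nonneg fun _ _ => sq_nonneg _
  have h1 : |actA B A I| ≤ k * n * C * √(∑ J, A J ^ 2) := by
    have : ∀ s m, |B m (I s) * A (Function.update I s m)| ≤ C * √(∑ J, A J ^ 2) := fun s m => by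
      rw [abs_mul]
      exact mul_le_mul (h _ _) (Real.abs_le_sqrt (Finset.single_le_sum
        (f := fun J => A J ^ 2) (fun _ _ => sq_nonneg _) (Finset.mem_univ _))) (abs_nonneg _)
        ((abs_nonneg _).trans (h m (I s)))
    refine (Finset.abs_sum_le_sum_abs _ _).trans ((Finset.sum_le_sum fun s _ =>
      (Finset.abs_sum_le_sum_abs _ _).trans (Finset.sum_le_sum fun m _ => this s m)).trans
        (le_of_eq ?_))
    simp only [Finset.sum_const, Finset.card_univ, Fintype.card_fin, nsmul_eq_mul]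
    ring
  have := pow_le_pow_left₀ (abs_nonneg _) h1 2
  rwa [sq_abs, mul_pow, Real.sq_sqrt p] at this

theorem jet_cmp (hG : IsRiemannianOn G U) (hD : IsCompact D) (hU : D ⊆ U) (k : ℕ) :
    ∃ C : ℝ, 0 < C ∧ ∀ y ∈ D, ∀ T : Tn n k,
      jT T y ≤ C * (nsq G (cov G T) y + nsq G T y) ∧
        nsq G (cov G T) y + nsq G T y ≤ C * jT T y := by
  obtain ⟨C0, c0, h0⟩ := ipA_cmp hG hD hU k
  obtain ⟨C1, c1, h1⟩ := ipA_cmp hG hD hU (k + 1)
  obtain ⟨Γ, g0, hΓ⟩ := exists_ub hD (f := fun y => ∑ a, ∑ b, ∑ c, |christoffel G y a b c|)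
    (continuousOn_finsetSum _ fun a _ => continuousOn_finsetSum _ fun b _ =>
      continuousOn_finsetSum _ fun c _ => ((sm_chr hG a b c).continuousOn.mono hU).abs)
  set E : ℝ := n * Fintype.card (Fin k → Fin n) * (k * n * Γ) ^ 2 with hE
  have E0 : 0 ≤ E := by positivity
  refine ⟨(2 * E + 2) * (C0 + C1), by positivity, fun y hy T => ?_⟩
  have hb : ∀ l m i, |christoffel G y m l i| ≤ Γ := fun l m i => by
    refine le_trans ?_ ((le_abs_self _).trans (hΓ y hy))
    refine le_trans ?_ (Finset.single_le_sum (f := fun a => ∑ b, ∑ c, |christoffel G y a b c|)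
      (fun _ _ => by positivity) (Finset.mem_univ m))
    refine le_trans ?_ (Finset.single_le_sum (f := fun b => ∑ c, |christoffel G y m b c|)
      (fun _ _ => by positivity) (Finset.mem_univ l))
    exact Finset.single_le_sum (f := fun c => |christoffel G y m l c|)
      (fun _ _ => by positivity) (Finset.mem_univ i)
  set a := ∑ I, T y I ^ 2 with ha
  set b := ∑ l, ∑ I, pderiv l (fun z => T z I) y ^ 2 with hb'
  set c := ∑ J, cov G T y J ^ 2 with hc
  have key : ∀ u v : Fin n → (Fin k → Fin n) → ℝ, (∀ l I, (u l I - v l I) ^ 2 ≤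
      (k * n * Γ) ^ 2 * a) → ∑ l, ∑ I, u l I ^ 2 ≤ 2 * ∑ l, ∑ I, v l I ^ 2 + 2 * E * a :=
    fun u v huv => by
    refine (Finset.sum_le_sum fun l _ => Finset.sum_le_sum fun I _ =>
      (by nlinarith [huv l I, sq_nonneg (u l I - 2 * v l I)] :
        u l I ^ 2 ≤ 2 * v l I ^ 2 + 2 * ((k * n * Γ) ^ 2 * a))).trans (le_of_eq ?_)
    simp only [Finset.sum_add_distrib, ← Finset.mul_sum, Finset.sum_const, Finset.card_univ,
      Fintype.card_fin, nsmul_eq_mul, hE]
    ring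
  have k1 : b ≤ 2 * c + 2 * E * a := by
    rw [hc, sum_cons']
    exact key _ _ fun l I => by
      rw [cov_cons, sub_sub_cancel]; exact actA_sq (hb l) _ I
  have k2 : c ≤ 2 * b + 2 * E * a := by
    rw [hc, sum_cons']
    exact key _ _ fun l I => by
      rw [cov_cons, sub_sub_cancel_left, neg_sq]; exact actA_sq (hb l) _ I
  obtain ⟨a1, a2⟩ := h0 y hy (T y)
  obtain ⟨a3, a4⟩ := h1 y hy (cov G T y)
  have p0 := Ar.ipA_nonneg (hG.posDef y (hU hy)) (T y)
  have p1 := Ar.ipA_nonneg (hG.posDef y (hU hy)) (cov G T y)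
  have a0 : 0 ≤ a := Finset.sum_nonneg fun _ _ => sq_nonneg _
  have b0 : 0 ≤ b := Finset.sum_nonneg fun _ _ => Finset.sum_nonneg fun _ _ => sq_nonneg _
  rw [← ha] at a1 a2
  rw [← hc] at a3 a4
  change a + b ≤ _ * (ipA (G y)⁻¹ _ _ + ipA (G y)⁻¹ _ _) ∧
    ipA (G y)⁻¹ _ _ + ipA (G y)⁻¹ _ _ ≤ _ * (a + b)
  constructor
  · nlinarith [mul_le_mul_of_nonneg_left a1 E0, mul_nonneg c0.le p1, mul_nonneg c1.le p0,
      mul_nonneg E0 (mul_nonneg c0.le p1), mul_nonneg E0 (mul_nonneg c1.le p0),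
      mul_nonneg E0 (mul_nonneg c1.le p1), mul_nonneg c0.le p0]
  · nlinarith [mul_le_mul_of_nonneg_left k2 c1.le, mul_nonneg c0.le a0, mul_nonneg c0.le b0,
      mul_nonneg c1.le a0, mul_nonneg E0 (mul_nonneg c0.le a0), mul_nonneg E0 (mul_nonneg c0.le b0),
      mul_nonneg E0 (mul_nonneg c1.le b0)]

theorem ipA_lower (hG : IsRiemannianOn G U) (hy : y ∈ U) (A : Arr n k) (I : Fin k → Fin n)
    (c : ℝ) : ipA (G y)⁻¹ A (fun J => c * ∏ s, G y (J s) (I s)) = A I * c := by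
  have e : ∀ I' : Fin k → Fin n, ∑ J : Fin k → Fin n, (∏ s, (G y)⁻¹ (I' s) (J s)) *
      (A I' * (c * ∏ s, G y (J s) (I s))) = if I' = I then A I' * c else 0 := fun I' => by
    have h1 := Finset.prod_univ_sum (fun _ : Fin k => Finset.univ)
      fun s m => (G y)⁻¹ (I' s) m * G y m (I s)
    simp only [ginv_g hG hy, Fintype.piFinset_univ, Finset.prod_mul_distrib,
      Fintype.prod_boole, ← funext_iff] at h1
    rw [show (if I' = I then A I' * c else 0) = A I' * c * if I' = I then 1 else 0 by simp]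
    refine Eq.trans ?_ (congrArg (A I' * c * ·) (h1.symm.trans (by congr)))
    rw [Finset.mul_sum]
    exact Finset.sum_congr rfl fun _ _ => by ring
  simp only [ipA, e, Finset.sum_ite_eq', Finset.mem_univ, if_true]

theorem mlk (hD : IsCompact D) {f : En n → ℝ} (hf : ContinuousOn f D) :
    MemLp f 2 (volume.restrict D) :=
  (memLp_two_iff_integrable_sq (hf.aestronglyMeasurable hD.measurableSet)).2
    ((hf.pow 2).integrableOn_compact hD)

/-- change of variables for `L²` limits -/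
theorem comp_le {V B : Set (En n)} {F : En n → En n} {x : En n} {δ : ℝ} (hV : IsOpen V)
    (hF : ContDiffOn ℝ ∞ F V) (hi : InjOn F V) (hd : ∀ z ∈ V, Function.Injective (fderiv ℝ F z))
    (hx : closedBall x δ ⊆ V) (hB : ∀ z ∈ V, F z ∈ B) : ∃ C : ℝ, 0 < C ∧ ∀ g : En n → ℝ,
      IntegrableOn g B → ContinuousOn g B → (∀ y, 0 ≤ g y) →
        ∫ z in ball x δ, g (F z) ≤ C * ∫ y in B, g y := by
  have hb : ball x δ ⊆ V := ball_subset_closedBall.trans hx
  have cd : ContinuousOn (fun z => |(fderiv ℝ F z).det|) V :=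
    (ContinuousLinearMap.continuous_det.comp_continuousOn
      (hF.continuousOn_fderiv_of_isOpen hV (by simp))).abs
  obtain ⟨c, c0, hc⟩ := exists_lb (isCompact_closedBall x δ) (cd.mono hx) fun z hz =>
    abs_pos.2 (LinearEquiv.isUnit_det'
      (LinearEquiv.ofInjectiveEndo (fderiv ℝ F z : En n →ₗ[ℝ] En n) (hd z (hx hz)))).ne_zero
  refine ⟨c⁻¹, by positivity, fun g gi gc g0 => (le_inv_mul_iff₀ c0).2 ?_⟩
  have gF : ContinuousOn (fun z => g (F z)) V := gc.comp hF.continuousOn hB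
  refine le_trans ?_ (setIntegral_mono_set gi (.of_forall g0)
    (image_subset_iff.2 fun z hz => hB z (hb hz) : F '' ball x δ ⊆ B).eventuallyLE)
  rw [integral_image_eq_integral_abs_det_fderiv_smul volume measurableSet_ball
    (fun z hz => ((hF.contDiffAt (hV.mem_nhds (hb hz))).differentiableAt
      (by simp)).hasFDerivAt.hasFDerivWithinAt) (hi.mono hb), ← integral_const_mul]
  exact setIntegral_mono_on ((iob hx gF).const_mul _) (iob hx (cd.mul gF)) measurableSet_ball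
    fun z hz => mul_le_mul_of_nonneg_right (hc z (ball_subset_closedBall hz)) (g0 _)

/-- compatibility passes to `L²_loc` limits -/
theorem compat_lim {X : Type*} {α : Type} {A : Atl X α} (h : A.Ok) {s : ℕ → α → Tn 4 k}
    {u : α → Tn 4 k} (hs : ∀ m, A.Sec (s m)) (hu : ∀ a, SmT (u a) (A.U a))
    (hl : ∀ a, ∀ y ∈ A.U a, ∃ r > 0, closedBall y r ⊆ A.U a ∧ ∀ I,
      Tendsto (fun m => ∫ z in ball y r, (s m a z I - u a z I) ^ 2) atTop (𝓝 0)) :
    A.Compat u := by
  intro a b x F t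
  obtain ⟨V, hV, hx, tV, hi⟩ := t.exists_nbhd h
  obtain ⟨r, r0, rU, l⟩ := hl a x t.mem
  obtain ⟨r', r0', rU', l'⟩ := hl b (F x) t.mem'
  have hF : ContDiffOn ℝ ∞ F V := fun z hz => (tV z hz).cda.contDiffWithinAt
  have hFc : ContinuousOn F V := fun z hz => (tV z hz).cont.continuousWithinAt
  have hW : IsOpen (V ∩ F ⁻¹' ball (F x) r') := hFc.isOpen_inter_preimage hV isOpen_ball
  have hx' : x ∈ V ∩ F ⁻¹' ball (F x) r' := ⟨hx, mem_preimage.2 (mem_ball_self r0')⟩
  obtain ⟨δ, δ0, hδ⟩ : ∃ δ, 0 < δ ∧ closedBall x δ ⊆ (V ∩ F ⁻¹' ball (F x) r') ∩ ball x r :=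
    nhds_basis_closedBall.mem_iff.1 (inter_mem (hW.mem_nhds hx') (ball_mem_nhds x r0))
  have hδ1 : closedBall x δ ⊆ V ∩ F ⁻¹' ball (F x) r' := hδ.trans inter_subset_left
  have hδV : closedBall x δ ⊆ V := hδ1.trans inter_subset_left
  obtain ⟨C, C0, hC⟩ := comp_le hW (hF.mono inter_subset_left) (hi.mono inter_subset_left)
    (fun z hz => (tV z hz.1).inj h) hδ1 fun z hz => mem_preimage.1 hz.2
  funext I
  obtain ⟨p, hp⟩ : ∃ p : (Fin k → Fin 4) → E4 → ℝ, p = fun J z =>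
    ∏ i, fderiv ℝ F z (EuclideanSpace.single (I i) 1) (J i) := ⟨_, rfl⟩
  have pc : ∀ J, ContinuousOn (p J) V := fun J => hp ▸ continuousOn_finsetProd _ fun i _ =>
    (EuclideanSpace.proj (J i) : E4 →L[ℝ] ℝ).continuous.comp_continuousOn
      ((hF.continuousOn_fderiv_of_isOpen hV (by simp)).clm_apply continuousOn_const)
  have pc2 : ContinuousOn (fun z => ∑ J, p J z ^ 2) V :=
    continuousOn_finsetSum _ fun J _ => (pc J).pow 2
  obtain ⟨P, P0, hP⟩ := exists_ub (isCompact_closedBall x δ) (pc2.mono hδV)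
  have c1 : ∀ m, ContinuousOn (fun z => s m a z I) V := fun m =>
    ((hs m).sm a I).continuousOn.mono fun z hz => (tV z hz).mem
  have c2 : ContinuousOn (fun z => u a z I) V := (hu a I).continuousOn.mono fun z hz => (tV z hz).mem
  have c3 : ∀ J, ContinuousOn (fun z => u b (F z) J) V := fun J =>
    (hu b J).continuousOn.comp hF.continuousOn fun z hz => (tV z hz).mem'
  have c4 : ContinuousOn (fun z => pullT F (u b) z I) V :=
    (continuousOn_finsetSum Finset.univ fun J _ => (pc J).mul (c3 J)).congr fun z _ => by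
      simp only [pullT, evT, hp, Pi.mul_apply]
  have c5 : ∀ m J, ContinuousOn (fun y => (s m b y J - u b y J) ^ 2) (A.U b) := fun m J =>
    (((hs m).sm b J).continuousOn.sub (hu b J).continuousOn).pow 2
  have hb := ball_subset_closedBall.trans hδV
  refine lim_uniq (v := fun z => u a z I) (v' := fun z => pullT F (u b) z I)
    (f := fun m z => s m a z I) isOpen_ball isOpen_ball
    (fun m => mlb hδV (c1 m)) (fun m => mlb hδV (c1 m))
    (mlb hδV c2) (mlb hδV c4) (c2.mono hb) (c4.mono hb) ?_ ?_ x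
    ⟨mem_ball_self δ0, mem_ball_self δ0⟩
  · refine squeeze_zero (fun m => integral_nonneg fun _ => sq_nonneg _) (fun m => ?_) (l I)
    exact setIntegral_mono_set (iob rU ((((hs m).sm a I).continuousOn.sub
      (hu a I).continuousOn).pow 2)) (.of_forall fun _ => sq_nonneg _)
      (ball_subset_closedBall.trans (hδ.trans inter_subset_right)).eventuallyLE
  · have l2 := (tendsto_finsetSum Finset.univ fun J _ => (l' J).const_mul C).const_mul P
    simp only [mul_zero, Finset.sum_const_zero] at l2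
    refine squeeze_zero (fun m => integral_nonneg fun _ => sq_nonneg _) (fun m => ?_) l2
    have c6 : ∀ J, ContinuousOn (fun z => (s m b (F z) J - u b (F z) J) ^ 2) V := fun J =>
      (c5 m J).comp hF.continuousOn fun z hz => (tV z hz).mem'
    refine le_trans ?_ (mul_le_mul_of_nonneg_left (Finset.sum_le_sum fun J _ => hC _
      (iob rU' (c5 m J)) ((c5 m J).mono (ball_subset_closedBall.trans rU')) fun _ => sq_nonneg _)
      P0.le)
    rw [← integral_finsetSum _ fun J _ => iob hδV (c6 J), ← integral_const_mul]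
    refine setIntegral_mono_on (iob hδV (((c1 m).sub c4).pow 2))
      ((integrable_finsetSum _ fun J _ => iob hδV (c6 J)).const_mul _) measurableSet_ball
      fun z hz => ?_
    have e : s m a z I - pullT F (u b) z I = ∑ J, p J z * (s m b (F z) J - u b (F z) J) := by
      rw [(hs m).compat a b z F (tV z (hb hz))]
      simp only [pullT, evT, hp, mul_sub, Finset.sum_sub_distrib]
    rw [e]
    exact (Finset.sum_mul_sq_le_sq_mul_sq _ _ _).trans (mul_le_mul_of_nonneg_right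
      ((le_abs_self _).trans (hP z (ball_subset_closedBall hz)))
      (Finset.sum_nonneg fun _ _ => sq_nonneg _))

end Crest.Agent.N207.K

end
end

-- ▼ part N207/K/Ins2
section

/-!
# Row 207, block K (helper1): elliptic systems on an atlas
-/

set_option autoImplicit false
set_option linter.unusedSectionVars false
open MeasureTheory Set Filter Topology Metric
open scoped ContDiff
open Crest.GeometryTopology.CoordMetric
open Crest.Agent.R249.SReg352 Crest.Agent.R249.EV Crest.Agent.N207.I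

noncomputable section

namespace Crest.Agent.N207.K

open Sys

variable {X : Type*} {α : Type} [Fintype α] {k : ℕ}

/-- `σ`-symmetric smooth sections -/
def WS (A : Atl X α) (σ : Equiv.Perm (Fin k)) : Submodule ℝ (α → Tn 4 k) where
  carrier := {s | A.Sec s ∧ ∀ a, ∀ x ∈ A.U a, ∀ I, s a x (I ∘ σ) = s a x I}
  zero_mem' := ⟨Atl.Sec.zero, fun _ _ _ _ => rfl⟩
  add_mem' hs ht := ⟨hs.1.add ht.1, fun a x hx I => by
    simp only [Pi.add_apply, hs.2 a x hx I, ht.2 a x hx I]⟩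
  smul_mem' c _ hs := ⟨hs.1.smul c, fun a x hx I => by simp only [Pi.smul_apply, hs.2 a x hx I]⟩

/-- the sections with compact support -/
def WT (A : Atl X α) (σ : Equiv.Perm (Fin k)) : Submodule ℝ (WS A σ) where
  carrier := {t | ∃ S, A.CS S ∧ A.Van t.1 S}
  zero_mem' := ⟨∅, ⟨fun _ => ∅, fun _ => ⟨isCompact_empty, empty_subset _⟩, empty_subset _⟩,
    fun _ _ _ h => (h rfl).elim⟩
  add_mem' := fun ⟨_, h1, h2⟩ ⟨_, h3, h4⟩ => ⟨_, h1.union h3, h2.add h4⟩
  smul_mem' c _ := fun ⟨S, h1, h2⟩ => ⟨S, h1, h2.of_imp fun b y _ h => by simp [h]⟩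

/-- the data of a problem on an atlas: pairing `∫ η ⟨s, t⟩_G dV_G`, energy `∫ e s t dV_{G0}` -/
structure Dat (A : Atl X α) (σ : Equiv.Perm (Fin k)) (χ : α → X → ℝ) (K : α → Set E4)
    (G G0 : α → MetricField 4) (η : α → E4 → ℝ)
    (e : (α → Tn 4 k) → (α → Tn 4 k) → α → E4 → ℝ) (P : (α → Tn 4 k) → α → Tn 4 k) : Prop where
  ok : A.Ok
  pou : A.PoU χ K
  met : A.IsMet G
  met0 : A.IsMet G0
  inv : ∀ i, σ (σ i) = i
  ηc : A.CompF η
  ηs : ∀ a, ContDiffOn ℝ ∞ (η a) (A.U a)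
  ηp : ∀ a, ∀ x ∈ A.U a, 0 < η a x
  lin : ∀ s s' t, A.Sec s → A.Sec s' → A.Sec t → ∀ (b c : ℝ) a, ∀ y ∈ A.U a,
    e (b • s + c • s') t a y = b * e s t a y + c * e s' t a y
  symm : ∀ s t a, ∀ y ∈ A.U a, e s t a y = e t s a y
  ct : ∀ s t, A.Sec s → A.Sec t → A.Ct (e s t)
  van : ∀ s t a, ∀ y ∈ A.U a, t a =ᶠ[𝓝 y] 0 → e s t a y = 0
  lo : ∀ a D, IsCompact D → D ⊆ A.U a → ∃ C : ℝ, 0 < C ∧
    ∀ s, ∀ y ∈ D, jT (s a) y ≤ C * e s s a y
  P_mem : ∀ s ∈ WS A σ, P s ∈ WS A σ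
  P_eq : ∀ a, ∃ H B C, Cf (A.U a) H B C ∧ ∀ s ∈ WS A σ, ∀ I, ∀ y ∈ A.U a,
    P s a y I = opc H B C (fun J z => s a z J) I y

namespace Dat

variable {A : Atl X α} {σ : Equiv.Perm (Fin k)} {χ : α → X → ℝ} {K : α → Set E4}
  {G G0 : α → MetricField 4} {η : α → E4 → ℝ}
  {e : (α → Tn 4 k) → (α → Tn 4 k) → α → E4 → ℝ} {P : (α → Tn 4 k) → α → Tn 4 k}
  (d : Dat A σ χ K G G0 η e P)
include d

theorem ct_ip {s t : α → Tn 4 k} (hs : A.Sec s) (ht : A.Sec t) :
    A.Ct fun a x => η a x * ip (G a) (s a) (t a) x := fun a =>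
  (d.ηs a).continuousOn.mul (hs.ct_ip d.met ht a)

theorem ig_ip (s : WS A σ) (t : WT A σ) :
    A.Intg χ G fun a x => η a x * ip (G a) (s.1 a) (t.1.1 a) x := by
  obtain ⟨S, h1, h2⟩ := t.2
  exact Atl.intg_of_cs d.ok d.met d.pou h1 (d.ct_ip s.2.1 t.1.2.1)
    ((h2.ip_right s.1).of_imp fun b y _ h => by rw [h, mul_zero])

theorem ig_e (s : WS A σ) (t : WT A σ) : A.Intg χ G0 (e s.1 t.1.1) := by
  obtain ⟨S, h1, h2⟩ := t.2
  obtain ⟨S', h3, h4, h5⟩ := h1.exists_cl d.ok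
  exact Atl.intg_of_cs d.ok d.met0 d.pou h4 (d.ct _ _ s.2.1 t.1.2.1)
    ((h2.mono h3).op d.ok h5 fun b y hy h => d.van _ _ b y hy h)

theorem e0 (s : α → Tn 4 k) (a : α) {y : E4} (hy : y ∈ A.U a) : 0 ≤ e s s a y := by
  obtain ⟨C, hC, h1⟩ := d.lo a {y} isCompact_singleton (singleton_subset_iff.2 hy)
  exact nonneg_of_mul_nonneg_right ((jet_nonneg _ _).trans (h1 s y rfl)) hC

theorem N_lin (b c : ℝ) (s s' t : WT A σ) : A.int χ G0 (e (b • s + c • s').1.1 t.1.1) =
    b * A.int χ G0 (e s.1.1 t.1.1) + c * A.int χ G0 (e s'.1.1 t.1.1) := by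
  rw [← Atl.int_const_mul, ← Atl.int_const_mul,
    ← Atl.int_add ((d.ig_e _ t).const_mul _) ((d.ig_e _ t).const_mul _)]
  exact Atl.int_congr d.ok fun a x hx => d.lin _ _ _ s.1.2.1 s'.1.2.1 t.1.2.1 b c a x hx

theorem N_symm (s t : α → Tn 4 k) : A.int χ G0 (e s t) = A.int χ G0 (e t s) :=
  Atl.int_congr d.ok fun a x hx => d.symm s t a x hx

/-- the abstract problem -/
def pb : Pb 4 (Fin k → Fin 4) α (WS A σ) where
  U := A.U
  c := { toFun := fun s a I y => s.1 a y I, map_add' := fun _ _ => rfl, map_smul' := fun _ _ => rfl }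
  P s := ⟨P s.1, d.P_mem _ s.2⟩
  T0 := WT A σ
  ip := LinearMap.mk₂ ℝ (fun s t => A.int χ G fun a x => η a x * ip (G a) (s.1 a) (t.1.1 a) x)
    (fun s s' t => by
      rw [← Atl.int_add (d.ig_ip s t) (d.ig_ip s' t)]
      simp only [ip, Submodule.coe_add, Pi.add_apply, ipA_add_left, mul_add])
    (fun c s t => by
      rw [smul_eq_mul, ← Atl.int_const_mul]
      simp only [ip, Submodule.coe_smul, Pi.smul_apply, ipA_smul_left, mul_left_comm c])
    (fun s t t' => by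
      rw [← Atl.int_add (d.ig_ip s t) (d.ig_ip s t')]
      simp only [ip, Submodule.coe_add, Pi.add_apply, ipA_add_right, mul_add])
    (fun c s t => by
      rw [smul_eq_mul, ← Atl.int_const_mul]
      simp only [ip, Submodule.coe_smul, Pi.smul_apply, ipA_smul_right, mul_left_comm c])
  N := LinearMap.mk₂ ℝ (fun s t => A.int χ G0 (e s.1.1 t.1.1))
    (fun s s' t => by simpa using d.N_lin 1 1 s s' t)
    (fun c s t => by simpa using d.N_lin c 0 s s t)
    (fun s t t' => by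
      simpa [d.N_symm s.1.1] using d.N_lin 1 1 t t' s)
    (fun c s t => by simpa [d.N_symm s.1.1] using d.N_lin c 0 t t s)

theorem pb_ip (s : WS A σ) (t : WT A σ) :
    d.pb.ip s t = A.int χ G fun a x => η a x * ip (G a) (s.1 a) (t.1.1 a) x := rfl

theorem pb_N (s t : WT A σ) : d.pb.N s t = A.int χ G0 (e s.1.1 t.1.1) := rfl

theorem pb_c (s : WS A σ) (a : α) : d.pb.c s a = fun I y => s.1 a y I := rfl

theorem den_supp {G' : α → MetricField 4} {a : α} {x : E4} (hx : x ∈ A.U a)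
    (h : A.den χ G' a x ≠ 0) : A.c a x ∈ A.c a '' K a :=
  d.pou.supp a a x hx fun h0 => h (by simp [Atl.den, h0])

theorem rep (t : WT A σ) : ∃ (C : ℝ) (D : α → Set E4), 0 ≤ C ∧
    (∀ a, IsCompact (D a) ∧ D a ⊆ A.U a) ∧
    ∀ s, |d.pb.ip s t| ≤ C * √(∑ a, ∫ y in D a, jet (d.pb.c s a) y) := by
  obtain ⟨S, h1, h2⟩ := t.2
  choose D hD hU h3 using fun a => h1.exists_cpt d.ok (d.pou.sub a) (d.pou.cl a)
  obtain ⟨w, hw⟩ : ∃ w : α → (Fin k → Fin 4) → E4 → ℝ, w = fun a I x => A.den χ G a x * η a x *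
    ∑ J, (∏ i, (G a x)⁻¹ (I i) (J i)) * t.1.1 a x J := ⟨_, rfl⟩
  have wc : ∀ a I, ContinuousOn (w a I) (D a) := fun a I => hw ▸
    (((Atl.sm_den d.met d.pou a).continuousOn.mul (d.ηs a).continuousOn).mul
      (continuousOn_finsetSum _ fun J _ => (continuousOn_finsetProd _ fun i _ =>
        (sm_inv (d.met.riem a) _ _).continuousOn).mul (t.1.2.1.sm a J).continuousOn)).mono (hU a)
  refine ⟨∑ a, ∑ I, √(∫ y in D a, w a I y ^ 2), D, by positivity, fun a => ⟨hD a, hU a⟩,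
    fun s => ?_⟩
  have sc : ∀ a I, ContinuousOn (fun y => s.1 a y I) (D a) := fun a I =>
    (s.2.1.sm a I).continuousOn.mono (hU a)
  have jc : ∀ a, ContinuousOn (jet (d.pb.c s a)) (D a) := fun a =>
    (jet_cont (d.ok.isOpen a) (s.2.1.sm a)).mono (hU a)
  have j0 : ∀ a, 0 ≤ ∫ y in D a, jet (d.pb.c s a) y := fun a =>
    integral_nonneg fun y => jet_nonneg _ y
  rw [pb_ip, Atl.int, Finset.sum_mul]
  refine (Finset.abs_sum_le_sum_abs _ _).trans (Finset.sum_le_sum fun a _ => ?_)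
  rw [setIntegral_eq_of_subset_of_forall_sdiff_eq_zero (d.ok.isOpen a).measurableSet (hU a)
    fun x hx => ?_, setIntegral_congr_fun (hD a).measurableSet
      (g := fun x => ∑ I, w a I x * s.1 a x I) fun x _ => ?_, integral_finsetSum _
        (f := fun I x => w a I x * s.1 a x I) fun I _ =>
        ((wc a I).mul (sc a I)).integrableOn_compact (hD a), Finset.sum_mul]
  · refine (Finset.abs_sum_le_sum_abs _ _).trans (Finset.sum_le_sum fun I _ => ?_)
    refine (cs_int (mlk (hD a) (wc a I)) (mlk (hD a) (sc a I))).trans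
      (mul_le_mul_of_nonneg_left (Real.sqrt_le_sqrt ?_) (Real.sqrt_nonneg _))
    refine le_trans (setIntegral_mono_on (((sc a I).pow 2).integrableOn_compact (hD a))
      ((jc a).integrableOn_compact (hD a)) (hD a).measurableSet fun y _ =>
        sq_le_jet (d.pb.c s a) I y)
      (Finset.single_le_sum (fun a _ => j0 a) (Finset.mem_univ a))
  · simp only [hw, ip, ipA, Finset.mul_sum, Finset.sum_mul]
    exact Finset.sum_congr rfl fun _ _ => Finset.sum_congr rfl fun _ _ => by ring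
  · by_contra hn
    refine hx.2 (h3 a x hx.1 (d.den_supp hx.1 (left_ne_zero_of_mul hn)) (h2 a x hx.1 fun h0 => ?_))
    simp [ip, h0, ipA_zero_right] at hn

theorem loc1 {a : α} {y₀ : E4} {r : ℝ} (hU : closedBall y₀ r ⊆ A.U a)
    (hi : InjOn (A.c a) (closedBall y₀ r)) : ∃ C : ℝ, 0 < C ∧
      ∀ s : WT A σ, ∫ y in ball y₀ r, jet (d.pb.c s a) y ≤ C * d.pb.N s s := by
  classical
  have hK := isCompact_closedBall y₀ r
  have hB : ball y₀ r ⊆ A.U a := ball_subset_closedBall.trans hU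
  choose D hD hDU h3 using fun b => Atl.exists_cpt₁ d.ok (d.pou.sub b) (d.pou.cl b) hK hU
  choose C1 c1 h1 using fun b => d.lo b _ (hD b) (hDU b)
  choose C2 c2 h2 using fun b => jet_cmp (d.met0.riem b) (hD b) (hDU b) k
  obtain ⟨C3, c3, h4⟩ := jet_cmp (d.met0.riem a) hK hU k
  obtain ⟨c4, c4p, h5⟩ := exists_lb hK ((sm_sqrt_det (d.met0.riem a)).continuousOn.mono hU)
    fun y hy => Real.sqrt_pos.2 ((d.met0.riem a).posDef y (hU hy)).det_pos
  set C := ∑ b, C2 b * C1 b with hC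
  have hCb : ∀ b, C2 b * C1 b ≤ C := fun b =>
    Finset.single_le_sum (fun b _ => (mul_pos (c2 b) (c1 b)).le) (Finset.mem_univ b)
  have C0 : 0 < C := (mul_pos (c2 a) (c1 a)).trans_le (hCb a)
  refine ⟨C3 / c4 * C, by positivity, fun s => ?_⟩
  have hs := s.1.2.1
  obtain ⟨E, hE⟩ : ∃ E : α → E4 → ℝ, E = fun b x =>
    nsq (G0 b) (cov (G0 b) (s.1.1 b)) x + nsq (G0 b) (s.1.1 b) x := ⟨_, rfl⟩
  have Ec : A.Ct E := fun b => hE ▸
    ((hs.cov d.ok d.met0).ct_ip d.met0 (hs.cov d.ok d.met0) b).add (hs.ct_ip d.met0 hs b)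
  have Ef : A.CompF E := hE ▸ (Atl.Compat.nsq d.ok d.met0 (hs.cov d.ok d.met0).compat).map₂
    (Atl.Compat.nsq d.ok d.met0 hs.compat) (· + ·)
  have E0 : ∀ b, ∀ x ∈ A.U b, 0 ≤ E b x := fun b x hx => hE ▸
    add_nonneg (Ar.ipA_nonneg ((d.met0.riem b).posDef x hx) _)
      (Ar.ipA_nonneg ((d.met0.riem b).posDef x hx) _)
  obtain ⟨f, hf⟩ : ∃ f : α → E4 → ℝ, f = fun b x =>
    if A.c b x ∈ A.c a '' ball y₀ r then E b x else 0 := ⟨_, rfl⟩
  have fc : A.CompF f := fun b b' x hx y hy h => by simp only [hf, h, Ef b b' x hx y hy h]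
  have fm : A.Ms f := fun b => by
    refine ((Ec.ms d.ok b).indicator (Atl.isOpen_pre d.ok isOpen_ball hB b).measurableSet).congr ?_
    filter_upwards [ae_restrict_mem (d.ok.isOpen b).measurableSet] with x hx
    simp only [hf, indicator, mem_ofPred_eq, hx, true_and]
  obtain ⟨i1, i2⟩ := Atl.int_inj d.ok d.met0 d.pou fc fm isOpen_ball hB
    (hi.mono ball_subset_closedBall) fun b y _ h => by
      by_contra hn
      exact h (by simp only [hf, hn, if_false])
  have fa : ∀ x ∈ ball y₀ r, f a x = E a x := fun x hx => by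
    simp only [hf, mem_image_of_mem _ hx, if_true]
  have i3 : IntegrableOn (fun x => √(G0 a x).det * f a x) (ball y₀ r) :=
    (iob hU ((sm_sqrt_det (d.met0.riem a)).continuousOn.mul (Ec a))).congr_fun
      (fun x hx => by simp only [Pi.mul_apply, fa x hx]) measurableSet_ball
  have k1 : ∫ y in ball y₀ r, jet (d.pb.c s a) y ≤ C3 / c4 * A.int χ G0 f := by
    rw [i2 (i1.2 i3), ← integral_const_mul]
    refine setIntegral_mono_on (iob hU (jet_cont (d.ok.isOpen a) (hs.sm a))) (i3.const_mul _)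
      measurableSet_ball fun y hy => ?_
    have hy' := ball_subset_closedBall hy
    refine (h4 y hy' (s.1.1 a)).1.trans ?_
    rw [fa y hy]
    have := mul_le_mul_of_nonneg_right (h5 y hy') (E0 a y (hB hy))
    calc _ = C3 / c4 * (c4 * E a y) := by rw [hE]; field_simp
      _ ≤ _ := by gcongr
  refine k1.trans ?_
  rw [mul_assoc, pb_N, ← Atl.int_const_mul C]
  refine mul_le_mul_of_nonneg_left (Finset.sum_le_sum fun b _ => setIntegral_mono_on
    (i1.2 i3 b) (((d.ig_e s.1 s).const_mul C) b) (d.ok.isOpen b).measurableSet fun x hx => ?_)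
    (by positivity)
  by_cases h0 : A.den χ G0 b x = 0
  · simp [h0]
  refine mul_le_mul_of_nonneg_left ?_ (Atl.den_nonneg d.pou b x)
  have e0 := d.e0 s.1.1 b hx
  rw [hf]
  dsimp only
  split_ifs with h
  · have hx' := h3 b x hx (d.den_supp hx h0) (image_mono ball_subset_closedBall h)
    rw [hE]
    refine (h2 b x hx' _).2.trans ((mul_le_mul_of_nonneg_left (h1 b _ x hx') (c2 b).le).trans ?_)
    rw [← mul_assoc]
    exact mul_le_mul_of_nonneg_right (hCb b) e0
  · positivity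

theorem loc2 {a : α} {B : Set E4} (hB : IsOpen B) (hU : B ⊆ A.U a) (hi : InjOn (A.c a) B)
    (I : Fin k → Fin 4) {φ : E4 → ℝ} (hφ : TO B φ) :
    ∃ t, ∀ s, d.pb.ip s t = ∫ y, d.pb.c s a I y * φ y := by
  have hG := riemOn_mono (d.met.riem a) hB hU
  have hp : ∀ y ∈ B, η a y * √(G a y).det ≠ 0 := fun y hy =>
    (mul_pos (d.ηp a y (hU hy)) (Real.sqrt_pos.2 (hG.posDef y hy).det_pos)).ne'
  obtain ⟨t, t1, t2, t3, t4, -⟩ := Atl.exists_extT d.ok hB hU hi
    (T := fun y J => φ y / (η a y * √(G a y).det) * ∏ i, G a y (J i) (I i))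
    (fun J => (hφ.1.1.contDiffOn.div (((d.ηs a).mono hU).mul (sm_sqrt_det hG)) hp).mul
      (contDiffOn_prod fun i _ => hG.contDiffOn _ _)) hφ.1.2 hφ.2 fun x _ h => by
        by_contra hn
        exact h (by funext J; simp [image_eq_zero_of_notMem_tsupport hn])
  have sσ : ∀ J : Fin k → Fin 4, (J ∘ σ) ∘ σ = J := fun J => funext fun i => by simp [d.inv]
  refine ⟨⟨⟨(1 / 2 : ℝ) • (t + fun a => prmT σ (t a)), (t1.add (t1.prmT σ)).smul _,
    fun b x _ J => ?_⟩, _, t4, t3.of_imp fun b y _ h => ?_⟩, fun s => ?_⟩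
  · simp only [Pi.smul_apply, Pi.add_apply, prmT, sσ, add_comm]
  · funext J; simp [prmT, h]
  obtain ⟨i1, i2⟩ := Atl.int_inj d.ok d.met d.pou
    (d.ηc.map₂ (Atl.Compat.ip d.ok d.met s.2.1.compat t1.compat) (· * ·))
    ((d.ct_ip s.2.1 t1).ms d.ok) hB hU hi (((t3.ip_right s.1).of_imp fun b y _ h => by
      rw [h, mul_zero]).mono (image_mono hφ.2))
  rw [pb_ip, Atl.int_congr d.ok (g := fun a x => η a x * ip (G a) (s.1 a) (t a) x)
    fun b x hx => ?_, i2 (Atl.intg_of_cs d.ok d.met d.pou t4 (d.ct_ip s.2.1 t1)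
      ((t3.ip_right s.1).of_imp fun b y _ h => by rw [h, mul_zero])), ← int_test hφ]
  · refine setIntegral_congr_fun hB.measurableSet fun y hy => ?_
    have := hp y hy
    simp only [ip, t2 y hy, ipA_lower hG hy, pb_c]
    field_simp [left_ne_zero_of_mul this, right_ne_zero_of_mul this]
  · have := Ar.ipA_perm (G b x)⁻¹ σ (s.1 b x) (t b x)
    simp only [s.2.2 b x hx] at this
    simp only [ip, Pi.smul_apply, Pi.add_apply, ipA_smul_right, ipA_add_right]
    rw [show prmT σ (t b) x = fun I => t b x (I ∘ σ) from rfl, this]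
    ring

theorem pb_ok {q : ℝ} (q0 : 0 ≤ q)
    (hq : ∀ s t : WT A σ, |d.pb.ip (d.pb.P s) t| ≤ q * √(d.pb.N s s) * √(d.pb.N t t)) :
    d.pb.Ok q where
  op := d.ok.isOpen
  smc s := s.2.1.sm
  symm s t := d.N_symm _ _
  N0 s := Atl.int_nonneg d.ok d.pou fun a _ hx => d.e0 _ a hx
  ip_symm s t := Atl.int_congr d.ok fun a x hx => by rw [ip_comm (d.met.riem a) hx]
  q0 := q0
  P_eq a := by
    obtain ⟨H, B, C, h1, h2⟩ := d.P_eq a
    exact ⟨H, B, C, h1, fun s => h2 s.1 s.2⟩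
  Q_le := hq
  rep := d.rep
  loc a y₀ hy := by
    obtain ⟨r, r0, hU, hi⟩ := d.ok.exists_ball hy
    exact ⟨r, r0, hU, d.loc1 hU hi, fun I φ hφ => d.loc2 isOpen_ball
      (ball_subset_closedBall.trans hU) (hi.mono ball_subset_closedBall) I hφ⟩
  closed s u hu hl := by
    refine ⟨⟨fun a y I => u a I y, ⟨hu, compat_lim d.ok (fun m => (s m).2.1) hu hl⟩,
      fun a x hx I => ?_⟩, fun _ _ _ _ => rfl⟩
    obtain ⟨r, r0, hU, l⟩ := hl a x hx
    have hB := ball_subset_closedBall.trans hU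
    have m1 := fun m => mlb hU ((s m).2.1.sm a I).continuousOn
    exact lim_uniq (v := u a (I ∘ σ)) (v' := u a I) isOpen_ball isOpen_ball m1 m1
      (mlb hU (hu a _).continuousOn) (mlb hU (hu a _).continuousOn)
      ((hu a _).continuousOn.mono hB) ((hu a _).continuousOn.mono hB)
      ((l (I ∘ σ)).congr fun m => setIntegral_congr_fun measurableSet_ball fun y hy => by
        simp only [pb_c, (s m).2.2 a y (hB hy) I]) (l I) x ⟨mem_ball_self r0, mem_ball_self r0⟩

end Dat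

end Crest.Agent.N207.K

end
end

-- ▼ part N207/K/Ins3

/-!
# Row 207, block K (helper1): Cauchy-Schwarz, finite energy, the rough Laplacian on an atlas
-/

set_option autoImplicit false
set_option linter.unusedSectionVars false
open MeasureTheory Set Filter Topology Metric
open scoped ContDiff ENNReal
open Crest.GeometryTopology.CoordMetric
open Crest.Agent.R249.SReg352 Crest.Agent.R249.EV Crest.Agent.N207.I

noncomputable section

namespace Crest.Agent.N207.K

open Sys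

theorem le_sqrt_mul {x a b : ℝ} (ha : 0 ≤ a) (hb : 0 ≤ b)
    (h : ∀ τ : ℝ, 0 < τ → x ≤ τ / 2 * a + τ⁻¹ / 2 * b) : x ≤ √a * √b := by
  refine le_of_forall_pos_le_add fun ε hε => ?_
  rw [← Real.sq_sqrt ha, ← Real.sq_sqrt hb] at h
  have a0 := Real.sqrt_nonneg a
  have b0 := Real.sqrt_nonneg b
  generalize √a = a at *
  generalize √b = b at *
  obtain ⟨δ, hδ, hδ1⟩ : ∃ δ : ℝ, 0 < δ ∧ δ * (a + b) ≤ ε :=
    ⟨ε / (a + b + 1), by positivity, by
      rw [div_mul_eq_mul_div, div_le_iff₀ (by positivity)]; nlinarith⟩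
  have k3 := h ((b + δ) / (a + δ)) (by positivity)
  have k4 : (b + δ) / (a + δ) * a ^ 2 ≤ (b + δ) * a := by
    rw [div_mul_eq_mul_div, div_le_iff₀ (by positivity)]
    have : 0 ≤ (b + δ) * a * δ := by positivity
    nlinarith
  have k5 : ((b + δ) / (a + δ))⁻¹ * b ^ 2 ≤ (a + δ) * b := by
    rw [inv_div, div_mul_eq_mul_div, div_le_iff₀ (by positivity)]
    have : 0 ≤ (a + δ) * b * δ := by positivity
    nlinarith
  have k8 : 0 ≤ δ * (a + b) := by positivity
  nlinarith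

theorem lint_le_of_cpt {n : ℕ} {U : Set (En n)} (hU : IsOpen U) {g : En n → ℝ}
    (hg : ContinuousOn g U) (g0 : ∀ y ∈ U, 0 ≤ g y) {C : ℝ}
    (h : ∀ K, IsCompact K → K ⊆ U → ∫ y in K, g y ≤ C) :
    ∫⁻ y in U, ENNReal.ofReal (g y) ≤ ENNReal.ofReal C := by
  obtain ⟨F, h1, h2, h3, h4⟩ := hU.exists_iUnion_isClosed
  have e : U = ⋃ m : ℕ, closedBall 0 m ∩ F m := by
    refine Subset.antisymm (fun y hy => ?_) (iUnion_subset fun m => inter_subset_right.trans (h2 m))
    obtain ⟨m, hm⟩ := mem_iUnion.1 (h3 ▸ hy)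
    obtain ⟨l, hl⟩ := exists_nat_ge ‖y‖
    exact mem_iUnion.2 ⟨max m l, mem_closedBall_zero_iff.2 (hl.trans (by simp)),
      h4 (le_max_left _ _) hm⟩
  rw [e, setLIntegral_iUnion_of_directed _ (Monotone.directed_le fun m l hml =>
    inter_subset_inter (closedBall_subset_closedBall (by simpa)) (h4 hml))]
  refine iSup_le fun m => ?_
  have hK := (isCompact_closedBall (0 : En n) m).inter_right (h1 m)
  have hKU : closedBall 0 m ∩ F m ⊆ U := inter_subset_right.trans (h2 m)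
  rw [← ofReal_integral_eq_lintegral_ofReal ((hg.mono hKU).integrableOn_compact hK)
    ((ae_restrict_mem hK.measurableSet).mono fun y hy => g0 y (hKU hy))]
  exact ENNReal.ofReal_le_ofReal (h _ hK hKU)

section FO

variable {n k : ℕ} {U : Set (En n)} {L L' : Tn n k → En n → ℝ} {G : MetricField n}

/-- first order operators with smooth coefficients -/
def FO (U : Set (En n)) (L : Tn n k → En n → ℝ) : Prop :=
  ∃ (B : Fin n → (Fin k → Fin n) → En n → ℝ) (C : (Fin k → Fin n) → En n → ℝ),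
    (∀ i J, ContDiffOn ℝ ∞ (B i J) U) ∧ (∀ J, ContDiffOn ℝ ∞ (C J) U) ∧ ∀ T, SmT T U → ∀ y ∈ U,
      L T y = ∑ i, ∑ J, B i J y * pderiv i (fun z => T z J) y + ∑ J, C J y * T y J

theorem FO.congr (h : FO U L) (e : ∀ T, SmT T U → ∀ y ∈ U, L' T y = L T y) : FO U L' :=
  let ⟨B, C, h1, h2, h3⟩ := h
  ⟨B, C, h1, h2, fun T hT y hy => (e T hT y hy).trans (h3 T hT y hy)⟩

theorem FO.add (h : FO U L) (h' : FO U L') : FO U fun T y => L T y + L' T y := by
  obtain ⟨B, C, h1, h2, h3⟩ := h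
  obtain ⟨B', C', h1', h2', h3'⟩ := h'
  refine ⟨B + B', C + C', fun i J => (h1 i J).add (h1' i J), fun J => (h2 J).add (h2' J),
    fun T hT y hy => ?_⟩
  simp only [h3 T hT y hy, h3' T hT y hy, Pi.add_apply, add_mul, Finset.sum_add_distrib]
  ring

theorem FO.mul (h : FO U L) {f : En n → ℝ} (hf : ContDiffOn ℝ ∞ f U) :
    FO U fun T y => f y * L T y := by
  obtain ⟨B, C, h1, h2, h3⟩ := h
  refine ⟨fun i J y => f y * B i J y, fun J y => f y * C J y, fun i J => hf.mul (h1 i J),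
    fun J => hf.mul (h2 J), fun T hT y hy => ?_⟩
  simp only [h3 T hT y hy, mul_add, Finset.mul_sum, mul_assoc]

theorem FO.sub (h : FO U L) (h' : FO U L') : FO U fun T y => L T y - L' T y :=
  (h.add (h'.mul (contDiffOn_const (c := -1)))).congr fun _ _ _ _ => by ring

theorem FO.sum {ι : Type*} [Fintype ι] {L : ι → Tn n k → En n → ℝ} (h : ∀ i, FO U (L i)) :
    FO U fun T y => ∑ i, L i T y := by
  choose B C h1 h2 h3 using h
  refine ⟨fun i J y => ∑ l, B l i J y, fun J y => ∑ l, C l J y,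
    fun i J => ContDiffOn.sum fun l _ => h1 l i J, fun J => ContDiffOn.sum fun l _ => h2 l J,
    fun T hT y hy => ?_⟩
  simp only [fun l => h3 l T hT y hy, Finset.sum_add_distrib, Finset.sum_mul]
  rw [Finset.sum_comm, Finset.sum_comm (f := fun l J => C l J y * T y J)]
  exact congrArg (· + _) (Finset.sum_congr rfl fun _ _ => Finset.sum_comm)

theorem fo_val (I : Fin k → Fin n) : FO U fun T y => T y I :=
  ⟨0, fun J _ => if J = I then 1 else 0, fun _ _ => contDiffOn_const, fun _ => contDiffOn_const,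
    fun T _ y _ => by simp⟩

theorem fo_pd (l : Fin n) (I : Fin k → Fin n) : FO U fun T y => pderiv l (fun z => T z I) y :=
  ⟨fun i J _ => if J = I then if i = l then 1 else 0 else 0, 0, fun _ _ => contDiffOn_const,
    fun _ => contDiffOn_const, fun T _ y _ => by simp⟩

theorem fo_cov (hG : IsRiemannianOn G U) (J : Fin (k + 1) → Fin n) :
    FO U fun T y => cov G T y J :=
  (fo_pd _ _).sub (FO.sum fun _ => FO.sum fun _ => (fo_val _).mul (sm_chr hG _ _ _))

theorem lap_op (hG : IsRiemannianOn G U) (k : ℕ) : ∃ B C, Cf U (fun y => (G y)⁻¹) B C ∧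
    ∀ T : Tn n k, SmT T U → ∀ I, ∀ y ∈ U,
      -lapT G T y I = opc (fun y => (G y)⁻¹) B C (fun J z => T z J) I y := by
  have h1 : ∀ a b (I : Fin k → Fin n), FO U fun T y => pderiv a (pderiv b fun z => T z I) y -
      cov G (cov G T) y (Fin.cons a (Fin.cons b I)) := fun a b I => by
    refine ((FO.sum fun s => FO.sum fun m => ((fo_val (Function.update I s m)).mul
      (sm_pd hG.isOpen (sm_chr hG m b (I s)) a)).add ((fo_pd a (Function.update I s m)).mul
      (sm_chr hG m b (I s)))).add (FO.sum fun s => FO.sum fun m => (fo_cov hG (Function.update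
      (Fin.cons b I) s m)).mul (sm_chr hG m a (Fin.cons (α := fun _ => Fin n) b I s)))).congr
      fun T hT y hy => ?_
    have d1 := fun J => hT.dAt hG.isOpen hy J
    have d2 := fun a b c => dAt (sm_chr hG a b c) hG.isOpen hy
    rw [cov_cons]
    simp only [cov_cons, actA]
    rw [pd_sub a (dAt (sm_pd hG.isOpen (hT I) b) hG.isOpen hy)
      (.fun_sum fun s _ => .fun_sum fun m _ => (d2 _ _ _).fun_mul (d1 _)),
      pd_sum a _ fun s _ => .fun_sum fun m _ => (d2 _ _ _).fun_mul (d1 _)]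
    simp only [fun s : Fin k => pd_sum a Finset.univ fun m _ =>
      (d2 m b (I s)).fun_mul (d1 (Function.update I s m)), pd_mul a (d2 _ _ _) (d1 _)]
    ring
  choose B C h2 h3 h4 using fun I : Fin k → Fin n =>
    FO.sum fun a => FO.sum fun b => (h1 a b I).mul (sm_inv hG a b)
  refine ⟨fun i I => B I i, C, ⟨sm_inv hG, fun y hy => (hG.posDef y hy).inv, fun i I => h2 I i,
    h3⟩, fun T hT I y hy => ?_⟩
  simp only [opc, ← h4 I T hT y hy, lapT, trT, mul_sub, Finset.sum_sub_distrib]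
  ring

end FO

variable {X : Type*} {α : Type} [Fintype α] {k : ℕ} {A : Atl X α} {σ : Equiv.Perm (Fin k)}
  {χ : α → X → ℝ} {K : α → Set E4} {G G0 : α → MetricField 4} {η : α → E4 → ℝ}
  {e : (α → Tn 4 k) → (α → Tn 4 k) → α → E4 → ℝ} {P : (α → Tn 4 k) → α → Tn 4 k}

/-- Cauchy-Schwarz -/
theorem int_cs (h : A.Ok) (hχ : A.PoU χ K) {f a b : α → E4 → ℝ} (hf : A.Intg χ G f)
    (ha : A.Intg χ G0 a) (hb : A.Intg χ G0 b) (a0 : ∀ s, ∀ x ∈ A.U s, 0 ≤ a s x)
    (b0 : ∀ s, ∀ x ∈ A.U s, 0 ≤ b s x) (hle : ∀ s, ∀ x ∈ A.U s,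
      A.den χ G s x * |f s x| ≤ A.den χ G0 s x * (√(a s x) * √(b s x))) :
    |A.int χ G f| ≤ √(A.int χ G0 a) * √(A.int χ G0 b) := by
  refine le_sqrt_mul (Atl.int_nonneg h hχ a0) (Atl.int_nonneg h hχ b0) fun τ hτ => ?_
  refine (Atl.abs_int_le hχ f).trans ?_
  rw [← Atl.int_const_mul, ← Atl.int_const_mul, ← Atl.int_add (ha.const_mul _) (hb.const_mul _)]
  refine Finset.sum_le_sum fun s _ => setIntegral_mono_on ((hf s).abs.congr (.of_forall fun x => ?_))
    ((ha.const_mul _).add (hb.const_mul _) s) (h.isOpen s).measurableSet fun x hx =>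
      (hle s x hx).trans (mul_le_mul_of_nonneg_left (Ok.sqrt_mul_le (a0 s x hx) (b0 s x hx) hτ)
        (Atl.den_nonneg hχ s x))
  simp only [abs_mul, abs_of_nonneg (Atl.den_nonneg hχ s x)]

namespace Dat

variable (d : Dat A σ χ K G G0 η e P)
include d

theorem e_sub_le {s t : α → Tn 4 k} (hs : A.Sec s) (ht : A.Sec t) {a : α} {y : E4}
    (hy : y ∈ A.U a) : e (s - t) (s - t) a y ≤ 2 * e s s a y + 2 * e t t a y := by
  have k : ∀ c : ℝ, e ((1 : ℝ) • s + c • t) ((1 : ℝ) • s + c • t) a y =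
      e s s a y + 2 * c * e s t a y + c ^ 2 * e t t a y := fun c => by
    rw [d.lin _ _ _ hs ht ((hs.smul 1).add (ht.smul c)) _ _ a y hy, d.symm s _ a y hy,
      d.symm t _ a y hy, d.lin _ _ _ hs ht hs _ _ a y hy, d.lin _ _ _ hs ht ht _ _ a y hy,
      d.symm t s a y hy]
    ring
  have k1 := k (-1)
  have k2 := d.e0 ((1 : ℝ) • s + (1 : ℝ) • t) a hy
  rw [k] at k2
  rw [one_smul, neg_one_smul, ← sub_eq_add_neg] at k1
  linarith

theorem int_K_le (t : WT A σ) (a : α) {D : Set E4} (hU : D ⊆ A.U a) :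
    ∫ y in D, A.den χ G0 a y * e t.1.1 t.1.1 a y ≤ d.pb.N t t :=
  have p : ∀ b, ∀ y ∈ A.U b, 0 ≤ A.den χ G0 b y * e t.1.1 t.1.1 b y := fun b y hy =>
    mul_nonneg (Atl.den_nonneg d.pou b y) (d.e0 _ b hy)
  (setIntegral_mono_set (d.ig_e t.1 t a) ((ae_restrict_mem
    (d.ok.isOpen a).measurableSet).mono (p a)) hU.eventuallyLE).trans
    (Finset.single_le_sum (f := fun b => ∫ y in A.U b, A.den χ G0 b y * e t.1.1 t.1.1 b y)
      (fun b _ => setIntegral_nonneg (d.ok.isOpen b).measurableSet (p b)) (Finset.mem_univ a))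

/-- the energy of a limit -/
theorem en_K_le (up : ∀ a D, IsCompact D → D ⊆ A.U a → ∃ C : ℝ, 0 < C ∧
      ∀ s, ∀ y ∈ D, e s s a y ≤ C * jT (s a) y) {s : ℕ → WT A σ} {u : WS A σ} {r : ℝ}
    (hs : d.pb.Lc s u) (hr : Tendsto (fun l => d.pb.N (s l) (s l)) atTop (𝓝 r)) (a : α)
    {D : Set E4} (hD : IsCompact D) (hU : D ⊆ A.U a) :
    ∫ y in D, A.den χ G0 a y * e u.1 u.1 a y ≤ 2 * r := by
  obtain ⟨C, C0, hC⟩ := up a D hD hU
  have cd := (Atl.sm_den d.met0 d.pou a).continuousOn.mono hU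
  obtain ⟨E, E0, hE⟩ := exists_ub hD cd
  have l := (hr.const_mul 2).add ((hs a D hD hU).const_mul (2 * (E * C)))
  rw [mul_zero, add_zero] at l
  refine ge_of_tendsto' l fun l => ?_
  have i : ∀ w : WS A σ, IntegrableOn (fun y => A.den χ G0 a y * e w.1 w.1 a y) D := fun w =>
    (cd.mul ((d.ct _ _ w.2.1 w.2.1 a).mono hU)).integrableOn_compact hD
  have i2 : IntegrableOn (jet (d.pb.c (s l - u) a)) D :=
    ((jet_cont (d.ok.isOpen a) (((s l).1 - u).2.1.sm a)).mono hU).integrableOn_compact hD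
  refine le_trans ?_ (add_le_add_left (mul_le_mul_of_nonneg_left (d.int_K_le (s l) a hU)
    zero_le_two) _)
  rw [← integral_const_mul, ← integral_const_mul,
    ← integral_add ((i _).const_mul _) (i2.const_mul _)]
  refine setIntegral_mono_on (i u) (((i _).const_mul _).add (i2.const_mul _)) hD.measurableSet
    fun y hy => ?_
  have a1 := d.e_sub_le (s l).1.2.1 ((s l).1 - u).2.1 (hU hy)
  rw [Submodule.coe_sub, sub_sub_cancel] at a1
  have a2 := hC ((s l).1.1 - u.1) y hy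
  have a3 := (le_abs_self _).trans (hE y hy)
  have a4 := Atl.den_nonneg (G := G0) d.pou a y
  have a5 := mul_le_mul a3 a2 (d.e0 _ a (hU hy)) E0.le
  have a6 := mul_le_mul_of_nonneg_left a1 a4
  change _ ≤ _ + _ * jT (((s l).1.1 - u.1) a) y
  nlinarith

end Dat

theorem lap_dat (h : A.Ok) (hχ : A.PoU χ K) (hG : A.IsMet G) {ρ : α → E4 → ℝ} (hρ : A.Ct ρ)
    (ρ0 : ∀ a, ∀ x ∈ A.U a, 0 < ρ a x) : Dat A (1 : Equiv.Perm (Fin k)) χ K G G (fun _ _ => 1)
      (fun s t a x => ip (G a) (cov (G a) (s a)) (cov (G a) (t a)) x +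
        ip (G a) (s a) (t a) x / ρ a x ^ 2) fun s => -fun a => lapT (G a) (s a) where
  ok := h
  pou := hχ
  met := hG
  met0 := hG
  inv _ := rfl
  ηc _ _ _ _ _ _ _ := rfl
  ηs _ := contDiffOn_const
  ηp _ _ _ := one_pos
  lin s s' t hs hs' _ b c a y hy := by
    have := cov_add (G := G a) ((hs.smul b).dfT h hy) ((hs'.smul c).dfT h hy)
    simp only [Pi.smul_apply] at this
    simp only [ip, Pi.add_apply, Pi.smul_apply, this, cov_smul, ipA_add_left, ipA_smul_left]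
    ring
  symm s t a y hy := by rw [ip_comm (hG.riem a) hy, ip_comm (hG.riem a) hy (s a)]
  ct s t hs ht a := ((hs.cov h hG).ct_ip hG (ht.cov h hG) a).add
    ((hs.ct_ip hG ht a).div ((hρ a).pow 2) fun x hx => pow_ne_zero _ (ρ0 a x hx).ne')
  van s t a y _ h0 := by
    simp only [ip, (cov_congr (G := G a) EventuallyEq.rfl h0).eq_of_nhds, h0.eq_of_nhds, cov_zero,
      Pi.zero_apply, ipA_zero_right, zero_div, add_zero]
  lo a D hD hU := by
    obtain ⟨C, C0, hC⟩ := jet_cmp (hG.riem a) hD hU k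
    obtain ⟨R, R0, hR⟩ := exists_ub hD (((hρ a).pow 2).mono hU)
    refine ⟨C * (1 + R), by positivity, fun s y hy => (hC y hy _).1.trans ?_⟩
    rw [mul_assoc]
    refine mul_le_mul_of_nonneg_left ?_ C0.le
    have p0 := Ar.ipA_nonneg ((hG.riem a).posDef y (hU hy)) (s a y)
    have p1 := Ar.ipA_nonneg ((hG.riem a).posDef y (hU hy)) (cov (G a) (s a) y)
    have p2 := pow_pos (ρ0 a y (hU hy)) 2
    have p3 := mul_le_mul_of_nonneg_right ((le_abs_self _).trans (hR y hy)) (div_nonneg p0 p2.le)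
    rw [Pi.pow_apply, mul_div_cancel₀ _ p2.ne'] at p3
    simp only [nsq, ip]
    nlinarith [mul_nonneg R0.le p1, div_nonneg p0 p2.le]
  P_mem s hs := ⟨(hs.1.lapT h hG).neg, fun _ _ _ _ => rfl⟩
  P_eq a := by
    obtain ⟨B, C, h1, h2⟩ := lap_op (hG.riem a) k
    exact ⟨_, B, C, h1, fun s hs => h2 _ (hs.1.sm a)⟩

/-- **existence of finite energy solutions** for the rough Laplacian -/
theorem lin_ex (h : A.Ok) (hχ : A.PoU χ K) (hG : A.IsMet G) {ρ : α → E4 → ℝ} (hρ : A.Ct ρ)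
    (ρ0 : ∀ a, ∀ x ∈ A.U a, 0 < ρ a x) {c : ℝ} (hc : 0 < c)
    (hardy : ∀ (t : α → Tn 4 k) (S : Set X), A.Sec t → A.CS S → A.Van t S →
      c * A.int χ G (fun a x => nsq (G a) (t a) x / ρ a x ^ 2) ≤
        A.int χ G fun a x => nsq (G a) (cov (G a) (t a)) x)
    {F : α → Tn 4 k} (hF : A.Sec F) (iF : A.Intg χ G fun a x => ρ a x ^ 2 * nsq (G a) (F a) x) :
    ∃ u : α → Tn 4 k, A.Sec u ∧ (∀ a, ∀ x ∈ A.U a, lapT (G a) (u a) x = F a x) ∧
      A.lint χ G (fun a x => ENNReal.ofReal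
        (nsq (G a) (cov (G a) (u a)) x + nsq (G a) (u a) x / ρ a x ^ 2)) < ⊤ := by
  have d := lap_dat (k := k) h hχ hG hρ ρ0
  have p0 : ∀ {l : ℕ} (t : Tn 4 l) a, ∀ x ∈ A.U a, 0 ≤ ip (G a) t t x := fun t a x hx =>
    Ar.ipA_nonneg ((hG.riem a).posDef x hx) _
  have i1 : ∀ s t : WT A (1 : Equiv.Perm (Fin k)), A.Intg χ G fun a =>
      ip (G a) (cov (G a) (t.1.1 a)) (cov (G a) (s.1.1 a)) := fun s t => by
    obtain ⟨S, h1, h2⟩ := t.2
    obtain ⟨S', h3, h4, h5⟩ := h1.exists_cl h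
    exact Atl.intg_of_cs h hG hχ h4 ((t.1.2.1.cov h hG).ct_ip hG (s.1.2.1.cov h hG))
      (((h2.mono h3).cov h h5).ip_left _)
  have e1 : ∀ s t : WT A (1 : Equiv.Perm (Fin k)), d.pb.ip (d.pb.P s) t =
      A.int χ G fun a => ip (G a) (cov (G a) (t.1.1 a)) (cov (G a) (s.1.1 a)) := fun s t => by
    obtain ⟨S, h1, h2⟩ := t.2
    rw [Atl.green_lap h hG hχ t.1.2.1 s.1.2.1 h1 h2, ← Atl.int_neg]
    refine Atl.int_congr h fun a x hx => ?_
    rw [one_mul, ip_comm (hG.riem a) hx]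
    exact Ar.ipA_neg_right _ _ _
  have ok : d.pb.Ok 1 := d.pb_ok zero_le_one fun s t => by
    rw [e1, one_mul, mul_comm]
    refine int_cs h hχ (i1 s t) (d.ig_e _ t) (d.ig_e _ s) (fun a x hx => d.e0 _ a hx)
      (fun a x hx => d.e0 _ a hx) fun a x hx => mul_le_mul_of_nonneg_left
        ((Ar.abs_ipA_le ((hG.riem a).posDef x hx) _ _).trans ?_) (Atl.den_nonneg hχ a x)
    gcongr <;> exact le_add_of_nonneg_right (div_nonneg (p0 _ a x hx) (sq_nonneg _))
  have fam : d.pb.Fam (m := Fin 0) Fin.elim0 Fin.elim0 (c / (1 + c)) :=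
    ⟨by positivity, fun k => k.elim0, fun t _ => by
      obtain ⟨S, h1, h2⟩ := t.2
      have a1 := hardy _ S t.1.2.1 h1 h2
      have i2 := ((d.ig_e t.1 t).sub (i1 t t)).congr h
        (g := fun a x => nsq (G a) (t.1.1 a) x / ρ a x ^ 2) fun a x _ => by simp [nsq]
      rw [e1, Dat.pb_N, div_mul_eq_mul_div, div_le_iff₀ (by positivity)]
      erw [Atl.int_add (i1 t t) i2]
      change _ ≤ A.int χ G (fun a x => nsq (G a) (cov (G a) (t.1.1 a)) x) * _
      change _ * (A.int χ G (fun a x => nsq (G a) (cov (G a) (t.1.1 a)) x) + _) ≤ _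
      linarith⟩
  obtain ⟨u, μ, -, h1, -, -, s, r, h2, -, h3⟩ := ok.solve fam (p := 0) (by simp)
    ⟨-F, hF.neg, fun _ _ _ _ => rfl⟩ (Real.sqrt_nonneg _) (fun t => int_cs h hχ (d.ig_ip _ t) iF
      (d.ig_e _ t) (fun a x hx => mul_nonneg (sq_nonneg _) (p0 _ a x hx))
      (fun a x hx => d.e0 _ a hx) fun a x hx => mul_le_mul_of_nonneg_left (by
        have r0 := ρ0 a x hx
        rw [one_mul, Real.sqrt_mul (sq_nonneg _), Real.sqrt_sq r0.le]
        refine (le_of_eq ((congrArg abs (Ar.ipA_neg_left _ _ _)).trans (abs_neg _))).trans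
          ((Ar.abs_ipA_le ((hG.riem a).posDef x hx) _ _).trans ?_)
        rw [mul_comm (ρ a x), mul_assoc]
        refine mul_le_mul_of_nonneg_left ((div_le_iff₀' r0).1 ?_) (Real.sqrt_nonneg _)
        rw [← Real.sqrt_sq r0.le, ← Real.sqrt_div' _ (sq_nonneg _)]
        exact Real.sqrt_le_sqrt (le_add_of_nonneg_left (p0 _ a x hx)))
        (Atl.den_nonneg hχ a x)) 0
  refine ⟨u.1, u.2.1, fun a x hx => funext fun I => neg_injective ?_,
    ENNReal.sum_lt_top.2 fun a _ => ?_⟩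
  · exact (h1 a I x hx).trans (by simp [Dat.pb_c])
  simp only [← ENNReal.ofReal_mul (Atl.den_nonneg hχ a _)]
  refine (lint_le_of_cpt (h.isOpen a) ((Atl.sm_den hG hχ a).continuousOn.mul
    (d.ct _ _ u.2.1 u.2.1 a)) (fun y hy => mul_nonneg (Atl.den_nonneg hχ a _) (d.e0 _ a hy))
    fun D hD hU => d.en_K_le (fun a D hD hU => ?_) h2 h3 a hD hU).trans_lt ENNReal.ofReal_lt_top
  obtain ⟨C, C0, hC⟩ := jet_cmp (hG.riem a) hD hU k
  obtain ⟨R, R0, hR⟩ := exists_lb hD (((hρ a).pow 2).mono hU) fun y hy =>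
    pow_pos (ρ0 a y (hU hy)) 2
  refine ⟨(1 + R⁻¹) * C, by positivity, fun s y hy => ?_⟩
  rw [mul_assoc]
  refine le_trans ?_ (mul_le_mul_of_nonneg_left (hC y hy _).2 (by positivity))
  have a0 := p0 (s a) a y (hU hy)
  have a1 := p0 (cov (G a) (s a)) a y (hU hy)
  have a2 := div_le_div_of_nonneg_left a0 R0 (hR y hy)
  rw [div_eq_inv_mul _ R, Pi.pow_apply] at a2
  simp only [nsq]
  nlinarith [mul_nonneg (inv_nonneg.2 R0.le) a1]

end Crest.Agent.N207.K

end
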