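import Crest.Agent.N207.K.Sch
import Crest.Agent.N207.K.Pop1
import Crest.Agent.R238.HBMat

-- ▼ part N207/K/Sch2
section

/-!
# Row 207, block K (helper3): `schSys`, the interior estimate for systems
-/

set_option autoImplicit false
set_option linter.unusedSectionVars false
open MeasureTheory Metric Set Filter Topology
open scoped ContDiff

namespace Crest.Agent.N207.K

open Crest.Agent.NLib.Ell Crest.Agent.R238.Sch Crest.Agent.R273.SchA_152
open Crest.Agent.R273.SchB_152 (P2)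
open Crest.Agent.R238 (Ell)
open Crest.Agent.R335 (pd)

noncomputable section

variable {n : ℕ} {ι : Type} [Fintype ι]
  {a lo hi M N S : ℝ} {U : Set (EE n)} {k : ℕ} {τ : EE n → Matrix (Fin n) (Fin n) ℝ}
  {β : Fin n → ι → ι → EE n → ℝ} {c : ι → ι → EE n → ℝ} {u f : ι → EE n → ℝ}

theorem cka_intg {w : EE n → ℝ} {x0 : EE n} {R V : ℝ} (ha : 0 < a)
    (h : CKA a (ball x0 R) k V w) : IntegrableOn (fun z => w z ^ 2) (ball x0 R) := by
  have : IsFiniteMeasure ((volume : Measure (EE n)).restrict (ball x0 R)) :=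
    isFiniteMeasure_restrict.2 measure_ball_lt_top.ne
  refine Integrable.of_bound (((ho_continuousOn h.ho ha).pow 2).aestronglyMeasurable
    measurableSet_ball) (V ^ 2) ?_
  refine (ae_restrict_iff' measurableSet_ball).2 (.of_forall fun z hz => ?_)
  rw [norm_pow]
  exact pow_le_pow_left₀ (norm_nonneg _) (h.bdd hz) 2

theorem SyH.subset {x0 : EE n} {R : ℝ} (ha : 0 < a)
    (h : SyH k a lo hi M (ball x0 R) τ β c u f N S) {V : Set (EE n)} (hV : V ⊆ ball x0 R) :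
    SyH k a lo hi M V τ β c u f N S := by
  obtain ⟨W, hW⟩ := h.hu
  exact ⟨fun x hx => h.ell x (hV hx), fun i j => (h.hτ i j).subset hV,
    fun i p q => (h.hβ i p q).subset hV, fun p q => (h.hc p q).subset hV,
    fun p => (h.hf p).subset hV, ⟨W, fun p => (hW p).subset hV⟩, h.S0,
    fun p => (setIntegral_mono_set (cka_intg ha (hW p)) (.of_forall fun _ => sq_nonneg _)
      hV.eventuallyLE).trans (h.hS p), fun p x hx => h.eq p x (hV hx)⟩

/-- the weighted property used for point picking -/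
def Pr (a σ R Q : ℝ) (x0 : EE n) (u : ι → EE n → ℝ) : Prop :=
  ∀ x ∈ ball x0 R, ∀ p, CKA a (ball 0 (1 / 4)) 2 (Q / (R - dist x x0) ^ n)
    fun y => u p (x + (σ * (R - dist x x0)) • y)

theorem Pr.loc {σ R Q : ℝ} {x0 : EE n} (ha : 0 ≤ a) (ha1 : a ≤ 1) (hσ : 0 < σ) (hσ1 : σ ≤ 1 / 2)
    (hQ : 0 ≤ Q) (h : Pr a σ R Q x0 u) {x : EE n} (hx : x ∈ ball x0 R) (p : ι) {y : EE n}
    (hy : y ∈ ball (0 : EE n) 1) : CKA a (ball y (1 / 8)) 2 (8 * 2 ^ n * (Q / (R - dist x x0) ^ n))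
      fun z => u p (x + (σ * (R - dist x x0)) • z) := by
  set d := R - dist x x0 with hd
  have hd0 : 0 < d := sub_pos.2 hx
  set x' := x + (σ * d) • y with hx'
  have h1 : dist x' x ≤ d / 2 := by
    rw [hx', dist_eq_norm, add_sub_cancel_left, norm_smul, Real.norm_of_nonneg (by positivity)]
    have := mem_ball_zero_iff.1 hy
    nlinarith [norm_nonneg y, mul_nonneg hσ.le hd0.le]
  have h2 : d / 2 ≤ R - dist x' x0 := by linarith [dist_triangle x' x x0]
  have h3 := resc ha ha1 (h x' (by rw [mem_ball]; linarith) p) (x := x) (r := σ * d) (L := 2)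
    (by positivity) (mul_pos hσ (by linarith)) (by norm_num) (by nlinarith) rfl
  rw [show (1 : ℝ) / (4 * 2) = 1 / 8 by norm_num] at h3
  refine h3.mono ?_
  have h4 : Q / (R - dist x' x0) ^ n ≤ Q / (d / 2) ^ n :=
    div_le_div_of_nonneg_left hQ (by positivity) (pow_le_pow_left₀ (by positivity) h2 n)
  have h5 : Q / (d / 2) ^ n = 2 ^ n * (Q / d ^ n) := by rw [div_pow]; field_simp
  rw [h5] at h4
  nlinarith

theorem sys_step (n : ℕ) (ι : Type) [Fintype ι] {a lo hi : ℝ} (ha : 0 < a) (ha1 : a < 1)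
    (hlo : 0 < lo) (hlohi : lo ≤ hi) {M : ℝ} (hM : 0 ≤ M) : ∃ σ C : ℝ, 0 < σ ∧ σ ≤ 1 / 2 ∧ 0 < C ∧
      ∀ (x0 : EE n) (R : ℝ) (τ : EE n → Matrix (Fin n) (Fin n) ℝ) (β : Fin n → ι → ι → EE n → ℝ)
        (c : ι → ι → EE n → ℝ) (u f : ι → EE n → ℝ) (N S Q : ℝ), R ≤ 1 → 0 ≤ N → 0 ≤ Q →
        SyH 0 a lo hi M (ball x0 R) τ β c u f N S → Pr a σ R Q x0 u →
        Pr a σ R (Q / 2 + C * (N + S)) x0 u := by
  obtain ⟨C0, hC0, H⟩ := sch_radii n 0 ha ha1 hlo hlohi M (r := 1 / 4) (R := 1) (by norm_num)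
    (by norm_num) le_rfl
  set K1 : ℝ := 8 * 2 ^ n with hK1
  have hK10 : 0 < K1 := by positivity
  set A : ℝ := C0 * ((n + 1) * Fintype.card ι * (2 * (M * (16 * K1)))) with hA
  have hA0 : 0 ≤ A := by positivity
  set σ : ℝ := 1 / (4 * A + 2) with hσ
  have hσ0 : 0 < σ := by positivity
  have hσ1 : σ ≤ 1 / 2 := one_div_le_one_div_of_le (by norm_num) (by linarith)
  have hσA : σ * A ≤ 1 / 4 := by
    rw [hσ, div_mul_eq_mul_div, div_le_iff₀ (by positivity)]; linarith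
  obtain ⟨ε, hε0, hε1, hε⟩ : ∃ ε : ℝ, 0 < ε ∧ ε ≤ 1 / 8 ∧ C0 * K1 * ε ^ a ≤ 1 / 4 := by
    have t : Tendsto (fun ε : ℝ => C0 * K1 * ε ^ a) (𝓝[>] 0) (𝓝 (C0 * K1 * (0 : ℝ) ^ a)) :=
      ((Real.continuousAt_rpow_const 0 a (Or.inr ha.le)).tendsto.const_mul _).mono_left
        nhdsWithin_le_nhds
    rw [Real.zero_rpow ha.ne', mul_zero] at t
    obtain ⟨ε, h1, h2⟩ := ((t.eventually (ge_mem_nhds (show (0 : ℝ) < 1 / 4 by norm_num))).and
      (Ioo_mem_nhdsGT (show (0 : ℝ) < 1 / 8 by norm_num))).exists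
    exact ⟨ε, h2.1, h2.2.le, h1⟩
  have ho := om_pos n
  set B : ℝ := 1 / ((ε * σ) ^ n * √(om n)) with hB
  have hB0 : 0 < B := by positivity
  refine ⟨σ, C0 * (1 + B), hσ0, hσ1, by positivity, ?_⟩
  intro x0 R τ β c u f N S Q hR hN hQ h hP x hx p
  set d := R - dist x x0 with hd
  have hd0 : 0 < d := sub_pos.2 hx
  have hd1 : d ≤ 1 := by linarith [dist_nonneg (x := x) (y := x0)]
  have hdn : 0 < d ^ n := by positivity
  have hdn1 : d ^ n ≤ 1 := pow_le_one₀ hd0.le hd1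
  set r := σ * d with hr
  have hr0 : 0 < r := by positivity
  have hrσ : r ≤ σ := mul_le_of_le_one_right hσ0.le hd1
  have hrd : r ≤ d / 2 := by nlinarith
  set q := Q / d ^ n with hq
  have hq0 : 0 ≤ q := by positivity
  have hl : ∀ p, ∀ y ∈ ball (0 : EE n) 1, CKA a (ball y (1 / 8)) 2 (K1 * q)
      fun z => u p (x + r • z) := fun p y hy => hP.loc ha.le ha1.le hσ0 hσ1 hQ hx p hy
  have hK : ∀ p, CKA a (ball 0 1) (0 + 1) (16 * (K1 * q)) fun z => u p (x + r • z) := fun p =>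
    ((CKA.of_local ha.le ha1.le (by norm_num) (by norm_num) (hl p)).mono
      (le_of_eq (by norm_num))).pred
  obtain ⟨W, hW⟩ := h.hu
  have hT : ∀ y ∈ ball (0 : EE n) 1, |u p (x + r • y)| ≤ K1 * q * ε ^ a + B * (S / d ^ n) := by
    intro y hy
    have hy1 := mem_ball_zero_iff.1 hy
    have hs : ball (x + r • y) (ε * r) ⊆ ball x0 R := fun z hz => by
      rw [mem_ball] at hz ⊢
      have e1 : dist (x + r • y) x ≤ r := by
        rw [dist_eq_norm, add_sub_cancel_left, norm_smul, Real.norm_of_nonneg hr0.le]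
        nlinarith
      have e2 := dist_triangle4 z (x + r • y) x x0
      nlinarith
    have h1 := abs_le_osc (w := u p) (ρ := ε * r) (E := K1 * q * ε ^ a) (by positivity)
      (by nlinarith) h.S0 ((cka_intg ha (hW p)).mono_set hs) (fun z hz => ?_)
      ((h.subset ha hs).hS p)
    · refine h1.trans (le_of_eq ?_)
      rw [hB, hr, ← mul_assoc, mul_pow (ε * σ)]
      field_simp
    · have e1 : z = x + r • (y + r⁻¹ • (z - (x + r • y))) := by
        rw [smul_add, smul_smul, mul_inv_cancel₀ hr0.ne', one_smul]; abel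
      have e2 : ‖r⁻¹ • (z - (x + r • y))‖ ≤ ε := by
        rw [norm_smul, norm_inv, Real.norm_of_nonneg hr0.le, ← div_eq_inv_mul, div_le_iff₀ hr0,
          ← dist_eq_norm]
        exact le_of_lt hz
      have e3 : ‖r⁻¹ • (z - (x + r • y))‖ < 1 / 8 := by
        rw [norm_smul, norm_inv, Real.norm_of_nonneg hr0.le, ← div_eq_inv_mul, div_lt_iff₀ hr0,
          ← dist_eq_norm]
        exact lt_of_lt_of_le hz (by nlinarith)
      have e4 := (hl p y hy).ho.hol (y + r⁻¹ • (z - (x + r • y)))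
        (by rwa [mem_ball, dist_eq_norm, add_sub_cancel_left]) y (mem_ball_self (by norm_num))
      rw [add_sub_cancel_left, ← e1] at e4
      exact e4.trans (mul_le_mul_of_nonneg_left (Real.rpow_le_rpow (norm_nonneg _) e2 ha.le)
        (by positivity))
  obtain ⟨g, hg⟩ := h.aff isOpen_ball ha.le ha1.le x hr0 (by linarith) (fun z hz => by
    rw [mem_ball] at hz ⊢
    linarith [dist_triangle z x x0]) hrσ hM hN hK p hT
  refine (H 0 _ _ _ _ _ _ _ hg).mono ?_
  have e1 : C0 * (N + (n + 1) * Fintype.card ι * (2 ^ (0 + 1) * (σ * M * (16 * (K1 * q)))) +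
      (K1 * q * ε ^ a + B * (S / d ^ n))) =
      C0 * N + σ * A * q + C0 * K1 * ε ^ a * q + C0 * B * (S / d ^ n) := by rw [hA]; ring
  have e2 : (Q / 2 + C0 * (1 + B) * (N + S)) / d ^ n =
      q / 2 + C0 * (1 + B) * (N / d ^ n + S / d ^ n) := by rw [hq]; ring
  have e3 : N ≤ N / d ^ n := le_div_self hN hdn hdn1
  have e4 : 0 ≤ S / d ^ n := div_nonneg h.S0 hdn.le
  rw [e1, e2]
  have e5 := mul_le_mul_of_nonneg_right hσA hq0
  have e6 := mul_le_mul_of_nonneg_right hε hq0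
  have e7 := mul_le_mul_of_nonneg_left e3 hC0.le
  have e8 : 0 ≤ C0 * B * (N / d ^ n) := by positivity
  have e9 : 0 ≤ C0 * (S / d ^ n) := by positivity
  nlinarith

theorem sys_zero (n : ℕ) (ι : Type) [Fintype ι] {a lo hi : ℝ} (ha : 0 < a) (ha1 : a < 1)
    (hlo : 0 < lo) (hlohi : lo ≤ hi) {M : ℝ} (hM : 0 ≤ M) {r R : ℝ} (hrR : r < R) (hR : R ≤ 1) :
    ∃ C : ℝ, 0 < C ∧ ∀ (x0 : EE n) (τ : EE n → Matrix (Fin n) (Fin n) ℝ)
      (β : Fin n → ι → ι → EE n → ℝ) (c : ι → ι → EE n → ℝ) (u f : ι → EE n → ℝ) (N S : ℝ),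
      0 ≤ N → SyH 0 a lo hi M (ball x0 R) τ β c u f N S →
      ∀ p, CKA a (ball x0 r) 2 (C * (N + S)) (u p) := by
  obtain ⟨σ, C, hσ, hσ1, hC, H⟩ := sys_step n ι ha ha1 hlo hlohi hM
  set e := min (R - r) 1 with he
  have he0 : 0 < e := lt_min (by linarith) one_pos
  have he1 : e ≤ 1 := min_le_right _ _
  set L := 1 / (σ * e) with hL
  have hL1 : 1 ≤ L := by rw [hL, le_div_iff₀ (by positivity)]; nlinarith
  refine ⟨2 / (1 / (4 * L)) * (L ^ (2 + 1) * (2 * C / e ^ n)), by positivity, ?_⟩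
  intro x0 τ β c u f N S hN h p
  obtain ⟨W, hW⟩ := h.hu
  have hNS : 0 ≤ C * (N + S) := mul_nonneg hC.le (add_nonneg hN h.S0)
  have h0 : Pr a σ R |W| x0 u := fun x hx p => by
    have hd0 : 0 < R - dist x x0 := sub_pos.2 hx
    have hd1 : R - dist x x0 ≤ 1 := by linarith [dist_nonneg (x := x) (y := x0)]
    refine (((hW p).dilate isOpen_ball ha.le ha1.le x (r := σ * (R - dist x x0))
      (by rw [abs_of_pos (by positivity)]; nlinarith)).subset fun y hy => ?_).mono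
      ((le_abs_self _).trans (le_div_self (abs_nonneg _) (by positivity) (pow_le_one₀ hd0.le hd1)))
    rw [mem_ball_zero_iff] at hy
    have e1 : dist (x + (σ * (R - dist x x0)) • y) x < R - dist x x0 := by
      rw [dist_eq_norm, add_sub_cancel_left, norm_smul, Real.norm_of_nonneg (by positivity)]
      nlinarith [norm_nonneg y, mul_pos hσ hd0]
    rw [mem_preimage, mem_ball]
    linarith [dist_triangle (x + (σ * (R - dist x x0)) • y) x x0]
  have h1 : ∀ j : ℕ, Pr a σ R (|W| / 2 ^ j + 2 * (C * (N + S))) x0 u := fun j => by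
    induction j with
    | zero => exact fun x hx p => (h0 x hx p).mono (div_le_div_of_nonneg_right (by
        simp only [pow_zero, div_one]; linarith) (pow_nonneg (sub_pos.2 hx).le _))
    | succ j ih =>
      have := H x0 R τ β c u f N S _ hR hN (by positivity) h ih
      rwa [show (|W| / 2 ^ j + 2 * (C * (N + S))) / 2 + C * (N + S) =
        |W| / 2 ^ (j + 1) + 2 * (C * (N + S)) by ring] at this
  have h2 : Pr a σ R (2 * (C * (N + S))) x0 u := fun x hx p => cka_of_forall fun ε hε => by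
    have hd : 0 < (R - dist x x0) ^ n := pow_pos (sub_pos.2 hx) _
    have t : Tendsto (fun j : ℕ => |W| / 2 ^ j) atTop (𝓝 0) :=
      tendsto_const_nhds.div_atTop (tendsto_pow_atTop_atTop_of_one_lt one_lt_two)
    obtain ⟨j, hj⟩ := (t.eventually (ge_mem_nhds (mul_pos hε hd))).exists
    refine (h1 j x hx p).mono ?_
    rw [add_div, add_comm]
    exact add_le_add le_rfl ((div_le_iff₀ hd).2 hj)
  rw [mul_assoc]
  refine CKA.of_local ha.le ha1.le (by positivity) (by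
    rw [div_le_one (by positivity)]; linarith) fun x hx => ?_
  have hx' : dist x x0 < r := hx
  have hd : e ≤ R - dist x x0 := (min_le_left _ _).trans (by linarith)
  have h3 := resc ha.le ha1.le (h2 x (by rw [mem_ball]; linarith) p) (x := 0) (r := 1) (L := L)
    one_pos (mul_pos hσ (he0.trans_le hd)) hL1 (by
      rw [hL, div_mul_eq_mul_div, le_div_iff₀ (by positivity)]; nlinarith) (y0 := x) (by simp)
  simp only [one_smul, zero_add] at h3
  refine h3.mono ?_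
  rw [mul_assoc]
  refine mul_le_mul_of_nonneg_left ?_ (by positivity)
  rw [show 2 * C / e ^ n * (N + S) = 2 * (C * (N + S)) / e ^ n by ring]
  exact div_le_div_of_nonneg_left (by positivity) (by positivity) (pow_le_pow_left₀ he0.le hd n)

/-- **interior estimate for systems**, any radii -/
theorem sys_radii (n k : ℕ) (ι : Type) [Fintype ι] {a lo hi : ℝ} (ha : 0 < a) (ha1 : a < 1)
    (hlo : 0 < lo) (hlohi : lo ≤ hi) {M : ℝ} (hM : 0 ≤ M) {r R : ℝ} (hr : 0 < r) (hrR : r < R)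
    (hR : R ≤ 1) : ∃ C : ℝ, 0 < C ∧ ∀ (x0 : EE n) (τ : EE n → Matrix (Fin n) (Fin n) ℝ)
      (β : Fin n → ι → ι → EE n → ℝ) (c : ι → ι → EE n → ℝ) (u f : ι → EE n → ℝ) (N S : ℝ),
      0 ≤ N → SyH k a lo hi M (ball x0 R) τ β c u f N S →
      ∀ p, CKA a (ball x0 r) (k + 2) (C * (N + S)) (u p) := by
  induction k generalizing r with
  | zero => exact sys_zero n ι ha ha1 hlo hlohi hM hrR hR
  | succ k ih =>
    obtain ⟨C1, hC1, H1⟩ := ih (r := (r + R) / 2) (by linarith) (by linarith)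
    obtain ⟨C2, hC2, H2⟩ := sch_radii n (k + 1) ha ha1 hlo hlohi M (r := r) (R := (r + R) / 2) hr
      (by linarith) (by linarith)
    refine ⟨C2 * (1 + (n + 1) * Fintype.card ι * (2 ^ (k + 1 + 1) * (M * C1)) + C1), by positivity,
      fun x0 τ β c u f N S hN h p => ?_⟩
    have h1 := H1 x0 τ β c u f N S hN h.pred
    obtain ⟨g, hg⟩ := h.scalar isOpen_ball (ball_subset_ball (by linarith)) h1 p hM
      fun x hx => (h1 p).bdd hx
    refine (H2 x0 _ _ _ _ _ _ _ hg).mono ?_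
    rw [mul_assoc C2]
    refine mul_le_mul_of_nonneg_left ?_ hC2.le
    linarith [h.S0]

end

end Crest.Agent.N207.K
end

-- ▼ part N207/K/Pop3

/-!
# Row 207, block K (helper10): scaling of `Pop`, the leaf `PSCH`
-/

set_option autoImplicit false

open scoped ContDiff
open Set Filter Topology Metric MeasureTheory
open Crest.GeometryTopology.CoordMetric Crest.GeometryTopology.ChartCurvature
open Crest.Agent.N207.CB Crest.Agent.N207.Lg Crest.Agent.NLib.Ell
open Crest.Agent.R238 (Ell)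

noncomputable section

namespace Crest.Agent.N207.K

theorem jet_aff (K : MetricField 4) (x : E4) (ρ : ℝ) (y : E4) :
    Lg.jet (fun y => K (x + ρ • y)) y = ρ • Lg.jet K (x + ρ • y) := by
  funext c a b; exact pd_aff c (fun z => K z a b) x ρ y

theorem jet2_aff (K : MetricField 4) (x : E4) (ρ : ℝ) (y : E4) :
    jet2 (fun y => K (x + ρ • y)) y = ρ ^ 2 • jet2 K (x + ρ • y) := by
  funext c d a b
  simp only [jet2, jet_aff, Pi.smul_apply, smul_eq_mul, pd_cmul]
  rw [pow_two, mul_assoc]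
  exact congrArg _ (pd_aff c (fun z => Lg.jet K z d a b) x ρ y)

variable {G w : MetricField 4} {U : Set E4}

theorem sm_aff (x : E4) (ρ : ℝ) : ContDiff ℝ ∞ fun y : E4 => x + ρ • y :=
  contDiff_const.add (contDiff_id.const_smul ρ)

theorem riem_aff (hG : IsRiemannianOn G U) (x : E4) (ρ : ℝ) :
    IsRiemannianOn (fun y => G (x + ρ • y)) ((fun y => x + ρ • y) ⁻¹' U) :=
  ⟨hG.isOpen.preimage (sm_aff x ρ).continuous, fun i j =>
    (hG.contDiffOn i j).comp (sm_aff x ρ).contDiffOn fun _ h => h, fun _ h => hG.posDef _ h⟩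

theorem smT_aff (hw : SmT (matT w) U) (x : E4) (ρ : ℝ) :
    SmT (matT fun y => w (x + ρ • y)) ((fun y => x + ρ • y) ⁻¹' U) := fun I =>
  (hw I).comp (sm_aff x ρ).contDiffOn fun _ h => h

/-- scaling of `Pop` -/
theorem pop_aff (hG : IsRiemannianOn G U) (hw : SmT (matT w) U) (hs : ∀ y ∈ U, (w y).IsSymm)
    (x : E4) (ρ : ℝ) {y : E4} (hy : x + ρ • y ∈ U) (a b : Fin 4) :
    Pop (fun y => G (x + ρ • y)) (fun y => w (x + ρ • y)) y a b =
      ρ ^ 2 * Pop G w (x + ρ • y) a b := by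
  have h := riem_aff hG x ρ
  rw [pop_jet (.of_riem h hy) (w_c2 h.isOpen (smT_aff hw x ρ) hy)
    (w_sy h.isOpen (fun _ hz => hs _ hz) hy),
    pop_jet (.of_riem hG hy) (w_c2 hG.isOpen hw hy) (w_sy hG.isOpen hs hy), jet_aff, jet_aff,
    jet2_aff, jet2_aff, chr_smul, dG2_hom]
  exact congrFun (congrFun (popJ_hom _ _ _ _ ρ _ _ _) a) b

theorem ex_unif {ι X : Type*} [Fintype ι] {V : X → Set E4} {k : ℕ} {f : ι → X → E4 → ℝ}
    (h : ∀ i, ∃ C, 0 ≤ C ∧ ∀ d, CKA (1 / 2) (V d) k C (f i d)) :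
    ∃ C, 0 ≤ C ∧ ∀ i d, CKA (1 / 2) (V d) k C (f i d) := by
  choose C h0 h1 using h
  exact ⟨∑ i, C i, Finset.sum_nonneg fun i _ => h0 i, fun i d => (h1 i d).mono
    (Finset.single_le_sum (fun i _ => h0 i) (Finset.mem_univ i))⟩

/-- the inverse of an elliptic matrix field -/
theorem cka_inv (k : ℕ) {lo : ℝ} (hlo : 0 < lo) (hi M : ℝ) : ∃ C : ℝ, 0 ≤ C ∧
    ∀ (V : Set E4) (G : MetricField 4), IsOpen V → (∀ y ∈ V, Ell lo hi (G y)) →
      (∀ a b, CKA (1 / 2) V k M fun y => G y a b) →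
      ∀ a b, CKA (1 / 2) V k C fun y => (G y)⁻¹ a b := by
  have hc : IsClosed {A : Fin 4 → Fin 4 → ℝ | Ell lo hi (Matrix.of A)} := by
    simp only [Ell, ofPred_and, ofPred_forall, forall_and, Matrix.of_apply]
    refine (isClosed_iInter fun i => isClosed_iInter fun j => isClosed_eq ?_ ?_).inter
      ((isClosed_iInter fun z => isClosed_le ?_ ?_).inter (isClosed_iInter fun z => isClosed_le ?_ ?_))
    all_goals fun_prop
  have hd : ContDiff ℝ ∞ fun A : Fin 4 → Fin 4 → ℝ => A := contDiff_id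
  have hA : ∀ (A : Fin 4 → Fin 4 → ℝ) i j,
      ContDiffAt ℝ ∞ (fun A : Fin 4 → Fin 4 → ℝ => Matrix.of A i j) A := fun A i j =>
    contDiffAt_pi.1 (contDiffAt_pi.1 hd.contDiffAt i) j
  obtain ⟨C, hC⟩ := NLib.Ell.comp 4 k (1 / 2) (4 * (4 * M)) (by norm_num) (by norm_num)
    (Fin 4 → Fin 4 → ℝ) (Fin 4 → Fin 4 → ℝ) (fun A i j => (Matrix.of A)⁻¹ i j)
    {A | (Matrix.of A).det ≠ 0} _
    (isOpen_ne_fun (continuous_iff_continuousAt.2 fun A => (cA_det (hA A)).continuousAt)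
      continuous_const)
    ((isCompact_closedBall 0 (4 * (4 * M))).inter_right hc)
    (fun A h => (R238.Ell.det_pos hlo h.2).ne')
    fun A h => (contDiffAt_pi.2 fun i => contDiffAt_pi.2 fun j =>
      cA_inv (hA A) h i j).contDiffWithinAt
  refine ⟨|C|, abs_nonneg _, fun V G hV he h a b => ?_⟩
  have h1 : CKA (1 / 2) V k (4 * (4 * M)) fun y (a b : Fin 4) => G y a b := by
    simpa using CKA.pi hV fun a => CKA.pi hV fun b => h a b
  exact (((hC V _ hV (fun y hy => ⟨mem_closedBall_zero_iff.2 (h1.bdd hy), he y hy⟩) h1).apply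
    hV a).apply hV b).mono (le_abs_self C)

/-- uniform bounds for the coefficients of `Pop` -/
theorem cka_coef (k : ℕ) {lo : ℝ} (hlo : 0 < lo) (hi M : ℝ) : ∃ C : ℝ, 0 ≤ C ∧
    ∀ (V : Set E4) (G : MetricField 4), IsOpen V → (∀ y ∈ V, Ell lo hi (G y)) →
      (∀ a b, CKA (1 / 2) V (k + 2) M fun y => G y a b) →
      (∀ a b, CKA (1 / 2) V k C fun y => (G y)⁻¹ a b) ∧
      (∀ c I J, CKA (1 / 2) V k C (popB G c I J)) ∧ ∀ I J, CKA (1 / 2) V k C (popC G I J) := by
  obtain ⟨C0, hC0, h0⟩ := cka_inv k hlo hi M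
  let D := {p : Set E4 × MetricField 4 // IsOpen p.1 ∧ (∀ y ∈ p.1, Ell lo hi (p.2 y)) ∧
    ∀ a b, CKA (1 / 2) p.1 (k + 2) M fun y => p.2 y a b}
  have cl : Cl fun f : D × E4 → ℝ =>
      ∃ C, 0 ≤ C ∧ ∀ d : D, CKA (1 / 2) d.1.1 k C fun y => f (d, y) :=
    ⟨fun c => ⟨_, norm_nonneg c, fun _ => CKA.const c⟩,
      fun ⟨_, h1, h2⟩ ⟨_, h3, h4⟩ => ⟨_, add_nonneg h1 h3, fun d => (h2 d).add d.2.1 (h4 d)⟩,
      fun ⟨_, h1, h2⟩ ⟨_, h3, h4⟩ => ⟨_, by positivity, fun d => (h2 d).mul d.2.1 (h4 d)⟩⟩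
  have h := Cl.popBC cl (G := fun p => p.1.1.2) (y := fun p => p.2)
    (fun a b => ⟨|M|, abs_nonneg _, fun d => (d.2.2.2 a b).pred.pred.mono (le_abs_self M)⟩)
    (fun a b => ⟨C0, hC0, fun d => h0 _ _ d.2.1 d.2.2.1 (fun a b => (d.2.2.2 a b).pred.pred) a b⟩)
    (fun c a b => ⟨|M|, abs_nonneg _, fun d => ((d.2.2.2 a b).pd c).pred.mono (le_abs_self M)⟩)
    (fun c e a b => ⟨|M|, abs_nonneg _, fun d => (((d.2.2.2 a b).pd e).pd c).mono (le_abs_self M)⟩)
  obtain ⟨C1, hC1, h1⟩ := ex_unif (V := fun d : D => d.1.1)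
    (f := fun (i : Fin 4 × (Fin 2 → Fin 4) × (Fin 2 → Fin 4)) d => popB d.1.2 i.1 i.2.1 i.2.2)
    fun i => h.1 i.1 i.2.1 i.2.2
  obtain ⟨C2, hC2, h2⟩ := ex_unif (V := fun d : D => d.1.1)
    (f := fun (i : (Fin 2 → Fin 4) × (Fin 2 → Fin 4)) d => popC d.1.2 i.1 i.2)
    fun i => h.2 i.1 i.2
  exact ⟨C0 + C1 + C2, by positivity, fun V G hV he hG =>
    ⟨fun a b => (h0 V G hV he (fun a b => (hG a b).pred.pred) a b).mono (by linarith),
      fun c I J => (h1 (c, I, J) ⟨(V, G), hV, he, hG⟩).mono (by linarith),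
      fun I J => (h2 (I, J) ⟨(V, G), hV, he, hG⟩).mono (by linarith)⟩⟩

theorem D2_pd {u : E4 → ℝ} {x : E4} (hu : ContDiffAt ℝ 2 u x) (i j : Fin 4) :
    fderiv ℝ (fderiv ℝ u) x (ei i) (ei j) = pderiv i (pderiv j u) x := by
  have hd : DifferentiableAt ℝ (fderiv ℝ u) x :=
    (hu.fderiv_right (m := 1) (by norm_num)).differentiableAt (by norm_num)
  exact (DFunLike.congr_fun
    ((ContinuousLinearMap.apply ℝ ℝ (ei j : E4)).hasFDerivAt.comp x hd.hasFDerivAt).fderiv _).symm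

theorem psch : PSCH := by
  intro k lam M δ hl hδ hδ1
  have hM := abs_nonneg M
  obtain ⟨K, hK, hc⟩ := cka_coef k hl (lam + |M| * 4) M
  obtain ⟨C, hC, H⟩ := sys_radii 4 k (Fin 2 → Fin 4) (a := 1 / 2) (lo := 1 / (lam + |M| * 4))
    (hi := 1 / lam) (by norm_num) (by norm_num) (by positivity)
    (one_div_le_one_div_of_le hl (by linarith)) hK (half_pos hδ) (half_lt_self hδ) hδ1
  refine ⟨C, hC, fun G w U x y0 ρ N S _ hN hS hG hw hs hU hell hGM hP hI a b => ?_⟩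
  have hG' := riem_aff hG x ρ
  have hw' := smT_aff hw x ρ
  have hm : ∀ y ∈ ball y0 δ, x + ρ • y ∈ U := fun y hy => hU y (ball_subset_closedBall hy)
  have he : ∀ y ∈ ball y0 δ, Ell lam (lam + |M| * 4) (G (x + ρ • y)) := fun y hy =>
    ⟨g_sy hG (hm y hy), fun z => ⟨hell y hy z, by
      have h1 := R238.quad_abs_le (B := G (x + ρ • y)) (c := |M|)
        (fun i j => ((hGM i j).bdd hy).trans (le_abs_self M)) z
      have h2 : 0 ≤ ∑ i, z i ^ 2 := by positivity
      push_cast at h1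
      nlinarith [le_abs_self (∑ i, ∑ j, G (x + ρ • y) i j * z i * z j)]⟩⟩
  obtain ⟨h1, h2, h3⟩ := hc _ (fun y => G (x + ρ • y)) isOpen_ball he hGM
  obtain ⟨V, hV⟩ := exists_cka (a := 1 / 2) (x0 := y0) (R := δ) hG'.isOpen (contDiffOn_pi.2 hw') hU
    (by norm_num) (by norm_num) 2
  refine H y0 (fun y => (G (x + ρ • y))⁻¹) (fun c I J y => -popB (fun y => G (x + ρ • y)) c I J y)
    (fun I J y => -popC (fun y => G (x + ρ • y)) I J y) (fun I y => w (x + ρ • y) (I 0) (I 1))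
    (fun I y => -(ρ ^ 2 * Pop G w (x + ρ • y) (I 0) (I 1))) N S hN
    ⟨fun y hy => R238.Ell.inv hl (by linarith) (he y hy), h1,
      fun c I J => (h2 c I J).neg isOpen_ball, fun I J => (h3 I J).neg isOpen_ball,
      fun I => (hP _ _).neg isOpen_ball, ⟨V, fun I => hV.apply isOpen_ball I⟩, hS,
      fun I => hI _ _, fun I y hy => ?_⟩ ![a, b]
  have c2 := w_c2 hG'.isOpen hw' (hm y hy)
  have e := pop_opc (.of_riem hG' (hm y hy)) c2 (w_sy hG'.isOpen (fun _ hz => hs _ hz) (hm y hy)) I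
  rw [← pop_aff hG hw hs x ρ (hm y hy), show Pop _ _ y (I 0) (I 1) = _ from e, opc]
  simp only [neg_mul, Finset.sum_neg_distrib, neg_add, neg_neg, add_assoc]
  refine congrArg₂ (· + ·) (Finset.sum_congr rfl fun i _ => Finset.sum_congr rfl fun j _ => ?_) rfl
  exact congrArg _ (D2_pd (c2 _ _) i j)

end Crest.Agent.N207.K

end
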