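import Crest.Agent.N207.K.Abs
import Mathlib.Analysis.InnerProductSpace.Completion
import Mathlib.Analysis.Normed.Operator.Extend

/-!
# Row 207, block K (helper1): approximate solutions of the bordered problem in a pre-Hilbert space
-/

set_option autoImplicit false
set_option linter.unusedSectionVars false
set_option linter.style.haveILetI false
open Set Filter Topology UniformSpace
open scoped RealInnerProductSpace

noncomputable section

namespace Crest.Agent.N207.K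

variable {κ : Type*} [Fintype κ] [DecidableEq κ]

theorem approx_dense {T H : Type*} [AddCommGroup T] [Module ℝ T] [NormedAddCommGroup H]
    [InnerProductSpace ℝ H] [CompleteSpace H] (ι : T →ₗ[ℝ] H) (hd : DenseRange ι) (n : T → ℝ)
    (hn : ∀ t, ‖ι t‖ = n t)
    (Q : T →ₗ[ℝ] T →ₗ[ℝ] ℝ) (ψ : κ → T →ₗ[ℝ] ℝ) (φ : κ → T) {c q p A : ℝ} (hc : 0 < c)
    (hq0 : 0 ≤ q) (hQ : ∀ s t, |Q s t| ≤ q * n s * n t) (hψ : ∀ k, ∃ C, ∀ s, |ψ k s| ≤ C * n s)
    (dual : ∀ j k, ψ j (φ k) = if j = k then 1 else 0)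
    (coer : ∀ u, (∀ k, ψ k u = 0) → c * n u ^ 2 ≤ Q u u) (hp : ∑ k, n (φ k) ≤ p)
    (F : T →ₗ[ℝ] ℝ) (hA0 : 0 ≤ A) (hF : ∀ t, |F t| ≤ A * n t) (θ : κ → ℝ) :
    ∃ (s : ℕ → T) (μ : κ → ℝ), CauchySeq (fun m => ι (s m)) ∧
      (∀ t, Tendsto (fun m => Q (s m) t) atTop (𝓝 (F t + ∑ k, μ k * ψ k t))) ∧
      (∀ k, Tendsto (fun m => ψ k (s m)) atTop (𝓝 (θ k))) ∧ ‖μ‖ ≤ bC c q p * max A ‖θ‖ ∧
      ∃ r ≤ bC c q p * max A ‖θ‖, Tendsto (fun m => n (s m)) atTop (𝓝 r) := by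
  have n0 : ∀ t, 0 ≤ n t := fun t => hn t ▸ norm_nonneg _
  have ext : ∀ f g : H →L[ℝ] ℝ, (∀ t, f (ι t) = g (ι t)) → f = g := fun f g h =>
    ContinuousLinearMap.coeFn_injective (hd.equalizer f.continuous g.continuous (funext h))
  have hQ1 : ∀ s t, ‖Q s t‖ ≤ q * n s * ‖ι t‖ := fun s t => by rw [hn]; exact hQ s t
  have e1 : ∀ s t, (Q s).extendOfNorm ι (ι t) = Q s t := fun s t =>
    LinearMap.extendOfNorm_eq hd ⟨_, hQ1 s⟩ t
  set Q1 : T →ₗ[ℝ] (H →L[ℝ] ℝ) :=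
    { toFun := fun s => (Q s).extendOfNorm ι
      map_add' := fun s s' => ext _ _ fun t => by
        rw [add_apply, e1, e1, e1, map_add, LinearMap.add_apply]
      map_smul' := fun a s => ext _ _ fun t => by
        rw [RingHom.id_apply, smul_apply, e1, e1, map_smul, LinearMap.smul_apply] } with hQ1d
  have hQ2 : ∀ s, ‖Q1 s‖ ≤ q * ‖ι s‖ := fun s => by
    rw [hn]
    exact LinearMap.opNorm_extendOfNorm_le hd (mul_nonneg hq0 (n0 s)) (hQ1 s)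
  set Q2 : H →L[ℝ] H →L[ℝ] ℝ :=
    LinearMap.extendOfNorm (F := H →L[ℝ] ℝ) (σ₁₂ := RingHom.id ℝ) Q1 ι with hQ2d
  have e2 : ∀ s, Q2 (ι s) = Q1 s := fun s =>
    LinearMap.extendOfNorm_eq (F := H →L[ℝ] ℝ) hd ⟨_, hQ2⟩ s
  have e3 : ∀ s t, Q2 (ι s) (ι t) = Q s t := fun s t => by rw [e2]; exact e1 s t
  have n2 : ‖Q2‖ ≤ q :=
    LinearMap.opNorm_extendOfNorm_le (F := H →L[ℝ] ℝ) hd hq0 hQ2
  set ψ2 : κ → H →L[ℝ] ℝ := fun k => (ψ k).extendOfNorm ι with hψ2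
  have e4 : ∀ k t, ψ2 k (ι t) = ψ k t := fun k t => by
    obtain ⟨C, hC⟩ := hψ k
    exact LinearMap.extendOfNorm_eq hd ⟨C, fun x => by rw [hn]; exact hC x⟩ t
  set F2 : H →L[ℝ] ℝ := F.extendOfNorm ι with hF2
  have hF1 : ∀ t, ‖F t‖ ≤ A * ‖ι t‖ := fun t => by rw [hn]; exact hF t
  have e5 : ∀ t, F2 (ι t) = F t := fun t => LinearMap.extendOfNorm_eq hd ⟨_, hF1⟩ t
  have n5 : ‖F2‖ ≤ A := LinearMap.opNorm_extendOfNorm_le hd hA0 hF1
  have dual2 : ∀ j k, ψ2 j (ι (φ k)) = if j = k then 1 else 0 := fun j k => by rw [e4, dual]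
  have hB : Bord Q2 ψ2 (fun k => ι (φ k)) c := by
    refine ⟨hc, dual2, fun u hu => ?_⟩
    have key : ∀ x : H, c * ‖prj ψ2 (fun k => ι (φ k)) x‖ ^ 2 ≤
        Q2 (prj ψ2 (fun k => ι (φ k)) x) (prj ψ2 (fun k => ι (φ k)) x) := by
      intro x
      refine hd.induction_on x (isClosed_le (by fun_prop) (by fun_prop)) fun t => ?_
      have : prj ψ2 (fun k => ι (φ k)) (ι t) = ι (t - ∑ k, ψ k t • φ k) := by
        rw [prj_apply, map_sub, map_sum]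
        simp only [e4, map_smul]
      rw [this, e3, hn]
      refine coer _ fun j => ?_
      simp [map_sum, dual]
    have := key u
    rwa [prj_of hu] at this
  obtain ⟨G, h1, h2, -, h4⟩ := hB.green
  set z := G (F2, θ) with hz
  have nz : ‖z‖ ≤ bC c q p * max A ‖θ‖ := by
    have hb := h4 q p n2 (by simpa only [hn] using hp) (F2, θ)
    refine hb.trans (mul_le_mul_of_nonneg_left ?_ ?_)
    · rw [Prod.norm_def]; exact max_le_max n5 le_rfl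
    · have hp0 : 0 ≤ p := (Finset.sum_nonneg fun _ _ => n0 _).trans hp
      rw [bC]; positivity
  obtain ⟨y, hy, hl⟩ := mem_closure_iff_seq_limit.1 (hd z.1)
  choose s hs using hy
  have hl' : Tendsto (fun m => ι (s m)) atTop (𝓝 z.1) := by simpa only [hs] using hl
  refine ⟨s, z.2, hl'.cauchySeq, fun t => ?_, fun k => ?_, (norm_snd_le z).trans nz, ‖z.1‖,
    (norm_fst_le z).trans nz, ?_⟩
  · have a1 := h1 (F2, θ) (ι t)
    simp only [e4, e5] at a1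
    rw [← hz] at a1
    rw [← a1]
    simp only [← e3]
    exact ((Q2.flip (ι t)).continuous.tendsto _).comp hl'
  · have a1 := h2 (F2, θ) k
    rw [← hz] at a1
    simp only [← e4]
    have a2 : θ k = ψ2 k z.1 := a1.symm
    rw [a2]
    exact ((ψ2 k).continuous.tendsto _).comp hl'
  · simpa only [hn] using hl'.norm

/-- the same for a symmetric nonnegative form `N` -/
theorem approx_form {T : Type*} [AddCommGroup T] [Module ℝ T] (N Q : T →ₗ[ℝ] T →ₗ[ℝ] ℝ)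
    (hs : ∀ s t, N s t = N t s) (h0 : ∀ s, 0 ≤ N s s)
    (ψ : κ → T →ₗ[ℝ] ℝ) (φ : κ → T) {c q p A : ℝ} (hc : 0 < c)
    (hq0 : 0 ≤ q) (hQ : ∀ s t, |Q s t| ≤ q * √(N s s) * √(N t t))
    (hψ : ∀ k, ∃ C, ∀ s, |ψ k s| ≤ C * √(N s s))
    (dual : ∀ j k, ψ j (φ k) = if j = k then 1 else 0)
    (coer : ∀ u, (∀ k, ψ k u = 0) → c * N u u ≤ Q u u) (hp : ∑ k, √(N (φ k) (φ k)) ≤ p)
    (F : T →ₗ[ℝ] ℝ) (hA0 : 0 ≤ A) (hF : ∀ t, |F t| ≤ A * √(N t t)) (θ : κ → ℝ) :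
    ∃ (s : ℕ → T) (μ : κ → ℝ),
      (∀ ε > 0, ∃ M, ∀ m ≥ M, ∀ l ≥ M, N (s m - s l) (s m - s l) ≤ ε) ∧
      (∀ t, Tendsto (fun m => Q (s m) t) atTop (𝓝 (F t + ∑ k, μ k * ψ k t))) ∧
      (∀ k, Tendsto (fun m => ψ k (s m)) atTop (𝓝 (θ k))) ∧ ‖μ‖ ≤ bC c q p * max A ‖θ‖ ∧
      ∃ r ≤ bC c q p * max A ‖θ‖, Tendsto (fun m => √(N (s m) (s m))) atTop (𝓝 r) := by
  letI cd : PreInnerProductSpace.Core ℝ T :=
    { inner := fun s t => N s t
      conj_inner_symm := fun x y => by simp [hs x y]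
      re_inner_nonneg := fun x => by simpa using h0 x
      add_left := fun x y z => by simp
      smul_left := fun x y r => by simp }
  letI : SeminormedAddCommGroup T := InnerProductSpace.Core.toSeminormedAddCommGroup (𝕜 := ℝ)
  letI : InnerProductSpace ℝ T := InnerProductSpace.ofCore cd
  set ι : T →ₗ[ℝ] Completion T := (Completion.toComplₗᵢ (𝕜 := ℝ) (E := T)).toLinearMap with hι
  have hn : ∀ t : T, ‖ι t‖ = √(N t t) := fun t => Completion.norm_coe t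
  obtain ⟨s, μ, h1, h2, h3, h4, h5⟩ := approx_dense ι Completion.denseRange_coe _ hn Q ψ φ hc hq0
    hQ hψ dual (fun u hu => by rw [Real.sq_sqrt (h0 u)]; exact coer u hu) hp F hA0 hF θ
  refine ⟨s, μ, fun ε hε => ?_, h2, h3, h4, h5⟩
  obtain ⟨M, hM⟩ := Metric.cauchySeq_iff.1 h1 √ε (Real.sqrt_pos.2 hε)
  refine ⟨M, fun m hm l hl => ?_⟩
  have := hM m hm l hl
  rw [dist_eq_norm, ← map_sub, hn] at this
  exact (Real.sqrt_lt_sqrt_iff (h0 _)).1 this |>.le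


theorem form_add_le {T : Type*} [AddCommGroup T] [Module ℝ T] (N : T →ₗ[ℝ] T →ₗ[ℝ] ℝ)
    (h0 : ∀ s, 0 ≤ N s s) (s t : T) : N (s + t) (s + t) ≤ 2 * N s s + 2 * N t t := by
  have := h0 (s - t)
  simp only [map_add, map_sub, LinearMap.add_apply, LinearMap.sub_apply] at this ⊢
  linarith

end Crest.Agent.N207.K

end
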