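import Crest.Agent.N207.K.Hd1
import Crest.Agent.N207.I.Cal4
import Crest.Agent.N207.AI.EvoS
import Crest.Agent.N207.CB.Defs
import Crest.Agent.N207.N.St3
import Crest.Agent.N207.Ga.Glue
import Crest.Agent.N207.K.Coer1
import Crest.Agent.N207.K.Eta
import Crest.Agent.N207.K.Gbj
import Crest.Agent.N207.K.Ins3
import Crest.Agent.N207.M.Scl

-- ▼ part N207/N/Fam1
section

/-!
# Row 207 (helper44): finitely many bumps control the `L²` norm up to a small gradient term
-/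

set_option autoImplicit false

open scoped ContDiff Topology ENNReal
open Set Filter Metric MeasureTheory
open Crest.GeometryTopology.CoordMetric
open Crest.Agent.N207.Hd

noncomputable section

namespace Crest.Agent.N207.N

theorem measurable_g2 (u : E4 → ℝ) : Measurable (g2 u) :=
  Finset.measurable_sum _ fun _ _ => (measurable_fderiv_apply_const ℝ u _).pow_const 2

/-- Jensen's inequality for a weight of mass one -/
theorem sq_int_le {α : Type*} [MeasurableSpace α] {μ : Measure α} {φ f : α → ℝ}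
    (h0 : ∀ z, 0 ≤ φ z) (hi : Integrable φ μ) (h1 : ∫ z, φ z ∂μ = 1)
    (hf : Integrable (fun z => φ z * f z) μ) (hf2 : Integrable (fun z => φ z * f z ^ 2) μ) :
    (∫ z, φ z * f z ∂μ) ^ 2 ≤ ∫ z, φ z * f z ^ 2 ∂μ := by
  set c := ∫ z, φ z * f z ∂μ with hc
  have h2 : 0 ≤ ∫ z, (φ z * f z ^ 2 - 2 * c * (φ z * f z) + c ^ 2 * φ z) ∂μ :=
    integral_nonneg fun z => by
      have := mul_nonneg (h0 z) (sq_nonneg (f z - c))
      simp only [Pi.zero_apply]; nlinarith
  have h3 : Integrable (fun z => φ z * f z ^ 2 - 2 * c * (φ z * f z)) μ :=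
    hf2.sub (hf.const_mul _)
  rw [integral_add h3 (hi.const_mul _), integral_sub hf2 (hf.const_mul _),
    integral_const_mul, integral_const_mul, h1, ← hc] at h2
  nlinarith

variable {U K' : Set E4} {u : E4 → ℝ}

/-- the gradient density cut to `K'` -/
def GG (K' : Set E4) (u : E4 → ℝ) (y : E4) : ℝ≥0∞ := K'.indicator (fun y => ENNReal.ofReal (g2 u y)) y

theorem measurable_GG (hK : MeasurableSet K') (u : E4 → ℝ) : Measurable (GG K' u) :=
  (measurable_g2 u).ennreal_ofReal.indicator hK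

theorem seg_le (hU : IsOpen U) (hu : ContDiffOn ℝ 1 u U) (hKU : K' ⊆ U) {a h : E4}
    (hs : ∀ t ∈ Icc (0 : ℝ) 1, a + t • h ∈ K') :
    ENNReal.ofReal ((u (a + h) - u a) ^ 2) ≤
      ENNReal.ofReal (‖h‖ ^ 2) * ∫⁻ t in Icc (0 : ℝ) 1, GG K' u (a + t • h) := by
  have hl : Continuous fun t : ℝ => a + t • h := by fun_prop
  have hm : MapsTo (fun t : ℝ => a + t • h) (Icc 0 1) U := fun t ht => hKU (hs t ht)
  have hc : ContinuousOn (fun t : ℝ => fderiv ℝ u (a + t • h) h) (Icc 0 1) :=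
    ((hu.continuousOn_fderiv_of_isOpen hU le_rfl).comp hl.continuousOn hm).clm_apply
      continuousOn_const
  have hg : ContinuousOn (fun t : ℝ => g2 u (a + t • h)) (Icc 0 1) :=
    (contOn_g2 hU hu).comp hl.continuousOn hm
  have hd : ∀ t ∈ uIcc (0 : ℝ) 1, HasDerivAt (fun t : ℝ => u (a + t • h))
      (fderiv ℝ u (a + t • h) h) t := by
    intro t ht
    rw [uIcc_of_le zero_le_one] at ht
    have h1 : HasDerivAt (fun t : ℝ => a + t • h) h t := by
      simpa using ((hasDerivAt_id t).smul_const h).const_add a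
    exact ((hu.contDiffAt (hU.mem_nhds (hm ht))).differentiableAt one_ne_zero).hasFDerivAt.comp_hasDerivAt t h1
  have h2 := intervalIntegral.integral_eq_sub_of_hasDerivAt hd
    (hc.intervalIntegrable_of_Icc zero_le_one)
  simp only [one_smul, zero_smul, add_zero] at h2
  rw [intervalIntegral.integral_of_le zero_le_one, ← integral_Icc_eq_integral_Ioc] at h2
  have h3 := sq_int_le (μ := volume.restrict (Icc (0 : ℝ) 1)) (φ := fun _ => 1)
    (f := fun t => fderiv ℝ u (a + t • h) h) (fun _ => zero_le_one) (by simp) (by simp)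
    (by simp only [one_mul]; exact hc.integrableOn_Icc)
    (by simp only [one_mul]; exact (hc.pow 2).integrableOn_Icc)
  simp only [one_mul] at h3
  have h4 : ∫ t in Icc (0 : ℝ) 1, fderiv ℝ u (a + t • h) h ^ 2 ≤
      ∫ t in Icc (0 : ℝ) 1, ‖h‖ ^ 2 * g2 u (a + t • h) :=
    setIntegral_mono_on (hc.pow 2).integrableOn_Icc (hg.integrableOn_Icc.const_mul _)
      measurableSet_Icc fun t _ => fderiv_sq_le u _ h
  rw [← h2]
  refine (ENNReal.ofReal_le_ofReal (h3.trans h4)).trans ?_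
  rw [integral_const_mul, ENNReal.ofReal_mul (sq_nonneg _),
    ofReal_integral_eq_lintegral_ofReal hg.integrableOn_Icc
      (Eventually.of_forall fun t => g2_nonneg u _)]
  refine mul_le_mul_right (le_of_eq ?_) _
  refine setLIntegral_congr_fun measurableSet_Icc fun t ht => ?_
  simp only [GG, indicator_of_mem (hs t ht)]

theorem integrable_bump {φ f : E4 → ℝ} {ε : ℝ} (hφ : Continuous φ)
    (hs : ∀ z, φ z ≠ 0 → ‖z‖ < ε) (hf : ContinuousOn f (closedBall 0 ε)) :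
    Integrable fun z => φ z * f z := by
  refine ((hφ.continuousOn.mul hf).integrableOn_compact
    (isCompact_closedBall 0 ε)).integrable_of_forall_notMem_eq_zero fun z hz => ?_
  have : φ z = 0 := by
    by_contra h
    exact hz (mem_closedBall_zero_iff.2 (hs z h).le)
  simp [this]

theorem avg_le (hU : IsOpen U) (hu : ContDiffOn ℝ 1 u U) (hKU : K' ⊆ U) {φ : E4 → ℝ} {ε c : ℝ}
    (hφ : Continuous φ) (h0 : ∀ z, 0 ≤ φ z) (h1 : ∫ z, φ z = 1) (hs : ∀ z, φ z ≠ 0 → ‖z‖ < ε)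
    {p h : E4 → E4} (hp : Continuous p) (hh : Continuous h)
    (hK : ∀ z ∈ closedBall (0 : E4) ε, ∀ t ∈ Icc (0 : ℝ) 1, p z + t • h z ∈ K')
    (hc : ∀ z ∈ closedBall (0 : E4) ε, ‖h z‖ ≤ c) :
    ENNReal.ofReal ((∫ z, φ z * (u (p z + h z) - u (p z))) ^ 2) ≤ ENNReal.ofReal (c ^ 2) *
      ∫⁻ z, ENNReal.ofReal (φ z) * ∫⁻ t in Icc (0 : ℝ) 1, GG K' u (p z + t • h z) := by
  have hf : ContinuousOn (fun z => u (p z + h z) - u (p z)) (closedBall 0 ε) :=
    (hu.continuousOn.comp (hp.add hh).continuousOn fun z hz => hKU (by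
      simpa using hK z hz 1 (by simp))).sub
      (hu.continuousOn.comp hp.continuousOn fun z hz => hKU (by simpa using hK z hz 0 (by simp)))
  have hi : Integrable φ := by
    simpa using integrable_bump (f := fun _ => 1) hφ hs continuousOn_const
  have h2 : Integrable fun z => φ z * (u (p z + h z) - u (p z)) ^ 2 :=
    integrable_bump hφ hs (hf.pow 2)
  have h3 := sq_int_le h0 hi h1 (integrable_bump hφ hs hf) h2
  refine (ENNReal.ofReal_le_ofReal h3).trans ?_
  rw [ofReal_integral_eq_lintegral_ofReal h2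
    (Eventually.of_forall fun z => mul_nonneg (h0 z) (sq_nonneg _)),
    ← lintegral_const_mul' _ _ ENNReal.ofReal_ne_top]
  refine lintegral_mono fun z => ?_
  by_cases hz : φ z = 0
  · simp [hz]
  have hz' : z ∈ closedBall (0 : E4) ε := mem_closedBall_zero_iff.2 (hs z hz).le
  rw [ENNReal.ofReal_mul (h0 z), mul_left_comm]
  refine mul_le_mul_right ((seg_le hU hu hKU (hK z hz')).trans ?_) _
  exact mul_le_mul_left (ENNReal.ofReal_le_ofReal
    (pow_le_pow_left₀ (norm_nonneg _) (hc z hz') 2)) _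

theorem lint_shift {G : E4 → ℝ≥0∞} (a : E4) : ∫⁻ x, G (a + x) = ∫⁻ x, G x :=
  lintegral_add_left_eq_self G a

theorem lint_avg {G : E4 → ℝ≥0∞} (hm : Measurable G) {φ : E4 → ℝ≥0∞} (hφ : Measurable φ)
    (h1 : ∫⁻ z, φ z = 1) (hf : ∀ z, φ z ≠ ⊤) :
    ∫⁻ x, ∫⁻ z, φ z * ∫⁻ t in Icc (0 : ℝ) 1, G (x + t • z) = ∫⁻ x, G x := by
  have m1 : Measurable fun q : (E4 × E4) × ℝ => G (q.1.1 + q.2 • q.1.2) :=
    hm.comp (by fun_prop : Continuous fun q : (E4 × E4) × ℝ => q.1.1 + q.2 • q.1.2).measurable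
  have m2 : Measurable fun q : E4 × E4 => ∫⁻ t in Icc (0 : ℝ) 1, G (q.1 + t • q.2) :=
    m1.lintegral_prod_right'
  have m4 : Measurable (Function.uncurry fun (x z : E4) =>
      φ z * ∫⁻ t in Icc (0 : ℝ) 1, G (x + t • z)) := (hφ.comp measurable_snd).mul m2
  rw [lintegral_lintegral_swap m4.aemeasurable]
  have e : ∀ z : E4, ∫⁻ x, φ z * ∫⁻ t in Icc (0 : ℝ) 1, G (x + t • z) =
      φ z * ∫⁻ x, G x := fun z => by
    have m3 : Measurable (Function.uncurry fun (x : E4) (t : ℝ) => G (x + t • z)) :=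
      hm.comp (by fun_prop : Continuous fun q : E4 × ℝ => q.1 + q.2 • z).measurable
    rw [lintegral_const_mul' _ _ (hf z), lintegral_lintegral_swap m3.aemeasurable]
    simp only [lintegral_add_right_eq_self]
    simp
  simp only [e]
  rw [lintegral_mul_const _ hφ, h1, one_mul]

theorem lint_seg {G : E4 → ℝ≥0∞} (hm : Measurable G) {φ : E4 → ℝ≥0∞} {B : ℝ≥0∞} (hB : B ≠ ⊤)
    (h : ∀ z, φ z ≤ B) (a w : E4) :
    ∫⁻ z, φ z * ∫⁻ t in Icc (0 : ℝ) 1, G (a + z + t • w) ≤ B * ∫⁻ x, G x := by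
  refine (lintegral_mono fun z => mul_le_mul_left (h z) _).trans ?_
  have m3 : Measurable (Function.uncurry fun (z : E4) (t : ℝ) => G (a + z + t • w)) :=
    hm.comp (by fun_prop : Continuous fun q : E4 × ℝ => a + q.1 + q.2 • w).measurable
  rw [lintegral_const_mul' _ _ hB, lintegral_lintegral_swap m3.aemeasurable]
  have e : ∀ t : ℝ, ∫⁻ z, G (a + z + t • w) = ∫⁻ x, G x := fun t => by
    rw [← lint_shift (G := G) (a + t • w)]
    exact lintegral_congr fun z => by rw [add_right_comm]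
  simp [e]

theorem three_sq (a m1 m2 P S : ℝ) (h1 : (m1 - m2) ^ 2 ≤ P) (h2 : m2 ^ 2 ≤ S) :
    a ^ 2 ≤ 3 * (m1 - a) ^ 2 + (3 * P + 3 * S) := by
  nlinarith [sq_nonneg (m1 - a + (m1 - m2)), sq_nonneg (m1 - a + m2), sq_nonneg (m1 - m2 - m2)]

theorem pt_le (hU : IsOpen U) (hu : ContDiffOn ℝ 1 u U) (hKU : K' ⊆ U) (hK : MeasurableSet K')
    {φ : E4 → ℝ} {ε δ B D : ℝ} (hφ : Continuous φ) (h0 : ∀ z, 0 ≤ φ z) (h1 : ∫ z, φ z = 1)
    (hs : ∀ z, φ z ≠ 0 → ‖z‖ < ε) (hB : ∀ z, φ z ≤ B) (hD0 : 0 ≤ D) (hε : 0 < ε)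
    (hD : ∫⁻ y, GG K' u y = ENNReal.ofReal D) {x z0 : E4} (hxz : ‖x - z0‖ ≤ δ) (hδ : δ ≤ ε)
    (hx : ∀ w : E4, ‖w‖ ≤ 2 * ε → x + w ∈ K') (hz : ∀ w : E4, ‖w‖ ≤ 2 * ε → z0 + w ∈ K') :
    ENNReal.ofReal (u x ^ 2) ≤ ENNReal.ofReal (3 * ε ^ 2) *
      (∫⁻ z, ENNReal.ofReal (φ z) * ∫⁻ t in Icc (0 : ℝ) 1, GG K' u (x + t • z)) +
      ENNReal.ofReal (3 * (δ ^ 2 * (B * D)) + 3 * (∫ y, φ (y - z0) * u y) ^ 2) := by
  have hB0 : 0 ≤ B := (h0 0).trans (hB 0)
  have hcu : ∀ y, (∀ w : E4, ‖w‖ ≤ 2 * ε → y + w ∈ K') →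
      ContinuousOn (fun z => u (y + z)) (closedBall 0 ε) := fun y hy =>
    hu.continuousOn.comp (continuous_const.add continuous_id).continuousOn fun z hz =>
      hKU (hy z ((mem_closedBall_zero_iff.1 hz).trans (by linarith)))
  have i0 : Integrable φ := by
    simpa using integrable_bump (f := fun _ => 1) hφ hs continuousOn_const
  have i1 := integrable_bump hφ hs (hcu x hx)
  have i2 := integrable_bump hφ hs (hcu z0 hz)
  have a1 := avg_le hU hu hKU hφ h0 h1 hs (p := fun _ => x) (h := fun z => z)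
    (c := ε) continuous_const continuous_id (fun z hz t ht => hx _ (by
      rw [norm_smul, Real.norm_of_nonneg ht.1]
      nlinarith [mem_closedBall_zero_iff.1 hz, ht.1, ht.2, norm_nonneg z]))
    fun z hz => mem_closedBall_zero_iff.1 hz
  have a2 := avg_le hU hu hKU hφ h0 h1 hs (p := fun z => z0 + z)
    (h := fun _ => x - z0) (c := δ) (continuous_const.add continuous_id) continuous_const
    (fun z hz' t ht => by
      rw [add_assoc]
      refine hz _ ((norm_add_le _ _).trans ?_)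
      rw [norm_smul, Real.norm_of_nonneg ht.1]
      nlinarith [mem_closedBall_zero_iff.1 hz', ht.1, ht.2, norm_nonneg (x - z0)])
    fun _ _ => hxz
  have a3 := lint_seg (measurable_GG hK u) (φ := fun z => ENNReal.ofReal (φ z))
    (B := ENNReal.ofReal B) ENNReal.ofReal_ne_top (fun z => ENNReal.ofReal_le_ofReal (hB z))
    z0 (x - z0)
  have e1 : ∫ z, φ z * (u (x + z) - u x) = (∫ z, φ z * u (x + z)) - u x := by
    simp only [mul_sub]
    rw [integral_sub i1 (i0.mul_const _), integral_mul_const, h1, one_mul]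
  have e2 : ∫ z, φ z * (u (z0 + z + (x - z0)) - u (z0 + z)) =
      (∫ z, φ z * u (x + z)) - ∫ y, φ (y - z0) * u y := by
    have e3 : ∀ z, z0 + z + (x - z0) = x + z := fun z => by abel
    simp only [mul_sub, e3]
    rw [integral_sub i1 i2, ← integral_add_left_eq_self (fun y => φ (y - z0) * u y) z0]
    simp
  rw [e1] at a1
  rw [e2] at a2
  have a5 := a2.trans (mul_le_mul_right a3 _)
  have hP : 0 ≤ δ ^ 2 * (B * D) := mul_nonneg (sq_nonneg _) (mul_nonneg hB0 hD0)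
  rw [hD, ← ENNReal.ofReal_mul hB0, ← ENNReal.ofReal_mul (sq_nonneg _),
    ENNReal.ofReal_le_ofReal_iff hP] at a5
  refine (ENNReal.ofReal_le_ofReal (three_sq (u x) _ _ _ _ a5 le_rfl)).trans ?_
  rw [ENNReal.ofReal_add (mul_nonneg zero_le_three (sq_nonneg _))
    (add_nonneg (mul_nonneg zero_le_three hP) (mul_nonneg zero_le_three (sq_nonneg _))),
    ENNReal.ofReal_mul zero_le_three, ENNReal.ofReal_mul zero_le_three, mul_assoc]
  exact add_le_add_left (mul_le_mul_right a1 _) _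

theorem exists_bump {ε : ℝ} (hε : 0 < ε) : ∃ (φ : E4 → ℝ) (B : ℝ), ContDiff ℝ ∞ φ ∧
    (∀ z, 0 ≤ φ z) ∧ ∫ z, φ z = 1 ∧ (∀ z, φ z ≠ 0 → ‖z‖ < ε) ∧ ∀ z, φ z ≤ B := by
  let b : ContDiffBump (0 : E4) := ⟨ε / 2, ε, by positivity, by linarith⟩
  have hsm : ContDiff ℝ ∞ (b.normed volume) := b.contDiff_normed
  obtain ⟨B, hB⟩ := hsm.continuous.bounded_above_of_compact_support b.hasCompactSupport_normed
  refine ⟨_, B, hsm, b.nonneg_normed, b.integral_normed, fun z hz => ?_,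
    fun z => (le_abs_self _).trans (hB z)⟩
  have : z ∈ Function.support (b.normed volume) := hz
  rw [b.support_normed_eq] at this
  exact mem_ball_zero_iff.1 this

/-- **finitely many bumps** -/
theorem eucFam {K : Set E4} (hK : IsCompact K) {ε : ℝ} (hε : 0 < ε) :
    ∃ (Z : Finset E4) (φ : E4 → ℝ) (C : ℝ), (∀ z ∈ Z, z ∈ K) ∧ ContDiff ℝ ∞ φ ∧
      (∀ z, φ z ≠ 0 → ‖z‖ < ε) ∧ 0 ≤ C ∧ ∀ (U : Set E4) (u : E4 → ℝ), IsOpen U →
        ContDiffOn ℝ 1 u U → cthickening (2 * ε) K ⊆ U →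
        ∫ x in K, u x ^ 2 ≤ 6 * ε ^ 2 * (∫ x in cthickening (2 * ε) K, g2 u x) +
          C * ∑ z ∈ Z, (∫ y, φ (y - z) * u y) ^ 2 := by
  obtain ⟨φ, B, hsm, h0, h1, hs, hB⟩ := exists_bump hε
  have hB0 : 0 ≤ B := (h0 0).trans (hB 0)
  obtain ⟨V, hV⟩ : ∃ V, V = volume.real K := ⟨_, rfl⟩
  have hV0 : 0 ≤ V := hV ▸ measureReal_nonneg
  have hBV : 0 ≤ B * V := mul_nonneg hB0 hV0
  obtain ⟨δ, hδ⟩ : ∃ δ, δ = ε / (1 + B * V) := ⟨_, rfl⟩
  have hδ0 : 0 < δ := by rw [hδ]; positivity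
  have hδε : δ ≤ ε := hδ ▸ div_le_self hε.le (by linarith)
  have hδ2 : δ ^ 2 * B * V ≤ ε ^ 2 := by
    have e : δ * (1 + B * V) = ε := hδ ▸ div_mul_cancel₀ _ (by linarith)
    nlinarith [mul_nonneg hδ0.le hBV, sq_nonneg (δ * (B * V)), sq_nonneg δ]
  obtain ⟨Z0, hZK, hZf, hZ⟩ := hK.finite_cover_balls hδ0
  refine ⟨hZf.toFinset, φ, 3 * V, fun z hz => hZK (hZf.mem_toFinset.1 hz), hsm, hs,
    by positivity, fun U u hU hu hKU => ?_⟩
  have hK'c : IsCompact (cthickening (2 * ε) K) := hK.cthickening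
  have hmem : ∀ x ∈ K, ∀ w : E4, ‖w‖ ≤ 2 * ε → x + w ∈ cthickening (2 * ε) K := fun x hx w hw =>
    mem_cthickening_of_dist_le _ x _ _ hx (by simpa [dist_eq_norm] using hw)
  generalize cthickening (2 * ε) K = K' at hK'c hmem hKU ⊢
  have hm := hK'c.isClosed.measurableSet
  obtain ⟨D, hD⟩ : ∃ D, D = ∫ x in K', g2 u x := ⟨_, rfl⟩
  have hD0 : 0 ≤ D := hD ▸ integral_nonneg fun x => g2_nonneg u x
  have hDl : ∫⁻ y, GG K' u y = ENNReal.ofReal D := by
    rw [hD, ofReal_integral_eq_lintegral_ofReal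
      (((contOn_g2 hU hu).mono hKU).integrableOn_compact hK'c)
      (Eventually.of_forall fun x => g2_nonneg u x)]
    exact lintegral_indicator hm _
  obtain ⟨S, hS⟩ : ∃ S, S = ∑ z ∈ hZf.toFinset, (∫ y, φ (y - z) * u y) ^ 2 := ⟨_, rfl⟩
  have hS0 : 0 ≤ S := hS ▸ Finset.sum_nonneg fun _ _ => sq_nonneg _
  have i0 : Integrable φ := by
    simpa using integrable_bump (f := fun _ => 1) hsm.continuous hs continuousOn_const
  have hφl : ∫⁻ z, ENNReal.ofReal (φ z) = 1 := by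
    rw [← ofReal_integral_eq_lintegral_ofReal i0 (Eventually.of_forall h0), h1,
      ENNReal.ofReal_one]
  have hA := lint_avg (measurable_GG hm u) hsm.continuous.measurable.ennreal_ofReal hφl
    fun _ => ENNReal.ofReal_ne_top
  have hP : 0 ≤ 3 * (δ ^ 2 * (B * D)) + 3 * S := by positivity
  have hpt : ∀ x ∈ K, ENNReal.ofReal (u x ^ 2) ≤ ENNReal.ofReal (3 * ε ^ 2) *
      (∫⁻ z, ENNReal.ofReal (φ z) * ∫⁻ t in Icc (0 : ℝ) 1, GG K' u (x + t • z)) +
      ENNReal.ofReal (3 * (δ ^ 2 * (B * D)) + 3 * S) := by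
    intro x hx
    obtain ⟨z0, hz0, hxz⟩ := mem_iUnion₂.1 (hZ hx)
    have hxz' : ‖x - z0‖ ≤ δ := by rw [← dist_eq_norm]; exact (mem_ball.1 hxz).le
    have a4 : (∫ y, φ (y - z0) * u y) ^ 2 ≤ S := hS ▸
      Finset.single_le_sum (f := fun z => (∫ y, φ (y - z) * u y) ^ 2) (fun _ _ => sq_nonneg _)
        (hZf.mem_toFinset.2 hz0)
    refine (pt_le hU hu hKU hm hsm.continuous h0 h1 hs hB hD0 hε hDl hxz' hδε (hmem x hx)
      (hmem z0 (hZK hz0))).trans (add_le_add_right (ENNReal.ofReal_le_ofReal ?_) _)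
    linarith
  have hKK : K ⊆ U := fun x hx => hKU (by simpa using hmem x hx 0 (by simp [hε.le]))
  have hE : 0 ≤ 3 * ε ^ 2 := by positivity
  have hfin : ENNReal.ofReal (∫ x in K, u x ^ 2) ≤
      ENNReal.ofReal (3 * ε ^ 2 * D + (3 * (δ ^ 2 * (B * D)) + 3 * S) * V) := by
    have hi : IntegrableOn (fun x => u x ^ 2) K :=
      ((hu.continuousOn.mono hKK).pow 2).integrableOn_compact hK
    rw [ofReal_integral_eq_lintegral_ofReal hi (Eventually.of_forall fun x => sq_nonneg _)]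
    refine (setLIntegral_mono' hK.isClosed.measurableSet hpt).trans ?_
    rw [lintegral_add_right _ measurable_const, lintegral_const_mul' _ _ ENNReal.ofReal_ne_top,
      setLIntegral_const, ENNReal.ofReal_add (mul_nonneg hE hD0) (mul_nonneg hP hV0),
      ENNReal.ofReal_mul hE, ENNReal.ofReal_mul hP, hV,
      ofReal_measureReal hK.measure_lt_top.ne, ← hDl, ← hA]
    exact add_le_add_left (mul_le_mul_right (setLIntegral_le_lintegral _ _) _) _
  rw [ENNReal.ofReal_le_ofReal_iff (add_nonneg (mul_nonneg hE hD0) (mul_nonneg hP hV0))] at hfin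
  rw [← hD, ← hS]
  nlinarith [mul_le_mul_of_nonneg_right hδ2 hD0]

end Crest.Agent.N207.N

end
end

-- ▼ part N207/N/Fam2
section

/-!
# Row 207 (helper44): sections with support in a fixed compact set and their `L²` pairing
-/

set_option autoImplicit false

open scoped ContDiff Topology
open Set Filter Metric MeasureTheory
open Crest.GeometryTopology.CoordMetric
open Crest.Agent.N207.I Crest.Agent.N207.CB Crest.Agent.N207.Lg

noncomputable section

namespace Crest.Agent.N207.N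

/-- orthonormalisation of a finite family for a semidefinite form -/
theorem exists_on {V : Type*} [AddCommGroup V] [Module ℝ V] (B : LinearMap.BilinForm ℝ V)
    (hs : ∀ x y, B x y = B y x) (hp : ∀ x, 0 ≤ B x x) {ι : Type} [Fintype ι] (e : ι → V) :
    ∃ (κ : Type) (_ : Fintype κ) (f : κ → V) (C : ℝ), 0 ≤ C ∧ (∀ i, B (f i) (f i) = 1) ∧
      (∀ i j, i ≠ j → B (f i) (f j) = 0) ∧ ∀ l : V →ₗ[ℝ] ℝ, (∀ x, B x x = 0 → l x = 0) →
        ∀ i, l (e i) ^ 2 ≤ C * ∑ j, l (f j) ^ 2 := by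
  classical
  let Φ : (ι → ℝ) →ₗ[ℝ] V := Fintype.linearCombination ℝ e
  obtain ⟨v, hv⟩ := LinearMap.BilinForm.exists_orthogonal_basis (B := B.compl₁₂ Φ Φ)
    ⟨fun x y => hs _ _⟩
  have hv' : ∀ i j, i ≠ j → B (Φ (v i)) (Φ (v j)) = 0 := fun i j h => hv h
  let d : _ → ℝ := fun k => B (Φ (v k)) (Φ (v k))
  let c : ι → {k // d k ≠ 0} → ℝ := fun i k => v.repr (Pi.single i 1) k * √(d k)
  have hq : ∀ k : {k // d k ≠ 0}, √(d k) ≠ 0 := fun k =>
    (Real.sqrt_pos.2 ((hp _).lt_of_ne' k.2)).ne'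
  refine ⟨{k // d k ≠ 0}, inferInstance, fun k => (√(d k))⁻¹ • Φ (v k), ∑ i, ∑ k, c i k ^ 2,
    by positivity, fun k => ?_, fun i j h => ?_, fun l hl i => ?_⟩
  · simp only [map_smul, LinearMap.smul_apply, smul_eq_mul]
    have h1 : √(d k) * √(d k) = B (Φ (v k)) (Φ (v k)) := Real.mul_self_sqrt (hp _)
    have := hq k
    rw [← h1]; field_simp
  · simp only [map_smul, LinearMap.smul_apply, smul_eq_mul]
    rw [hv' _ _ fun e => h (Subtype.ext e), mul_zero, mul_zero]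
  · have h1 : e i = Φ (Pi.single i 1) := by
      simp [Φ, Fintype.linearCombination_apply_single]
    have h2 : l (e i) = ∑ k, v.repr (Pi.single i 1) k * l (Φ (v k)) := by
      rw [h1]
      conv_lhs => rw [← v.sum_repr (Pi.single i 1)]
      simp only [map_sum, map_smul, smul_eq_mul]
    have h3 : l (e i) = ∑ k : {k // d k ≠ 0}, c i k * l ((√(d k))⁻¹ • Φ (v k)) := by
      rw [h2, ← Fintype.sum_subtype_add_sum_subtype (fun k => d k ≠ 0),
        Finset.sum_eq_zero (s := Finset.univ (α := {k // ¬ d k ≠ 0})) fun k _ => by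
          rw [hl _ (not_not.1 k.2), mul_zero], add_zero]
      refine Finset.sum_congr rfl fun k _ => ?_
      have := hq k
      simp only [c, map_smul, smul_eq_mul]
      field_simp
    rw [h3]
    refine (Finset.sum_mul_sq_le_sq_mul_sq _ _ _).trans
      (mul_le_mul_of_nonneg_right ?_ (by positivity))
    exact Finset.single_le_sum (f := fun i => ∑ k, c i k ^ 2) (fun _ _ => by positivity)
      (Finset.mem_univ i)

variable {X : Type*} {α : Type} {A : Atl X α} {G ψ ψ' w : α → MetricField 4} {χ : α → X → ℝ}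
  {K R : α → Set E4} {S : Set X}

/-- smooth symmetric sections vanishing off `S` -/
structure CSec (A : Atl X α) (S : Set X) (ψ : α → MetricField 4) : Prop where
  sec : A.Sec fun s => matT (ψ s)
  symm : ∀ s, ∀ x ∈ A.U s, (ψ s x).IsSymm
  van : A.Van ψ S

/-- `C¹` symmetric sections over the region `R` only -/
structure LocS (A : Atl X α) (R : α → Set E4) (w : α → MetricField 4) : Prop where
  sm : ∀ s a b, ContDiffOn ℝ 1 (fun x => w s x a b) (R s)
  symm : ∀ s, ∀ x ∈ R s, (w s x).IsSymm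
  compat : ∀ s s' x F, A.Tr s s' x F → x ∈ R s → F x ∈ R s' →
    matT (w s) x = pullT F (matT (w s')) x

/-- the setting: `S` compact in the open region `R` -/
structure Stg [Fintype α] (A : Atl X α) (G : α → MetricField 4) (χ : α → X → ℝ)
    (K R : α → Set E4) (S : Set X) : Prop where
  ok : A.Ok
  met : A.IsMet G
  pou : A.PoU χ K
  op : ∀ s, IsOpen (R s)
  sub : ∀ s, R s ⊆ A.U s
  cs : A.CS S
  cl : A.Cl S
  sat : ∀ b, ∀ y ∈ A.U b, A.c b y ∈ S → y ∈ R b

/-- the `L²` pairing -/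
def pr [Fintype α] (A : Atl X α) (χ : α → X → ℝ) (G ψ w : α → MetricField 4) : ℝ :=
  A.int χ G fun s x => ip (G s) (matT (ψ s)) (matT (w s)) x

/-- the trace -/
def trM (G ψ : MetricField 4) (x : E4) : ℝ := tr2 (fun a b => (G x)⁻¹ a b) fun a b => ψ x a b

/-- the pure trace part -/
def trP (G ψ : α → MetricField 4) : α → MetricField 4 :=
  fun s x => (1 / 4 * trM (G s) (ψ s) x) • G s x

theorem locS_of_sec (hR : ∀ s, R s ⊆ A.U s) (h1 : A.Sec fun s => matT (w s))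
    (h2 : ∀ s, ∀ x ∈ A.U s, (w s x).IsSymm) : LocS A R w :=
  ⟨fun s a b => ((h1.sm s ![a, b]).of_le (by exact_mod_cast le_top)).mono (hR s),
    fun s x hx => h2 s x (hR s hx), fun s s' x F t _ _ => h1.compat s s' x F t⟩

namespace CSec

theorem zero : CSec A S 0 :=
  ⟨Atl.Sec.zero, fun _ _ _ => Matrix.isSymm_zero, fun _ _ _ h => absurd rfl h⟩

theorem add (h : CSec A S ψ) (h' : CSec A S ψ') : CSec A S (ψ + ψ') :=
  ⟨h.sec.add h'.sec, fun s x hx => (h.symm s x hx).add (h'.symm s x hx),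
    (h.van.add h'.van).mono (union_self S).le⟩

theorem smul (c : ℝ) (h : CSec A S ψ) : CSec A S (c • ψ) :=
  ⟨h.sec.smul c, fun s x hx => (h.symm s x hx).smul c,
    h.van.of_imp fun b y _ e => by simp [e]⟩

theorem vanT (h : CSec A S ψ) : A.Van (fun s => matT (ψ s)) S :=
  h.van.of_imp fun b y _ e => by funext I; simp [matT, e]

theorem trP (hA : A.Ok) (hG : A.IsMet G) (h : CSec A S ψ) : CSec A S (trP G ψ) := by
  have h1 := h.sec.trT (k := 0) hA hG
  refine ⟨((Atl.Sec.met hG).smT (f := fun s x => trT (k := 0) (G s) (matT (ψ s)) x ![])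
    (h1.compat.val hA) fun s => h1.sm s _).smul (1 / 4) |>.congr fun s x _ => ?_,
    fun s x hx => (Matrix.IsSymm.ext fun i j => R202.Tens.metric_symm (hG.riem s) hx j i).smul _,
    h.van.of_imp fun b y _ e => by simp [N.trP, trM, tr2, e]⟩
  funext I
  simp only [matT, N.trP, Matrix.smul_apply, smul_eq_mul, Pi.smul_apply, smT, mul_assoc]
  rfl

end CSec

theorem trM_smul (G ψ : MetricField 4) (c : ℝ) (x : E4) : trM G (c • ψ) x = c * trM G ψ x := by
  simp only [trM, tr2, Pi.smul_apply, Matrix.smul_apply, smul_eq_mul, Finset.mul_sum, mul_left_comm]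

theorem trM_add (G ψ ψ' : MetricField 4) (x : E4) :
    trM G (ψ + ψ') x = trM G ψ x + trM G ψ' x := by
  simp only [trM, tr2, Pi.add_apply, Matrix.add_apply, mul_add, Finset.sum_add_distrib]

theorem trM_of_eq {G ψ : MetricField 4} {U : Set E4} {x : E4} (hG : IsRiemannianOn G U)
    (hx : x ∈ U) {c : ℝ} (e : ψ x = c • G x) : trM G ψ x = 4 * c := by
  have h1 := tr_g hG hx
  simp only [trM, tr2, e, Matrix.smul_apply, smul_eq_mul, mul_left_comm _ c, ← Finset.mul_sum, h1]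
  push_cast; ring

theorem ip_of_eq {G ψ : MetricField 4} {U : Set E4} {x : E4} (hG : IsRiemannianOn G U)
    (hx : x ∈ U) {c : ℝ} (e : ψ x = c • G x) (w : MetricField 4) :
    ip G (matT ψ) (matT w) x = c * trM G w x := by
  have h1 : matT ψ x = c • matT G x := by funext I; simp [matT, e]
  rw [ip, h1, ipA_smul_left]
  exact congrArg _ (AI.ip_matT hG hx (matT w))

variable [Fintype α]

namespace Stg

variable (h : Stg A G χ K R S)
include h

theorem locS (hψ : CSec A S ψ) : LocS A R ψ := locS_of_sec h.sub hψ.sec hψ.symm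

theorem ct (hψ : CSec A S ψ) (hw : LocS A R w) :
    A.Ct fun s => ip (G s) (matT (ψ s)) (matT (w s)) := fun b y hy => by
  refine ContinuousAt.continuousWithinAt ?_
  by_cases e : A.c b y ∈ S
  · have hy' := h.sat b y hy e
    refine ContinuousOn.continuousAt (s := R b) ?_ ((h.op b).mem_nhds hy')
    show ContinuousOn (fun x => ∑ I : Fin 2 → Fin 4, ∑ J : Fin 2 → Fin 4,
      (∏ s, (G b x)⁻¹ (I s) (J s)) * (matT (ψ b) x I * w b x (J 0) (J 1))) (R b)
    refine continuousOn_finsetSum _ fun I _ => continuousOn_finsetSum _ fun J _ =>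
      ContinuousOn.mul (continuousOn_finsetProd _ fun s _ => ?_) (ContinuousOn.mul
        (((hψ.sec.sm b I).continuousOn).mono (h.sub b)) (hw.sm b _ _).continuousOn)
    exact ((sm_inv (h.met.riem b) _ _).continuousOn).mono (h.sub b)
  · have hv := hψ.vanT.ip_left (G := G) fun s => matT (w s)
    exact (continuousAt_const (y := (0 : ℝ))).congr (hv.ev h.ok h.cl hy e).symm

theorem compF (hψ : CSec A S ψ) (hw : LocS A R w) :
    A.CompF fun s => ip (G s) (matT (ψ s)) (matT (w s)) :=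
  Atl.compF_of_tr h.ok fun a b x F t => by
    by_cases e : A.c a x ∈ S
    · obtain ⟨V, h1, -, p⟩ := h.met.loc h.ok t
      have h2 : matT (ψ a) x = pullT F (matT (ψ b)) x := hψ.sec.compat a b x F t
      rw [← AI.ip_pullT p h1, ip, ip, h2, hw.compat a b x F t
        (h.sat a x t.mem e) (h.sat b _ t.mem' (t.eq0 ▸ e))]
    · have hv := hψ.vanT.ip_left (G := G) fun s => matT (w s)
      exact (not_not.1 fun k => e (hv a x t.mem k)).trans
        (not_not.1 fun k => e (t.eq0 ▸ hv b _ t.mem' k)).symm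

theorem intg (hψ : CSec A S ψ) (hw : LocS A R w) :
    A.Intg χ G fun s => ip (G s) (matT (ψ s)) (matT (w s)) :=
  Atl.intg_of_cs h.ok h.met h.pou h.cs (h.ct hψ hw) (hψ.vanT.ip_left _)

theorem pr_add (hψ : CSec A S ψ) (hψ' : CSec A S ψ') (hw : LocS A R w) :
    pr A χ G (ψ + ψ') w = pr A χ G ψ w + pr A χ G ψ' w := by
  rw [pr, pr, pr, ← Atl.int_add (h.intg hψ hw) (h.intg hψ' hw)]
  exact Atl.int_congr h.ok fun a x _ => ipA_add_left _ _ _

omit h in
theorem pr_smul (c : ℝ) (ψ w : α → MetricField 4) : pr A χ G (c • ψ) w = c * pr A χ G ψ w := by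
  rw [pr, pr, ← Atl.int_const_mul]
  exact congrArg _ (funext fun a => funext fun x => ipA_smul_left _ _ _)

theorem pr_comm (ψ w : α → MetricField 4) : pr A χ G ψ w = pr A χ G w ψ :=
  Atl.int_congr h.ok fun a _ hx => ip_comm (h.met.riem a) hx _ _

theorem pr_nonneg (ψ : α → MetricField 4) : 0 ≤ pr A χ G ψ ψ :=
  Atl.int_nonneg h.ok h.pou fun a _ hx => AI.nsq_nonneg (h.met.riem a) hx _

theorem pr_null (hψ : CSec A S ψ) (h0 : pr A χ G ψ ψ = 0) (w : α → MetricField 4) :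
    pr A χ G ψ w = 0 := by
  have hn : ∀ a, 0 ≤ᵐ[volume.restrict (A.U a)]
      fun x => A.den χ G a x * ip (G a) (matT (ψ a)) (matT (ψ a)) x := fun a =>
    (ae_restrict_mem (h.ok.isOpen a).measurableSet).mono fun x hx =>
      mul_nonneg (Atl.den_nonneg h.pou a x) (AI.nsq_nonneg (h.met.riem a) hx _)
  have h1 := (Finset.sum_eq_zero_iff_of_nonneg fun a _ => integral_nonneg_of_ae (hn a)).1 h0
  refine Finset.sum_eq_zero fun a ha => integral_eq_zero_of_ae ?_
  filter_upwards [(integral_eq_zero_iff_of_nonneg_ae (hn a) (h.intg hψ (h.locS hψ) a)).1 (h1 a ha),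
    ae_restrict_mem (h.ok.isOpen a).measurableSet] with x h2 hx
  rcases mul_eq_zero.1 h2 with h3 | h3
  · simp [h3]
  · have h4 := AI.ip_sq_le (h.met.riem a) hx (matT (ψ a)) (matT (w a))
    rw [nsq, h3, zero_mul] at h4
    simp [pow_eq_zero_iff (two_ne_zero) |>.1 (h4.antisymm (sq_nonneg _))]

/-- orthonormalisation inside a linear class `P` of sections -/
theorem exists_fam (P : Submodule ℝ (α → MetricField 4)) {ι : Type} [Fintype ι]
    (e : ι → α → MetricField 4) (he : ∀ i, CSec A S (e i)) (hP : ∀ i, e i ∈ P) :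
    ∃ (κ : Type) (_ : Fintype κ) (f : κ → α → MetricField 4) (C : ℝ), 0 ≤ C ∧
      (∀ j, CSec A S (f j) ∧ f j ∈ P) ∧ (∀ j, pr A χ G (f j) (f j) = 1) ∧
      (∀ i j, i ≠ j → pr A χ G (f i) (f j) = 0) ∧
      ∀ w, LocS A R w → ∀ i, pr A χ G (e i) w ^ 2 ≤ C * ∑ j, pr A χ G (f j) w ^ 2 := by
  let W : Submodule ℝ (α → MetricField 4) :=
    { carrier := {ψ | CSec A S ψ ∧ ψ ∈ P}
      add_mem' := fun a b => ⟨a.1.add b.1, P.add_mem a.2 b.2⟩
      zero_mem' := ⟨CSec.zero, P.zero_mem⟩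
      smul_mem' := fun c _ a => ⟨a.1.smul c, P.smul_mem c a.2⟩ }
  let B : LinearMap.BilinForm ℝ W := LinearMap.mk₂ ℝ (fun s t => pr A χ G s t)
    (fun s s' t => h.pr_add s.2.1 s'.2.1 (h.locS t.2.1)) (fun c s t => pr_smul c _ _)
    (fun s t t' => by
      simp only [h.pr_comm s]
      exact h.pr_add t.2.1 t'.2.1 (h.locS s.2.1))
    (fun c s t => by
      simp only [h.pr_comm s]
      exact pr_smul c _ _)
  obtain ⟨κ, hκ, f, C, h0, h1, h2, h3⟩ := exists_on B (fun s t => h.pr_comm _ _)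
    (fun s => h.pr_nonneg _) fun i => (⟨e i, he i, hP i⟩ : W)
  refine ⟨κ, hκ, fun j => f j, C, h0, fun j => (f j).2, h1, h2, fun w hw i => ?_⟩
  exact h3
    { toFun := fun s => pr A χ G s w
      map_add' := fun s t => h.pr_add s.2.1 t.2.1 hw
      map_smul' := fun c s => pr_smul c _ _ } (fun s hs => h.pr_null s.2.1 hs w) i

end Stg

end Crest.Agent.N207.N

end
end

-- ▼ part N207/N/Fam3
section

/-!
# Row 207 (helper44): the family of constraints on an abstract atlas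
-/

set_option autoImplicit false

open scoped ContDiff Topology
open Set Filter Metric MeasureTheory
open Crest.GeometryTopology.CoordMetric
open Crest.Agent.N207.I Crest.Agent.N207.CB Crest.Agent.N207.Lg Crest.Agent.N207.Hd

noncomputable section

namespace Crest.Agent.N207.N

theorem ipA_dual {G : MetricField 4} {U : Set E4} {y : E4} (hG : IsRiemannianOn G U) (hy : y ∈ U)
    (a b : Fin 4) (W : Arr 4 2) :
    ipA (G y)⁻¹ (fun I => G y a (I 0) * G y b (I 1)) W = W ![a, b] := by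
  rw [Ar.ipA_rank2, ← g_ginv_sum hG hy a fun k => W ![k, b]]
  refine Finset.sum_congr rfl fun i _ => ?_
  rw [Finset.mul_sum]
  refine Finset.sum_congr rfl fun k _ => ?_
  rw [← g_ginv_sum hG hy b fun l => W ![k, l]]
  simp only [Finset.mul_sum, Matrix.cons_val_zero, Matrix.cons_val_one]
  exact Finset.sum_congr rfl fun j _ => Finset.sum_congr rfl fun l _ => by ring

variable {X : Type*} {α : Type} {A : Atl X α} {G : α → MetricField 4} {χ : α → X → ℝ}
  {K0 R : α → Set E4} {S : Set X}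

/-- symmetrisation -/
def symM (t : Tn 4 2) : MetricField 4 :=
  fun x => Matrix.of fun i j => 1 / 2 * (t x ![i, j] + t x ![j, i])

theorem matT_symM (t : Tn 4 2) :
    matT (symM t) = (1 / 2 : ℝ) • (t + prmT (Equiv.swap 0 1) t) := by
  funext x I
  have e1 : ![I 0, I 1] = I := by funext i; fin_cases i <;> rfl
  have e2 : ![I 1, I 0] = I ∘ Equiv.swap 0 1 := by funext i; fin_cases i <;> rfl
  simp only [matT, symM, Matrix.of_apply, e1, e2, Pi.smul_apply, Pi.add_apply, prmT, smul_eq_mul]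

theorem exists_rad (hA : A.Ok) {s : α} {K V : Set E4} (hK : IsCompact K) (hU : K ⊆ A.U s)
    (hV : IsOpen V) (hKV : K ⊆ V) {η : ℝ} (hη : 0 < η) : ∃ ε > 0, 6 * ε ^ 2 ≤ η ∧
      cthickening (2 * ε) K ⊆ V ∧ ∀ z ∈ K, InjOn (A.c s) (ball z (2 * ε)) := by
  obtain ⟨δ, hδ, h1⟩ := hK.exists_cthickening_subset_open hV hKV
  choose r hr h2 h3 using fun x : K => hA.exists_ball (hU x.2)
  obtain ⟨δ', hδ', h4⟩ := lebesgue_number_lemma_of_metric (c := fun x : K => ball (x : E4) (r x))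
    hK (fun _ => isOpen_ball) fun x hx => mem_iUnion.2 ⟨⟨x, hx⟩, mem_ball_self (hr _)⟩
  obtain ⟨ε, hε, e1, e2, e3, e4⟩ : ∃ ε > 0, ε ≤ δ / 2 ∧ ε ≤ δ' / 2 ∧ ε ≤ 1 ∧ ε ≤ η / 6 :=
    ⟨min (min (δ / 2) (δ' / 2)) (min 1 (η / 6)), by positivity,
      (min_le_left _ _).trans (min_le_left _ _), (min_le_left _ _).trans (min_le_right _ _),
      (min_le_right _ _).trans (min_le_left _ _), (min_le_right _ _).trans (min_le_right _ _)⟩
  refine ⟨ε, hε, by nlinarith, (cthickening_mono (by linarith) K).trans h1, fun z hz => ?_⟩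
  obtain ⟨x, hx⟩ := h4 z hz
  exact (h3 x).mono ((ball_subset_ball (by linarith)).trans (hx.trans ball_subset_closedBall))

variable [Fintype α]

theorem Stg.bump (h : Stg A G χ K0 R S) {s : α} {z : E4} {ε : ℝ} (hε : 0 < ε) {φ : E4 → ℝ}
    (hφ : ContDiff ℝ ∞ φ) (hs : ∀ y, φ y ≠ 0 → ‖y‖ < ε) (hB : ball z (2 * ε) ⊆ R s)
    (hi : InjOn (A.c s) (ball z (2 * ε))) (hS : A.c s '' closedBall z ε ⊆ S) (a b : Fin 4) :
    ∃ ψ, CSec A S ψ ∧ ∀ w, LocS A R w → pr A χ G ψ w = ∫ y, φ (y - z) * w s y a b := by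
  have hBU := hB.trans (h.sub s)
  have hg := h.met.riem s
  have hd : ∀ y ∈ A.U s, √(G s y).det ≠ 0 := fun y hy =>
    (Real.sqrt_pos.2 (hg.posDef y hy).det_pos).ne'
  let c : E4 → ℝ := fun y => φ (y - z) * (√(G s y).det)⁻¹
  have hc : ContDiffOn ℝ ∞ c (A.U s) :=
    (hφ.comp (contDiff_id.sub contDiff_const)).contDiffOn.mul ((sm_sqrt_det hg).inv hd)
  have hCB : closedBall z ε ⊆ ball z (2 * ε) := closedBall_subset_ball (by linarith)
  have hz : ∀ y, φ (y - z) ≠ 0 → y ∈ closedBall z ε := fun y hy =>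
    mem_closedBall_iff_norm.2 (hs _ hy).le
  obtain ⟨t, t1, t2, t3, -, -⟩ := Atl.exists_extT (k := 2)
    (T := fun y I => c y * (G s y a (I 0) * G s y b (I 1))) h.ok isOpen_ball hBU hi
    (fun I => (hc.mul ((hg.contDiffOn _ _).mul (hg.contDiffOn _ _))).mono hBU)
    (isCompact_closedBall z ε) hCB fun y _ k => hz y fun e => k (by funext I; simp [c, e])
  have v1 : A.Van (fun s => symM (t s)) (A.c s '' closedBall z ε) :=
    t3.of_imp fun b y _ e => by ext i j; simp [symM, e]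
  have hψ : CSec A S fun s => symM (t s) :=
    ⟨((t1.add (t1.prmT (Equiv.swap 0 1))).smul (1 / 2)).congr fun a x _ => by
      rw [matT_symM]; rfl, fun a x _ => Matrix.IsSymm.ext fun i j => by simp [symM, add_comm],
      v1.mono hS⟩
  refine ⟨_, hψ, fun w hw => ?_⟩
  have v2 : A.Van (fun s' => ip (G s') (matT (symM (t s'))) (matT (w s'))) (A.c s '' ball z (2 * ε)) :=
    (v1.mono (image_mono hCB)).of_imp fun b y _ e => by
      have : matT (symM (t b)) y = 0 := by funext I; simp [matT, e]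
      rw [ip, this, ipA_zero_left]
  rw [pr, (Atl.int_inj h.ok h.met h.pou (h.compF hψ hw) ((h.ct hψ hw).ms h.ok) isOpen_ball hBU hi
    v2).2 (h.intg hψ hw), ← setIntegral_eq_integral_of_forall_compl_eq_zero (s := ball z (2 * ε))
      (f := fun y => φ (y - z) * w s y a b) fun y hy => by rw [not_not.1 fun k => hy (hCB (hz y k)), zero_mul]]
  refine setIntegral_congr_fun measurableSet_ball fun y hy => ?_
  have e1 : matT (symM (t s)) y = (1 / 2 * c y) • ((fun I => G s y a (I 0) * G s y b (I 1)) +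
      fun I => G s y b (I 0) * G s y a (I 1)) := by
    funext I
    simp only [matT, symM, Matrix.of_apply, t2 y hy, Matrix.cons_val_zero, Matrix.cons_val_one,
      Pi.smul_apply, Pi.add_apply, smul_eq_mul]
    ring
  have e2 : w s y b a = w s y a b := (hw.symm s y (hB hy)).apply a b
  have := hd y (hBU hy)
  simp only [ip, e1, ipA_smul_left, ipA_add_left, ipA_dual hg (hBU hy), matT, Matrix.cons_val_zero,
    Matrix.cons_val_one, e2, c]
  field_simp
  ring

/-- trace free fields -/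
def Pp (A : Atl X α) (G : α → MetricField 4) : Submodule ℝ (α → MetricField 4) where
  carrier := {ψ | ∀ s, ∀ x ∈ A.U s, trM (G s) (ψ s) x = 0}
  add_mem' ha hb s x hx := by rw [Pi.add_apply, trM_add, ha s x hx, hb s x hx, add_zero]
  zero_mem' s x _ := by simp [trM, tr2]
  smul_mem' c _ ha s x hx := by rw [Pi.smul_apply, trM_smul, ha s x hx, mul_zero]

/-- pure trace fields -/
def Pm (A : Atl X α) (G : α → MetricField 4) : Submodule ℝ (α → MetricField 4) where
  carrier := {ψ | ∀ s, ∀ x ∈ A.U s, ∃ c : ℝ, ψ s x = c • G s x}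
  add_mem' ha hb s x hx := by
    obtain ⟨c, hc⟩ := ha s x hx
    obtain ⟨c', hc'⟩ := hb s x hx
    exact ⟨c + c', by rw [Pi.add_apply, Pi.add_apply, hc, hc', add_smul]⟩
  zero_mem' s x _ := ⟨0, by simp⟩
  smul_mem' c _ ha s x hx := by
    obtain ⟨c', hc'⟩ := ha s x hx
    exact ⟨c * c', by rw [Pi.smul_apply, Pi.smul_apply, hc', mul_smul]⟩

/-- orthonormal eigenfamilies controlling a finite family -/
theorem Stg.exists_eig (h : Stg A G χ K0 R S) {ι : Type} [Fintype ι]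
    (e : ι → α → MetricField 4) (he : ∀ i, CSec A S (e i)) :
    ∃ (κ : Type) (_ : Fintype κ) (ψ : κ → α → MetricField 4) (C : ℝ), 0 ≤ C ∧
      (∀ j, CSec A S (ψ j)) ∧ (∀ j, ∃ c : ℝ, (c = 1 ∨ c = -1) ∧
        ∀ s, ∀ x ∈ A.U s, TRg (G s x) (ψ j s x) = c • ψ j s x) ∧
      (∀ j, pr A χ G (ψ j) (ψ j) = 1) ∧ (∀ i j, i ≠ j → pr A χ G (ψ i) (ψ j) = 0) ∧
      ∀ w, LocS A R w → ∀ i, pr A χ G (e i) w ^ 2 ≤ C * ∑ j, pr A χ G (ψ j) w ^ 2 := by
  have m1 : ∀ i, CSec A S (trP G (e i)) := fun i => (he i).trP h.ok h.met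
  have m2 : ∀ i, CSec A S (e i + (-1 : ℝ) • trP G (e i)) := fun i => (he i).add ((m1 i).smul _)
  obtain ⟨κ, _, f, C, c0, c1, c2, c3, c4⟩ := h.exists_fam (Pp A G) _ m2 fun i s x hx => by
    rw [Pi.add_apply, Pi.smul_apply, trM_add, trM_smul, 
      trM_of_eq (ψ := trP G (e i) s) (h.met.riem s) hx rfl]; ring
  obtain ⟨κ', _, f', C', d0, d1, d2, d3, d4⟩ := h.exists_fam (Pm A G) _ m1 fun i s x _ => ⟨_, rfl⟩
  have o : ∀ i j, pr A χ G (f' i) (f j) = 0 := fun i j => by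
    rw [pr, ← Atl.int_zero (A := A) (χ := χ) (G := G)]
    refine Atl.int_congr h.ok fun s x hx => ?_
    obtain ⟨c, hc⟩ := (d1 i).2 s x hx
    rw [ip_of_eq (h.met.riem s) hx hc, (c1 j).2 s x hx, mul_zero]
  refine ⟨κ ⊕ κ', inferInstance, Sum.elim f f', 2 * C + 2 * C', by positivity, ?_, ?_, ?_, ?_,
    fun w hw i => ?_⟩
  · rintro (j | j)
    exacts [(c1 j).1, (d1 j).1]
  · rintro (j | j)
    · refine ⟨1, Or.inl rfl, fun s x hx => ?_⟩
      have h1 : tr2 (fun a b => (G s x)⁻¹ a b) (fun a b => f j s x a b) = 0 := (c1 j).2 s x hx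
      simp [TRg, h1]
    · refine ⟨-1, Or.inr rfl, fun s x hx => ?_⟩
      obtain ⟨c, hc⟩ := (d1 j).2 s x hx
      have h1 : tr2 (fun a b => (G s x)⁻¹ a b) (fun a b => f' j s x a b) = 4 * c :=
        trM_of_eq (h.met.riem s) hx hc
      rw [Sum.elim_inr, TRg, h1, hc, ← sub_smul, smul_smul]
      congr 1; ring
  · rintro (j | j)
    exacts [c2 j, d2 j]
  · rintro (i | i) (j | j) hij
    exacts [c3 i j fun e => hij (congrArg _ e), (h.pr_comm _ _).trans (o j i), o i j,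
      d3 i j fun e => hij (congrArg _ e)]
  · have h1 := h.pr_add (m2 i) (m1 i) hw
    have h0 : e i + (-1 : ℝ) • trP G (e i) + trP G (e i) = e i := by
      rw [neg_one_smul, neg_add_cancel_right]
    rw [h0] at h1
    have h2 := c4 w hw i
    have h3 := d4 w hw i
    have p1 : 0 ≤ ∑ j, pr A χ G (f j) w ^ 2 := Finset.sum_nonneg fun _ _ => sq_nonneg _
    have p2 : 0 ≤ ∑ j, pr A χ G (f' j) w ^ 2 := Finset.sum_nonneg fun _ _ => sq_nonneg _
    rw [Fintype.sum_sum_type, h1]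
    simp only [Sum.elim_inl, Sum.elim_inr]
    generalize pr A χ G (e i + (-1 : ℝ) • trP G (e i)) w = x at h2 ⊢
    generalize pr A χ G (trP G (e i)) w = y at h3 ⊢
    nlinarith [sq_nonneg (x - y), mul_nonneg c0 p2, mul_nonneg d0 p1]

/-- **the family of constraints** on an atlas -/
theorem absFam (hA : A.Ok) (hG : A.IsMet G) (hχ : A.PoU χ K0) (hR : ∀ s, IsOpen (R s))
    (hRU : ∀ s, R s ⊆ A.U s)
    (hsat : ∀ a b, ∀ x ∈ R a, ∀ y ∈ A.U b, A.c a x = A.c b y → y ∈ R b)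
    {K K' : α → Set E4} (hK : ∀ s, IsCompact (K s)) (hK' : ∀ s, IsCompact (K' s))
    (h1 : ∀ s, K s ⊆ interior (K' s)) (h2 : ∀ s, K' s ⊆ R s) {η : ℝ} (hη : 0 < η) :
    ∃ (κ : Type) (_ : Fintype κ) (ψ : κ → α → MetricField 4) (C : ℝ), 0 ≤ C ∧
      (∀ j, CSec A (⋃ s, A.c s '' K' s) (ψ j)) ∧ (∀ j, ∃ c : ℝ, (c = 1 ∨ c = -1) ∧
        ∀ s, ∀ x ∈ A.U s, TRg (G s x) (ψ j s x) = c • ψ j s x) ∧
      (∀ j, pr A χ G (ψ j) (ψ j) = 1) ∧ (∀ i j, i ≠ j → pr A χ G (ψ i) (ψ j) = 0) ∧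
      ∀ w, LocS A R w → ∀ s a b, ∫ x in K s, w s x a b ^ 2 ≤
        η * (∫ x in K' s, g2 (fun x => w s x a b) x) + C * ∑ j, pr A χ G (ψ j) w ^ 2 := by
  have hU : ∀ s, K' s ⊆ A.U s := fun s => (h2 s).trans (hRU s)
  have h : Stg A G χ K0 R (⋃ s, A.c s '' K' s) :=
    ⟨hA, hG, hχ, hR, hRU, ⟨K', fun s => ⟨hK' s, hU s⟩, Subset.rfl⟩, fun b y hy hn => by
      simp only [mem_iUnion, not_exists] at hn ⊢
      exact eventually_all.2 fun a => hA.cl_cpt (hK' a) (hU a) b y hy (hn a), fun b y hy hm => by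
      obtain ⟨a, x, hx, e⟩ := mem_iUnion.1 hm
      exact hsat a b x (h2 a hx) y hy e⟩
  choose ε hε e1 e2 e3 using fun s => exists_rad hA (hK s)
    ((h1 s).trans (interior_subset.trans (hU s))) isOpen_interior (h1 s) hη
  replace e2 := fun s => (e2 s).trans interior_subset
  choose Z φ C z1 z2 z3 z4 z5 using fun s => eucFam (hK s) (hε s)
  have hb : ∀ s, ∀ z ∈ K s, closedBall z (2 * ε s) ⊆ K' s := fun s z hz =>
    (closedBall_subset_cthickening hz _).trans (e2 s)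
  choose e he1 he2 using fun i : (s : α) × Z s × Fin 4 × Fin 4 =>
    h.bump (s := i.1) (z := i.2.1) (hε _) (z2 _) (z3 _)
      (ball_subset_closedBall.trans ((hb _ _ (z1 _ _ i.2.1.2)).trans (h2 _)))
      (e3 _ _ (z1 _ _ i.2.1.2)) (subset_iUnion_of_subset i.1 (image_mono
        ((closedBall_subset_closedBall (by linarith [hε i.1])).trans (hb _ _ (z1 _ _ i.2.1.2)))))
      i.2.2.1 i.2.2.2
  obtain ⟨κ, _, ψ, C', c0, c1, c2, c3, c4, c5⟩ := h.exists_eig e he1
  have n0 : ∀ s, 0 ≤ C s * ((Z s).card * C') := fun s => mul_nonneg (z4 s) (by positivity)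
  refine ⟨κ, inferInstance, ψ, ∑ s, C s * ((Z s).card * C'), Finset.sum_nonneg fun s _ => n0 s,
    c1, c2, c3, c4, fun w hw s a b => ?_⟩
  have p0 : 0 ≤ ∑ j, pr A χ G (ψ j) w ^ 2 := Finset.sum_nonneg fun _ _ => sq_nonneg _
  refine (z5 s (R s) _ (hR s) (hw.sm s a b) ((e2 s).trans (h2 s))).trans (add_le_add ?_ ?_)
  · refine mul_le_mul (e1 s) (setIntegral_mono_set
      (((contOn_g2 (hR s) (hw.sm s a b)).mono (h2 s)).integrableOn_compact (hK' s))
      (Eventually.of_forall fun x => g2_nonneg _ x) (e2 s).eventuallyLE)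
      (integral_nonneg fun x => g2_nonneg _ x) hη.le
  · refine le_trans ?_ (mul_le_mul_of_nonneg_right (Finset.single_le_sum
      (f := fun s => C s * ((Z s).card * C')) (fun s _ => n0 s) (Finset.mem_univ s)) p0)
    rw [mul_assoc, mul_assoc, ← nsmul_eq_mul]
    refine mul_le_mul_of_nonneg_left (Finset.sum_le_card_nsmul _ _ _ fun z hz => ?_) (z4 s)
    have := c5 w hw ⟨s, ⟨z, hz⟩, a, b⟩
    rwa [he2 _ w hw] at this

end Crest.Agent.N207.N

end
end

-- ▼ part N207/N/Fam4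
section

/-!
# Row 207 (helper44): the leaf `FAMX`
-/

set_option autoImplicit false

open scoped ContDiff Topology
open Set Filter Metric MeasureTheory
open Crest.GeometryTopology.CoordMetric
open Crest.Agent.N207.I Crest.Agent.N207.CB Crest.Agent.N207.Lg Crest.Agent.N207.Hd

noncomputable section

namespace Crest.Agent.N207.N

variable {X : Type*} {α : Type} {A : Atl X α} {G w : α → MetricField 4} {χ : α → X → ℝ}
  {K0 R : α → Set E4}

theorem locS_of_res (h1 : (Ga.res A R).Sec fun s => matT (w s))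
    (h2 : ∀ s, ∀ x ∈ R s, (w s x).IsSymm) : LocS A R w :=
  ⟨fun s a b => (h1.sm s ![a, b]).of_le (by exact_mod_cast le_top), h2,
    fun s s' x F t hx hF => h1.compat s s' x F (Ga.tr_res t hx hF)⟩

/-- the saturation of a family of sets -/
def sat (A : Atl X α) (R : α → Set E4) (b : α) : Set E4 :=
  ⋃ a, {y ∈ A.U b | A.c b y ∈ A.c a '' R a}

theorem exists_sat (hA : A.Ok) (hR : ∀ s, IsOpen (R s)) (hRU : ∀ s, R s ⊆ A.U s)
    (h1 : (Ga.res A R).Sec fun s => matT (w s)) (h2 : ∀ s, ∀ x ∈ R s, (w s x).IsSymm) :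
    ∃ w', LocS A (sat A R) w' ∧ ∀ s, ∀ x ∈ R s, w' s x = w s x := by
  have hU : ∀ s, sat A R s ⊆ A.U s := fun s => iUnion_subset fun a x hx => hx.1
  have hs : ∀ s, R s ⊆ sat A R s := fun s x hx => mem_iUnion.2 ⟨s, hRU s hx, x, hx, rfl⟩
  have h2A : (Ga.res A (sat A R)).Ok :=
    Ga.res_ok hA (fun b => isOpen_iUnion fun a => Atl.isOpen_pre hA (hR a) (hRU a) b) hU
      fun b γ hγ x hx => by
        obtain ⟨a, h3, h4⟩ := mem_iUnion.1 hx
        exact mem_iUnion.2 ⟨a, hA.inv b γ hγ x h3, by rwa [hA.c_deck hγ h3]⟩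
  have h3 := Ga.sec_glT (U' := R) h2A hR h1 fun b y hy => by
    obtain ⟨a, h3, x, hx, e⟩ := mem_iUnion.1 hy
    obtain ⟨F, t, rfl⟩ := hA.loc b a y h3 x (hRU a hx) e.symm
    exact ⟨a, F, Ga.tr_res t hy (hs a hx), hx⟩
  refine ⟨fun s => symM (Ga.glT (Ga.res A (sat A R)) R (fun s => matT (w s)) s), locS_of_res
    (((h3.add (h3.prmT (Equiv.swap 0 1))).smul (1 / 2)).congr fun a x _ => by
      rw [matT_symM]; rfl) fun a x _ => Matrix.IsSymm.ext fun i j => by simp [symM, add_comm],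
    fun s x hx => ?_⟩
  ext i j
  have h4 := Ga.glT_self (U' := R) h2A hs h1.compat hx
  simp only [symM, Matrix.of_apply, h4, matT, Matrix.cons_val_zero, Matrix.cons_val_one,
    (h2 s x hx).apply i j]
  ring

theorem g2_congr {u u' : E4 → ℝ} {x : E4} (e : u =ᶠ[𝓝 x] u') : g2 u x = g2 u' x :=
  Finset.sum_congr rfl fun i _ => by rw [pd_congr i e]

variable [Fintype α]

/-- the family of constraints, tested on sections of a shrunk atlas -/
theorem absFam' (hA : A.Ok) (hG : A.IsMet G) (hχ : A.PoU χ K0) (hR : ∀ s, IsOpen (R s))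
    (hRU : ∀ s, R s ⊆ A.U s) {K K' : α → Set E4} (hK : ∀ s, IsCompact (K s))
    (hK' : ∀ s, IsCompact (K' s)) (h1 : ∀ s, K s ⊆ interior (K' s)) (h2 : ∀ s, K' s ⊆ R s)
    (ho : ∀ b, ∀ y ∈ A.U b, A.c b y ∈ ⋃ s, A.c s '' K' s → χ b (A.c b y) ≠ 0 → y ∈ R b)
    {η : ℝ} (hη : 0 < η) :
    ∃ (κ : Type) (_ : Fintype κ) (ψ : κ → α → MetricField 4) (C : ℝ), 0 ≤ C ∧
      (∀ j, CSec A (⋃ s, A.c s '' K' s) (ψ j)) ∧ (∀ j, ∃ c : ℝ, (c = 1 ∨ c = -1) ∧
        ∀ s, ∀ x ∈ A.U s, TRg (G s x) (ψ j s x) = c • ψ j s x) ∧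
      (∀ j, pr A χ G (ψ j) (ψ j) = 1) ∧ (∀ i j, i ≠ j → pr A χ G (ψ i) (ψ j) = 0) ∧
      ∀ w : α → MetricField 4, ((Ga.res A R).Sec fun s => matT (w s)) →
        (∀ s, ∀ x ∈ R s, (w s x).IsSymm) → ∀ s a b, ∫ x in K s, w s x a b ^ 2 ≤
        η * (∫ x in K' s, g2 (fun x => w s x a b) x) + C * ∑ j, pr A χ G (ψ j) w ^ 2 := by
  obtain ⟨κ, _, ψ, C, c0, c1, c2, c3, c4, c5⟩ := absFam (R := sat A R) hA hG hχ
    (fun b => isOpen_iUnion fun a => Atl.isOpen_pre hA (hR a) (hRU a) b)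
    (fun s => iUnion_subset fun a x hx => hx.1)
    (fun a b x hx y hy e => by
      obtain ⟨d, -, h4⟩ := mem_iUnion.1 hx
      exact mem_iUnion.2 ⟨d, hy, e ▸ h4⟩) hK hK' h1
    (fun s x hx => mem_iUnion.2 ⟨s, hRU s (h2 s hx), x, h2 s hx, rfl⟩) hη
  refine ⟨κ, inferInstance, ψ, C, c0, c1, c2, c3, c4, fun w hw hs s a b => ?_⟩
  obtain ⟨w', l, e⟩ := exists_sat hA hR hRU hw hs
  have e1 : ∫ x in K s, w' s x a b ^ 2 = ∫ x in K s, w s x a b ^ 2 :=
    setIntegral_congr_fun (hK s).isClosed.measurableSet fun x hx => by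
      simp only [e s x (h2 s (interior_subset (h1 s hx)))]
  have e2 : ∫ x in K' s, g2 (fun x => w' s x a b) x = ∫ x in K' s, g2 (fun x => w s x a b) x :=
    setIntegral_congr_fun (hK' s).isClosed.measurableSet fun x hx => g2_congr (by
      filter_upwards [(hR s).mem_nhds (h2 s hx)] with z hz using by rw [e s z hz])
  have e3 : ∀ j, pr A χ G (ψ j) w' = pr A χ G (ψ j) w := fun j =>
    Finset.sum_congr rfl fun d _ => setIntegral_congr_fun (hA.isOpen d).measurableSet fun y hy => by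
      by_cases k : A.c d y ∈ ⋃ s, A.c s '' K' s
      · by_cases k' : χ d (A.c d y) = 0
        · simp [Atl.den, k']
        · have : matT (w' d) y = matT (w d) y := by funext I; simp only [matT, e d y (ho d y hy k k')]
          simp only [ip, this]
      · have : matT (ψ j d) y = 0 := not_not.1 fun k' => k ((c1 j).vanT d y hy k')
        simp only [ip, this, ipA_zero_left]
  have := c5 w' l s a b
  rw [e1, e2] at this
  simpa only [e3] using this

end Crest.Agent.N207.N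

namespace Crest.Agent.N207.NS.Fx

variable {M : Type*} {T : TD M} {v w : T.V} {c : ℝ} {x : E4} {a : T.B}

theorem mem_cK1_inl : x ∈ cK1 T v c (Sum.inl a) ↔ T.vx a = v ∧ ‖x‖ ≤ 49 / 32 := by
  by_cases h : T.vx a = v <;> simp [cK1, h]

theorem mem_cK1_out : x ∈ cK1 T v c (Sum.inr v) ↔ 23 / 16 ≤ ‖x‖ ∧ ‖x‖ ≤ Real.exp c := by
  simp [cK1]

theorem mem_cK1_inn (h : w ≠ v) : x ∈ cK1 T v c (Sum.inr w) ↔
    T.kid v w ∧ Real.exp (-c) ≤ ‖x‖ ∧ ‖x‖ ≤ 49 / 64 * T.r := by
  by_cases hk : T.kid v w <;> simp [cK1, h, hk]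

theorem mem_cU1_inl : x ∈ cU1 T v c (Sum.inl a) ↔ T.vx a = v ∧ ‖x‖ < 25 / 16 := by
  by_cases h : T.vx a = v <;> simp [cU1, h]

theorem mem_cU1_out : x ∈ cU1 T v c (Sum.inr v) ↔ 45 / 32 < ‖x‖ ∧ ‖x‖ < Real.exp (c + 1) := by
  simp [cU1]

theorem mem_cU1_inn (h : w ≠ v) : x ∈ cU1 T v c (Sum.inr w) ↔
    T.kid v w ∧ Real.exp (-(c + 1)) < ‖x‖ ∧ ‖x‖ < 25 / 32 * T.r := by
  by_cases hk : T.kid v w <;> simp [cU1, h, hk, -neg_add_rev]

theorem cpt_ann (p q : ℝ) : IsCompact {x : E4 | p ≤ ‖x‖ ∧ ‖x‖ ≤ q} :=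
  (isCompact_closedBall (0 : E4) q).of_isClosed_subset
    ((isClosed_le continuous_const continuous_norm).inter
      (isClosed_le continuous_norm continuous_const)) fun _ hx => mem_closedBall_zero_iff.2 hx.2

theorem op_ann (p q : ℝ) : IsOpen {x : E4 | p < ‖x‖ ∧ ‖x‖ < q} :=
  (isOpen_lt continuous_const continuous_norm).inter (isOpen_lt continuous_norm continuous_const)

theorem cK1_cpt (s : T.S) : IsCompact (cK1 T v c s) := by
  cases s <;> simp only [cK1, Sum.elim_inl, Sum.elim_inr] <;> split_ifs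
  exacts [isCompact_closedBall _ _, isCompact_empty, cpt_ann _ _, cpt_ann _ _, isCompact_empty]

theorem cU1_open (s : T.S) : IsOpen (cU1 T v c s) := by
  cases s <;> simp only [cU1, Sum.elim_inl, Sum.elim_inr] <;> split_ifs
  exacts [isOpen_ball, isOpen_empty, op_ann _ _, op_ann _ _, isOpen_empty]

theorem cK0_cpt (s : T.S) : IsCompact (cK0 T v c s) := by
  cases s with
  | inl a =>
    refine IsCompact.inter_left (cK1_cpt _) ?_
    simp only [TD.cK, Sum.elim_inl]; split_ifs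
    exacts [isClosed_closedBall, isClosed_empty]
  | inr w =>
    by_cases hw : w = v
    · subst hw
      refine IsCompact.inter_left (cK1_cpt _) ?_
      simp only [TD.cK, Sum.elim_inr, if_true]
      exact isClosed_le continuous_const continuous_norm
    · have : cK0 T v c (Sum.inr w) = {x | ‖x‖ ≤ 3 / 4 * T.r} ∩ cK1 T v c (Sum.inr w) := by
        ext x
        simp only [cK0, mem_inter_iff, TD.mem_cK_inn hw, mem_cK1_inn hw, mem_ofPred_eq]
        exact ⟨fun h => ⟨h.1.2.2, h.2⟩,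
          fun h => ⟨⟨h.2.1, (Real.exp_pos _).trans_le h.2.2.1, h.1⟩, h.2⟩⟩
      rw [this]
      exact IsCompact.inter_left (cK1_cpt _) (isClosed_le continuous_norm continuous_const)

theorem cK1_mono {c' : ℝ} (hc : c ≤ c') (s : T.S) : cK1 T v c s ⊆ cK1 T v c' s := fun x hx => by
  cases s with
  | inl a => exact hx
  | inr w =>
    by_cases hw : w = v
    · subst hw
      rw [mem_cK1_out] at hx ⊢
      exact ⟨hx.1, hx.2.trans (Real.exp_le_exp.2 hc)⟩
    · rw [mem_cK1_inn hw] at hx ⊢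
      exact ⟨hx.1, (Real.exp_le_exp.2 (neg_le_neg hc)).trans hx.2.1, hx.2.2⟩

theorem cK1_cU1 (h : T.Ok) (s : T.S) : cK1 T v c s ⊆ cU1 T v c s := fun x hx => by
  have := h.r_pos
  cases s with
  | inl a => rw [mem_cK1_inl] at hx; exact mem_cU1_inl.2 ⟨hx.1, by linarith [hx.2]⟩
  | inr w =>
    by_cases hw : w = v
    · subst hw
      rw [mem_cK1_out] at hx
      exact mem_cU1_out.2 ⟨by linarith [hx.1], hx.2.trans_lt (Real.exp_lt_exp.2 (by linarith))⟩
    · rw [mem_cK1_inn hw] at hx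
      exact (mem_cU1_inn hw).2 ⟨hx.1, (Real.exp_lt_exp.2 (by linarith)).trans_le hx.2.1,
        by linarith [hx.2.2]⟩

theorem cU1_U (h : T.Ok) (s : T.S) : cU1 T v c s ⊆ (T.core v).U s := fun x hx => by
  have := h.r_pos
  cases s with
  | inl a => rw [mem_cU1_inl] at hx; exact TD.mem_core_inl.2 ⟨hx.1, by linarith [hx.2]⟩
  | inr w =>
    by_cases hw : w = v
    · subst hw
      exact TD.mem_core_out.2 (by linarith [(mem_cU1_out.1 hx).1])
    · rw [mem_cU1_inn hw] at hx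
      exact (TD.mem_core_inn hw).2 ⟨hx.1, (Real.exp_pos _).trans hx.2.1, by linarith [hx.2.2]⟩

theorem cK0_int (h : T.Ok) {c' : ℝ} (hc : c < c') (s : T.S) :
    cK0 T v c s ⊆ interior (cK1 T v c' s) := fun x hx => by
  have := h.r_pos
  rw [mem_interior_iff_mem_nhds]
  cases s with
  | inl a =>
    have h1 := TD.mem_cK_inl.1 hx.1
    filter_upwards [isOpen_ball.mem_nhds (mem_ball_zero_iff.2 (show ‖x‖ < 49 / 32 by
      linarith [h1.2]))] with z hz using mem_cK1_inl.2 ⟨h1.1, (mem_ball_zero_iff.1 hz).le⟩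
  | inr w =>
    by_cases hw : w = v
    · subst hw
      filter_upwards [(op_ann (23 / 16) (Real.exp c')).mem_nhds ⟨by linarith [TD.mem_cK_out.1 hx.1],
        (mem_cK1_out.1 hx.2).2.trans_lt (Real.exp_lt_exp.2 hc)⟩] with z hz using
        mem_cK1_out.2 ⟨hz.1.le, hz.2.le⟩
    · have h1 := (TD.mem_cK_inn hw).1 hx.1
      filter_upwards [(op_ann (Real.exp (-c')) (49 / 64 * T.r)).mem_nhds
        ⟨(Real.exp_lt_exp.2 (neg_lt_neg hc)).trans_le ((mem_cK1_inn hw).1 hx.2).2.1,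
          by linarith [h1.2.2]⟩] with z hz using (mem_cK1_inn hw).2 ⟨h1.1, hz.1.le, hz.2.le⟩

/-- the depth of a point does not depend on the chart -/
theorem depth_le (h : T.Ok) (h3 : 3 ≤ Real.exp c) (hr : Real.exp (-c) ≤ T.r / 3) {y : E4}
    (hy : y ∈ (T.core v).U (Sum.inr w))
    (hS : (T.core v).c (Sum.inr w) y ∈ ⋃ s, (T.core v).c s '' cK1 T v c s) :
    (w = v → ‖y‖ ≤ Real.exp c) ∧ (w ≠ v → Real.exp (-c) ≤ ‖y‖) := by
  obtain ⟨s, x, hx, e⟩ := mem_iUnion.1 hS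
  have hxU := cU1_U h s (cK1_cU1 h s hx)
  cases s with
  | inl a =>
    rcases (h.str_core v).rel hxU hy e with ⟨u, rfl, h1, h2, e'⟩ | h1
    · simp only [TD.sc, Sum.elim_inl, Sum.elim_inr, one_smul] at h1 h2 e'
      obtain ⟨rfl, h5⟩ := TD.mem_base_inl.1 h1
      have h4 := h.not_far h5 h2 e'
      refine ⟨fun hw => ?_, fun hw => ?_⟩
      · by_contra k
        exact h4 ⟨fun _ => h3.trans (not_le.1 k).le, fun k' => absurd hw k'⟩
      · by_contra k
        exact h4 ⟨fun k' => absurd k' hw, fun _ => (not_le.1 k).le.trans hr⟩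
    · cases h1.1
  | inr u =>
    obtain rfl : u = w := by
      by_contra k
      exact (h.str_core v).disj h k hxU hy e
    obtain ⟨γ, -, rfl⟩ := ((h.core_ok v).fib _ x hxU y hy).1 e
    rw [γ.norm_map]
    exact ⟨fun hw => by subst hw; exact (mem_cK1_out.1 hx).2, fun hw => ((mem_cK1_inn hw).1 hx).2.1⟩

theorem core_χ (h : T.Ok) {s : T.S} {y : E4} (hy : y ∈ (T.core v).U s)
    (h0 : T.χ s ((T.core v).c s y) ≠ 0) : y ∈ T.cK v s := by
  obtain ⟨x, hx, e⟩ := (h.core_pou v).supp s s y hy h0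
  obtain ⟨γ, -, rfl⟩ := ((h.core_ok v).fib s x ((h.core_pou v).sub s hx) y hy).1 e
  cases s with
  | inl a => rw [TD.mem_cK_inl] at hx ⊢; rwa [γ.norm_map]
  | inr w =>
    by_cases hw : w = v
    · subst hw; rw [TD.mem_cK_out] at hx ⊢; rwa [γ.norm_map]
    · rw [TD.mem_cK_inn hw] at hx ⊢; rwa [γ.norm_map]

theorem e0_nonneg' (k : MetricField 4) (x : E4) : 0 ≤ e0 k x :=
  Finset.sum_nonneg fun _ _ => Finset.sum_nonneg fun _ _ => sq_nonneg _

theorem e1_nonneg' (k : MetricField 4) (x : E4) : 0 ≤ e1 k x :=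
  Finset.sum_nonneg fun _ _ => Finset.sum_nonneg fun _ _ => g2_nonneg _ _

theorem int_sum2 {K : Set E4} {f : Fin 4 → Fin 4 → E4 → ℝ} (hf : ∀ a b, IntegrableOn (f a b) K) :
    ∫ x in K, ∑ a, ∑ b, f a b x = ∑ a, ∑ b, ∫ x in K, f a b x := by
  rw [integral_finsetSum _ fun a _ => integrable_finsetSum _ fun b _ => hf a b]
  exact Finset.sum_congr rfl fun a _ => integral_finsetSum _ fun b _ => hf a b

/-- **FAMX** -/
theorem famx' {g : T.V → Fam T} (h : T.Ok) (hg : ∀ v, (T.core v).IsMet (g v)) : FAMX T g := by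
  classical
  intro c η hc hr hη
  have hr0 := h.r_pos
  have h3 : 3 ≤ Real.exp (c + 1 / 2) := by linarith [Real.add_one_le_exp (c + 1 / 2)]
  have h4 : Real.exp (-(c + 1 / 2)) ≤ T.r / 3 :=
    (Real.exp_le_exp.2 (by linarith)).trans (hr.trans (by linarith))
  have hKK : ∀ v s, cK1 T v (c + 1 / 2) s ⊆ cK1 T v (c + 1) s := fun v s =>
    cK1_mono (by linarith) s
  choose κ hκ ψ C c0 c1 c2 c3 c4 c5 using fun v => N.absFam' (R := cU1 T v (c + 1))
    (K := cK0 T v c) (K' := cK1 T v (c + 1 / 2)) (h.core_ok v) (hg v) (h.core_pou v) cU1_open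
    (cU1_U h) cK0_cpt cK1_cpt (cK0_int h (by linarith)) (fun s => (hKK v s).trans (cK1_cU1 h s))
    (fun b y hy hS h0 => by
      have h1 := core_χ h hy h0
      cases b with
      | inl a => rw [TD.mem_cK_inl] at h1; exact mem_cU1_inl.2 ⟨h1.1, by linarith [h1.2]⟩
      | inr w =>
        have h2 := depth_le h h3 h4 hy hS
        by_cases hw : w = v
        · subst hw
          exact mem_cU1_out.2 ⟨by linarith [TD.mem_cK_out.1 h1],
            (h2.1 rfl).trans_lt (Real.exp_lt_exp.2 (by linarith))⟩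
        · rw [TD.mem_cK_inn hw] at h1
          exact (mem_cU1_inn hw).2 ⟨h1.1, (Real.exp_lt_exp.2 (by linarith)).trans_le (h2.2 hw),
            by linarith [h1.2.2]⟩) hη
  refine ⟨κ, hκ, fun v => Classical.decEq _, ψ, 16 * ∑ v, C v, ⟨fun v j => ⟨(c1 v j).sec,
    (c1 v j).symm⟩, fun v j w x hx ht => ?_⟩, c2, fun v => ⟨fun j l => if j = l then 1 else 0,
    fun i j => ?_⟩, fun v w hw hs s => ?_⟩
  · by_contra k
    have h2 := depth_le h h3 h4 hx ((c1 v j).van _ x hx k)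
    have h0 : 0 < ‖x‖ := norm_pos_iff.2 ((h.str_core v).ne w x hx)
    by_cases hw : w = v
    · have := (Real.log_le_iff_le_exp h0).2 (h2.1 hw)
      simp only [tau, if_pos hw] at ht; linarith
    · have := (Real.le_log_iff_exp_le h0).2 (h2.2 hw)
      simp only [tau, if_neg hw] at ht; linarith
  · simp only [ite_smul, one_smul, zero_smul, Finset.sum_ite_eq, Finset.mem_univ, if_true]
    split_ifs with e
    · subst e; exact c3 v i
    · exact c4 v i j e
  · have sm : ∀ a b, ContDiffOn ℝ 1 (fun x => w s x a b) (cU1 T v (c + 1) s) := fun a b =>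
      (hw.sm s ![a, b]).of_le (by exact_mod_cast le_top)
    have hU := cK1_cU1 (v := v) (c := c + 1) h s
    have i0 : ∀ a b, IntegrableOn (fun x => w s x a b ^ 2) (cK1 T v (c + 1) s) := fun a b =>
      (((sm a b).continuousOn.mono hU).pow 2).integrableOn_compact (cK1_cpt s)
    have i1 : ∀ a b, IntegrableOn (g2 fun x => w s x a b) (cK1 T v (c + 1) s) := fun a b =>
      ((contOn_g2 (cU1_open s) (sm a b)).mono hU).integrableOn_compact (cK1_cpt s)
    have j0 : IntegrableOn (e0 (w s)) (cK1 T v (c + 1) s) :=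
      integrable_finsetSum _ fun a _ => integrable_finsetSum _ fun b _ => i0 a b
    have j1 : IntegrableOn (e1 (w s)) (cK1 T v (c + 1) s) :=
      integrable_finsetSum _ fun a _ => integrable_finsetSum _ fun b _ => i1 a b
    have a1 : ∫ x in cK1 T v (c + 1 / 2) s, e1 (w s) x ≤
        ∫ x in cK1 T v (c + 1) s, (e1 (w s) x + e0 (w s) x) :=
      (setIntegral_mono_set j1 (Eventually.of_forall (e1_nonneg' _)) (hKK v s).eventuallyLE).trans
        (integral_mono j1 (j1.add j0) fun x => le_add_of_nonneg_right (e0_nonneg' _ x))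
    have p0 : 0 ≤ ∑ j, pair T g v (ψ v j) w ^ 2 := Finset.sum_nonneg fun _ _ => sq_nonneg _
    have a2 : C v ≤ ∑ v, C v := Finset.single_le_sum (fun v _ => c0 v) (Finset.mem_univ v)
    have a3 := Finset.sum_le_sum fun a (_ : a ∈ Finset.univ) =>
      Finset.sum_le_sum fun b (_ : b ∈ Finset.univ) => c5 v w hw hs s a b
    simp only [Finset.sum_add_distrib, ← Finset.mul_sum, Finset.sum_const, Finset.card_univ,
      Fintype.card_fin, nsmul_eq_mul, Nat.cast_ofNat] at a3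
    have hs0 : cK0 T v c s ⊆ cK1 T v (c + 1) s :=
      inter_subset_right.trans (cK1_mono (by linarith) s)
    rw [← int_sum2 fun a b => (i0 a b).mono_set hs0,
      ← int_sum2 fun a b => (i1 a b).mono_set (hKK v s)] at a3
    refine a3.trans (add_le_add (mul_le_mul_of_nonneg_left a1 hη.le) ?_)
    have a4 := mul_le_mul_of_nonneg_right a2 p0
    show C v * (4 * (4 * ∑ j, pair T g v (ψ v j) w ^ 2)) ≤ _
    linarith

end Crest.Agent.N207.NS.Fx

namespace Crest.Agent.N207.NS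

theorem famx {M : Type*} {T : TD M} {g : T.V → Fam T} (h : Std T g) : FAMX T g :=
  Fx.famx' h.ok h.lim.met

end Crest.Agent.N207.NS

end
end

-- ▼ part N207/K/CoerB
section

/-!
# Row 207, block K (helper47): boundedness of the weighted form of `Pop`
-/

set_option autoImplicit false
open Set Filter Topology
open scoped ContDiff
open Crest.GeometryTopology.CoordMetric Crest.GeometryTopology.ChartCurvature
open Crest.Agent.R238 (Ell)
open Crest.Agent.N207.Hd Crest.Agent.N207.Lg Crest.Agent.N207.CB Crest.Agent.N207.I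

noncomputable section

namespace Crest.Agent.N207.K

namespace Cb

/-- bounded geometry from the jets -/
theorem pt_of_jg (Λ K : ℝ) (hΛ : 0 < Λ) : ∃ e : ℝ, 0 ≤ e ∧ ∀ (G : MetricField 4) (U : Set E4)
    (x : E4) (ρ : ℝ), IsRiemannianOn G U → x ∈ U → 0 < ρ → Ell Λ⁻¹ Λ (G x) → Sk.JG 2 G x ρ K →
      Pt G x ρ Λ e := by
  let D := M2 (Fin 4) ℝ × M3 (Fin 4) ℝ × M4 (Fin 4) ℝ
  have cl : Cl fun f : D → ℝ => Continuous f :=
    ⟨fun _ => continuous_const, fun hf hg => hf.add hg, fun hf hg => hf.mul hg⟩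
  have h0 : P2 (fun f : D → ℝ => Continuous f) fun d => d.1 := fun a b =>
    (continuous_apply b).comp ((continuous_apply a).comp continuous_fst)
  have h1 : P3 (fun f : D → ℝ => Continuous f) fun d => d.2.1 := fun _ _ _ => by
    dsimp only; fun_prop
  have h2 : P4 (fun f : D → ℝ => Continuous f) fun d => d.2.2 := fun _ _ _ _ => by
    dsimp only; fun_prop
  have hc : Continuous fun d : D => (chr d.1 d.2.1, rie (chr d.1 d.2.1) (dG2 d.1 d.2.1 d.2.2)) :=
    (continuous_pi fun a => continuous_pi fun b => continuous_pi fun c =>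
      cl.chr h0 h1 a b c).prodMk (continuous_pi fun a => continuous_pi fun b => continuous_pi
        fun c => continuous_pi fun d => cl.rie (cl.chr h0 h1) (cl.dG2 h0 h1 h2) a b c d)
  obtain ⟨e, he⟩ := (isCompact_closedBall (0 : D) (Λ + |K|)).exists_bound_of_continuousOn
    hc.continuousOn
  refine ⟨|e|, abs_nonneg _, fun G U x ρ hG hx hρ hE hJ => ?_⟩
  have p : 0 ≤ Λ + |K| := by positivity
  have hb := (he (iv G x, ρ • Lg.jet G x, ρ ^ 2 • jet2 G x) (mem_closedBall_zero_iff.2 (by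
    simp only [D, Prod.norm_def, max_le_iff, pi_norm_le_iff_of_nonneg p, Pi.smul_apply,
      smul_eq_mul, Real.norm_eq_abs, abs_mul, abs_of_pos hρ, abs_of_pos (pow_pos hρ 2)]
    refine ⟨fun a b => ?_, fun c a b => ?_, fun c d a b => ?_⟩
    · have : |iv G x a b| ≤ Λ := by simpa [iv] using hE.abs_inv_le (inv_pos.2 hΛ) a b
      linarith [abs_nonneg K]
    · have := Rad.jg_pd hJ one_le_two hρ c a b
      rw [le_div_iff₀' hρ] at this
      exact this.trans (by linarith [le_abs_self K])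
    · have := Rad.jg_pd2 hG hx hJ le_rfl hρ c d a b
      rw [le_div_iff₀' (pow_pos hρ 2)] at this
      exact this.trans (by linarith [le_abs_self K])))).trans (le_abs_self e)
  simp only [chr_smul, dG2_hom, rie_hom] at hb
  rw [← (C2.of_riem hG hx).riemann_raw, ← chr_eq] at hb
  simp only [Prod.norm_def, max_le_iff, pi_norm_le_iff_of_nonneg (abs_nonneg e), Pi.smul_apply,
    smul_eq_mul, Real.norm_eq_abs, abs_mul, abs_of_pos hρ, abs_of_pos (pow_pos hρ 2)] at hb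
  exact ⟨hE, fun m i j => (le_div_iff₀' hρ).2 (hb.1 m i j),
    fun l a i j => (le_div_iff₀' (pow_pos hρ 2)).2 (hb.2 l a i j)⟩

theorem ell_of {c K Λ : ℝ} {A : Matrix (Fin 4) (Fin 4) ℝ} (h : Jt.Pos c A)
    (hK : ∀ a b, |A a b - (1 : Matrix (Fin 4) (Fin 4) ℝ) a b| ≤ K) (h1 : Λ⁻¹ ≤ c)
    (h2 : (K + 1) * 4 ≤ Λ) : Ell Λ⁻¹ Λ A := by
  refine ⟨h.1, fun z => ⟨pos_low (h.mono h1) z, (le_abs_self _).trans
    ((R238.quad_abs_le (c := K + 1) (fun a b => ?_) z).trans (mul_le_mul_of_nonneg_right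
      (by simpa using h2) (Finset.sum_nonneg fun _ _ => sq_nonneg _)))⟩⟩
  have := abs_le.1 (hK a b)
  rw [Matrix.one_apply] at this
  split_ifs at this <;> exact abs_le.2 ⟨by linarith [this.1], by linarith [this.2]⟩

variable {k : ℕ} {G s t : MetricField 4} {x : E4} {ρ Λ e : ℝ} {η : E4 → ℝ}

theorem abs_ipA (hΛ : 0 < Λ) (h : Ell Λ⁻¹ Λ (G x)) {A B : Arr 4 k} {a b : ℝ} (ha : 0 ≤ a)
    (hb : 0 ≤ b) (hA : ss A ≤ a ^ 2) (hB : ss B ≤ b ^ 2) : |ipA (G x)⁻¹ A B| ≤ Λ ^ k * (a * b) := by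
  have hP := h.posDef (inv_pos.2 hΛ)
  refine abs_le.2 (abs_le_of_sq_le_sq' ((Ar.ipA_sq_le hP _ _).trans ((mul_le_mul
    ((ipA_le_ss hΛ h A).trans (mul_le_mul_of_nonneg_left hA (by positivity)))
    ((ipA_le_ss hΛ h B).trans (mul_le_mul_of_nonneg_left hB (by positivity)))
    (Ar.ipA_nonneg hP _) (by positivity)).trans_eq ?_)) (by positivity))
  ring

theorem eC_nonneg (T : Tn 4 k) : 0 ≤ eC ρ T T x := by
  rw [eC_eq]; exact add_nonneg (ss_nonneg _) (div_nonneg (ss_nonneg _) (sq_nonneg _))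

theorem ss_cov (h : Pt G x ρ Λ e) (he : 0 ≤ e) (T : Tn 4 2) :
    ss (cov G T x) ≤ (2 + 128 * e) ^ 2 * eC ρ T T x := by
  have a1 := ss_add_le (pa T x) ((-1 : ℝ) • (pa T x - cov G T x)) one_pos
  rw [ss_smul, neg_one_smul, ← sub_eq_add_neg, sub_sub_cancel] at a1
  have a2 : ss (pa T x - cov G T x) ≤ 4096 * e ^ 2 * (ss (T x) / ρ ^ 2) :=
    (ss_gam h.chr T).trans_eq (by push_cast; ring)
  have p1 := ss_nonneg (pa T x)
  have p2 : 0 ≤ ss (T x) / ρ ^ 2 := div_nonneg (ss_nonneg _) (sq_nonneg _)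
  rw [eC_eq]
  nlinarith [mul_nonneg he p1, mul_nonneg he p2, mul_nonneg (sq_nonneg e) p1,
    mul_nonneg (sq_nonneg e) p2]

/-- the integrand of the bilinear form -/
def q2 (G s t : MetricField 4) (η : E4 → ℝ) (x : E4) : ℝ :=
  ip G (cov G (smT (fun y => η y ^ 2) (matT t))) (cov G (matT s)) x +
    η x ^ 2 * ip G (RR G s) (matT t) x

theorem q2_self : q2 G t t η = qq G t η := rfl

theorem abs_q2 (hΛ : 1 ≤ Λ) (h : Pt G x ρ Λ e) (he : 0 ≤ e) (hρ : 0 < ρ)
    (hη : DifferentiableAt ℝ η x) (ht : DfT (matT t) x) (hβ : ρ ^ 2 * g2 η x ≤ η x ^ 2) :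
    |q2 G s t η x| ≤ (3 * Λ ^ 3 * (2 + 128 * e) ^ 2 + 8704 * Λ ^ 5 * e) * (η x ^ 2 *
      (√(eC ρ (matT s) (matT s) x) * √(eC ρ (matT t) (matT t) x))) := by
  have l0 : 0 < Λ := by linarith
  have c : ∀ T : Tn 4 2, ss (T x) ≤ (ρ * √(eC ρ T T x)) ^ 2 := fun T => by
    rw [mul_pow, Real.sq_sqrt (eC_nonneg T), eC_eq, mul_add, mul_div_cancel₀ _ (by positivity)]
    exact le_add_of_nonneg_left (mul_nonneg (sq_nonneg _) (ss_nonneg _))
  have c1 := ss_cov h he (matT s)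
  have c2 := ss_cov h he (matT t)
  have c3 := c (matT s)
  have c4 := c (matT t)
  rw [← Real.sq_sqrt (eC_nonneg (matT s)), ← mul_pow] at c1
  rw [← Real.sq_sqrt (eC_nonneg (matT t))] at c2
  have u0 := Real.sqrt_nonneg (eC ρ (matT s) (matT s) x)
  have w0 := Real.sqrt_nonneg (eC ρ (matT t) (matT t) x)
  generalize √(eC ρ (matT s) (matT s) x) = u at *
  generalize √(eC ρ (matT t) (matT t) x) = w at *
  have a1 : ss (te η x (matT t x)) ≤ η x ^ 2 * w ^ 2 := by
    rw [ss_te]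
    have g0 : 0 ≤ g2 η x := Finset.sum_nonneg fun _ _ => sq_nonneg _
    nlinarith [mul_le_mul_of_nonneg_left c4 g0, mul_le_mul_of_nonneg_right hβ (sq_nonneg w)]
  have a2 : ss (cov G (smT (fun y => η y ^ 2) (matT t)) x) ≤
      (3 * (2 + 128 * e) * (η x ^ 2 * w)) ^ 2 := by
    rw [cov_smT_eq (η := fun y => η y ^ 2) (hη.pow 2) ht, te_sq hη]
    refine (ss_add_le _ _ one_pos).trans ?_
    rw [ss_smul, ss_smul]
    have b1 := mul_le_mul_of_nonneg_left a1 (sq_nonneg (η x))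
    have b2 := mul_le_mul_of_nonneg_left c2 (sq_nonneg (η x ^ 2))
    have b3 : 4 ≤ (2 + 128 * e) ^ 2 := by nlinarith
    have b4 := mul_le_mul_of_nonneg_right b3 (sq_nonneg (η x ^ 2 * w))
    nlinarith
  have a3 := abs_ipA l0 h.ell (by positivity) (by positivity) a2 c1
  have a4 : ss (RR G s x) ≤ (8704 * Λ ^ 3 * (e / ρ ^ 2) * (ρ * u)) ^ 2 := by
    rw [mul_pow _ (ρ * u)]
    exact (ss_RR hΛ h).trans (mul_le_mul_of_nonneg_left c3 (sq_nonneg _))
  have a5 := mul_le_mul_of_nonneg_left (abs_ipA l0 h.ell (by positivity) (by positivity) a4 c4)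
    (sq_nonneg (η x))
  refine (abs_add_le _ _).trans ?_
  rw [abs_mul, abs_sq]
  refine (add_le_add a3 a5).trans_eq ?_
  field_simp
  ring

end Cb

open Cb

variable {M : Type*} {T : TD M} {g : T.V → Fam T} {γ σ T0 T1 : ℝ} {v : T.V}

/-- bounded geometry of the reference metrics -/
theorem pt_gb (h : T.Ok) (hL : T.Lim g γ) (hγ : 0 < γ) : ∃ Λ e : ℝ, 1 ≤ Λ ∧ 0 ≤ e ∧
    ∀ v s, ∀ x ∈ T.cK v s, Ell Λ⁻¹ Λ (g v s x) ∧ ∀ T0, Pt (gb T g T0 v s) x (scl T s x) Λ e := by
  obtain ⟨C, h0, hC⟩ := Ga.gb_sj hL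
  obtain ⟨D, c, h1, hc, hD⟩ := Ga.ball_bd hL
  set K := C 0 + C 1 + C 2 + (D 0 + D 1 + D 2) + 1 with hK
  have k0 : ∀ k ≤ 2, C k + 1 ≤ K ∧ D k + 1 ≤ K := fun k hk => by
    have := h0 0; have := h0 1; have := h0 2; have := h1 0; have := h1 1; have := h1 2
    interval_cases k <;> constructor <;> linarith
  have k1 : 1 ≤ K := by linarith [(k0 0 zero_le_two).1, h0 0]
  have ci := inv_pos.2 hc
  have l0 : 0 < c⁻¹ + (K + 1) * 4 := by positivity
  have l1 : (c⁻¹ + (K + 1) * 4)⁻¹ ≤ c := inv_le_of_inv_le₀ hc (by linarith)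
  have l2 : (c⁻¹ + (K + 1) * 4)⁻¹ ≤ 1 / 2 := inv_le_of_inv_le₀ (by norm_num) (by linarith)
  have l3 := le_add_of_nonneg_left (a := (K + 1) * 4) ci.le
  obtain ⟨e, e0, he⟩ := pt_of_jg _ K l0
  refine ⟨c⁻¹ + (K + 1) * 4, e, by linarith, e0, fun v s x hx => ?_⟩
  have hU := (h.core_pou v).sub s hx
  cases s with
  | inl a =>
    obtain ⟨rfl, h2⟩ := TD.mem_cK_inl.1 hx
    obtain ⟨d1, d2⟩ := hD a x (by linarith)
    have j : Sk.JG 2 (g (T.vx a) (Sum.inl a)) x 1 K := fun k hk p q => by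
      rw [Sk.J1, one_pow, mul_one]
      refine le_trans ?_ (k0 k hk).2
      rcases k with _ | k
      · have := d2 0 p q
        rw [norm_iteratedFDeriv_zero] at this ⊢
        refine (norm_sub_le _ _).trans (add_le_add this ?_)
        rw [Matrix.one_apply]; split_ifs <;> simp
      · rw [← norm_iteratedFDeriv_fderiv, Rad.fderiv_dv, norm_iteratedFDeriv_fderiv]
        linarith [d2 (k + 1) p q]
    have E := ell_of d1 (Rad.jg_ent j) l1 l3
    exact ⟨E, fun T0 => he _ _ _ _ ((hL.met _).riem _) hU one_pos E j⟩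
  | inr w =>
    refine ⟨ell_of (pos_of_small (g_sy ((hL.met v).riem _) hU)
      (Ga.lim_small hL hU)) (fun a b => (Ga.lim_small hL hU a b).trans (by linarith)) l2 l3,
      fun T0 => ?_⟩
    have j : Sk.JG 2 (gb T g T0 v (Sum.inr w)) x ‖x‖ K := fun k hk p q =>
      ((hC T0 v w x hU p q).bd k).trans ((mul_le_of_le_one_right (h0 k) (ew_le h hγ hU)).trans
        (by linarith [(k0 k hk).1]))
    exact he _ _ _ _ (Ga.gb_riem hL _) hU (core_pos hU) (ell_of (pos_of_small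
      (Ga.gb_symm hL hU) (Ga.gb_small hL hU)) (Rad.jg_ent j) l2 l3) j

theorem eta_g2 {s : T.S} {x : E4} (hx : x ∈ (T.core v).U s) :
    scl T s x ^ 2 * g2 (eta T v σ T1 s) x ≤ (1 - σ) ^ 2 * eta T v σ T1 s x ^ 2 := by
  rcases s with a | u
  · have : eta T v σ T1 (Sum.inl a) = fun _ => 1 := rfl
    simp only [g2, this, pd_const]
    simpa using sq_nonneg _
  have x0 := norm_pos_iff.1 (core_pos hx)
  have st : ∀ τ, Real.smoothTransition τ ^ 2 ≤ 1 := fun τ =>
    pow_le_one₀ (Real.smoothTransition.nonneg τ) (Real.smoothTransition.le_one τ)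
  by_cases hu : u = v
  · have e : eta T v σ T1 (Sum.inr u) =
        fun y => 0 + Real.exp ((σ - 1) * ph (Real.log ‖y‖ - T1)) := by
      funext y; simp [eta, tau, hu]
    have d := (((hasDerivAt_ph _).comp_sub_const (Real.log ‖x‖) T1).const_mul (σ - 1)).exp
    rw [e]
    refine (N207.M.g2_log _ x0 d 0).trans_le ?_
    nlinarith [mul_le_mul_of_nonneg_left (st (Real.log ‖x‖ - T1)) (sq_nonneg
      (Real.exp ((σ - 1) * ph (Real.log ‖x‖ - T1)) * (σ - 1)))]
  · have e : eta T v σ T1 (Sum.inr u) =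
        fun y => 0 + Real.exp ((1 - σ) * ph (-T1 - Real.log ‖y‖)) := by
      funext y; simp [eta, tau, hu, sub_eq_add_neg, add_comm]
    have d := (((hasDerivAt_ph _).comp_const_sub (-T1) (Real.log ‖x‖)).const_mul (1 - σ)).exp
    rw [e]
    refine (N207.M.g2_log _ x0 d 0).trans_le ?_
    nlinarith [mul_le_mul_of_nonneg_left (st (-T1 - Real.log ‖x‖)) (sq_nonneg
      (Real.exp ((1 - σ) * ph (-T1 - Real.log ‖x‖)) * (1 - σ)))]

variable {s t : Fam T}

theorem intg_NK (h : T.Ok) {G : Fam T} (hG : (T.core v).IsMet G) {η : T.S → E4 → ℝ}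
    (hη : (T.core v).Ct η) (hs : Sec T v s) (ht : Tst T v t) : (T.core v).Intg T.χ G fun a x =>
      η a x ^ 2 * eC (scl T a x) (matT (s a)) (matT (t a)) x := by
  obtain ⟨S, h1, h2⟩ := ht.cs
  obtain ⟨S', h3, h4, h5⟩ := h1.exists_cl (h.core_ok v)
  have o := (h.core_ok v).isOpen
  refine Atl.intg_of_cs (h.core_ok v) hG (h.core_pou v) h4 (fun a => ((hη a).pow 2).mul
    (continuousOn_finsetSum _ fun I _ => (continuousOn_finsetSum _ fun i _ =>
      (sm_pd (o a) (hs.sec.sm a I) i).continuousOn.mul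
        (sm_pd (o a) (ht.sec.sec.sm a I) i).continuousOn).add
      (((hs.sec.sm a I).continuousOn.mul (ht.sec.sec.sm a I).continuousOn).div
        ((cont_scl a).pow 2).continuousOn fun x hx => pow_ne_zero _ (scl_pos hx).ne')))
    ((h2.mono h3).op (h.core_ok v) h5 fun b y _ e => ?_)
  have e1 : ∀ I, (fun z => matT (t b) z I) =ᶠ[𝓝 y] fun _ => 0 := fun I =>
    e.mono fun z hz => by simp [matT, hz]
  simp [eC, fun I i => N207.pd_congr i (e1 I), fun I => (e1 I).eq_of_nhds, pd_const]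

/-- integration by parts -/
theorem ik_eq (h : T.Ok) (hG : (T.core v).IsMet (gb T g T0 v)) {η : T.S → E4 → ℝ}
    (hc : (T.core v).CompF η) (hη : ∀ a, ContDiffOn ℝ ∞ (η a) ((T.core v).U a)) (hs : Sec T v s)
    (ht : Tst T v t) :
    (T.core v).Intg T.χ (gb T g T0 v) (fun a => q2 (gb T g T0 v a) (s a) (t a) (η a)) ∧
    IK T g T0 v η (PK T g T0 v s) t =
      (T.core v).int T.χ (gb T g T0 v) fun a => q2 (gb T g T0 v a) (s a) (t a) (η a) := by
  obtain ⟨S, h1, h2⟩ := ht.cs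
  have o := h.core_ok v
  have p := h.core_pou v
  obtain ⟨S', h3, h4, h5⟩ := h1.exists_cl o
  have v1 : (T.core v).Van (fun a => matT (t a)) S' := (h2.mono h3).of_imp fun b y _ e => by
    funext I; simp [matT, e]
  have s1 := ht.sec.sec.smT (hc.map (· ^ 2)) fun a => (hη a).pow 2
  have v2 := v1.smT_right fun a y => η a y ^ 2
  have i1 := Atl.intg_of_cs o hG p h4 ((s1.cov o hG).ct_ip hG (hs.sec.cov o hG))
    ((v2.cov o h5).ip_left _)
  have i2 : (T.core v).Intg T.χ (gb T g T0 v) fun a x =>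
      η a x ^ 2 * ip (gb T g T0 v a) (RR (gb T g T0 v a) (s a)) (matT (t a)) x :=
    Atl.intg_of_cs o hG p h4 (fun a => ((hη a).pow 2).continuousOn.mul ((smT_RR (hG.riem a)
      (hs.sec.sm a)).ip (hG.riem a) (ht.sec.sec.sm a)).continuousOn)
      ((v1.ip_right (G := gb T g T0 v) fun a => RR (gb T g T0 v a) (s a)).of_imp
        fun b y _ e => by rw [e, mul_zero])
  have i3 := Atl.intg_of_cs o hG p h4 (s1.ct_ip hG (hs.sec.lapT o hG)) (v2.ip_left _)
  refine ⟨i1.add i2, Eq.trans ?_ (Atl.int_add i1 i2).symm⟩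
  rw [Atl.green_lap o hG p s1 hs.sec h4 v2, neg_add_eq_sub, ← Atl.int_sub i2 i3]
  refine Atl.int_congr o fun a x hx => ?_
  rw [ip_comm (hG.riem a) hx (smT _ _)]
  have : smT (fun y => η a y ^ 2) (matT (t a)) x = η a x ^ 2 • matT (t a) x := rfl
  simp only [ip, PK, pop_RR (hG.riem a) (hs.sec.sm a) (hs.symm a) hx, this, Ar.ipA_sub_left,
    Ar.ipA_smul_right, mul_sub]

/-- **the boundedness half of `COER`** -/
theorem coer_bd (h : T.Ok) (hL : T.Lim g γ) (hγ : 0 < γ) (h0 : 0 < σ) (h1 : σ < 1)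
    (hT : 4 / T.r ≤ T1) : ∃ q : ℝ, 0 ≤ q ∧ ∀ v T0, T1 ≤ T0 → ∀ s t, Tst T v s → Tst T v t →
      |IK T g T0 v (eta T v σ T1) (PK T g T0 v s) t| ≤
        q * √(NK T g v (eta T v σ T1) s s) * √(NK T g v (eta T v σ T1) t t) := by
  obtain ⟨Λ, e, l1, e0, H⟩ := pt_gb h hL hγ
  set Q := 3 * Λ ^ 3 * (2 + 128 * e) ^ 2 + 8704 * Λ ^ 5 * e with hQ
  have l0 : 0 < Λ := by linarith
  have q0 : 0 ≤ Λ ^ 4 * Q := by positivity
  refine ⟨Λ ^ 4 * Q, q0, fun v T0 hT0 s t hs ht => ?_⟩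
  have o := h.core_ok v
  obtain ⟨i1, e1⟩ := ik_eq h (Ga.gb_met h hL (hT.trans hT0) v) (eta_comp (σ := σ) h
    (hT.trans (by linarith [Real.add_one_le_exp T1]))) eta_sm hs.sec ht
  have ct : (T.core v).Ct (eta T v σ T1) := fun a => (eta_sm a).continuousOn
  have := int_cs o (h.core_pou v) i1 ((intg_NK h (hL.met v) ct hs.sec hs).const_mul
    ((Λ ^ 4 * Q) ^ 2)) (intg_NK h (hL.met v) ct ht.sec ht)
    (fun a x _ => mul_nonneg (sq_nonneg _) (mul_nonneg (sq_nonneg _) (eC_nonneg _)))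
    (fun a x _ => mul_nonneg (sq_nonneg _) (eC_nonneg _)) fun a x hx => ?_
  · rwa [Atl.int_const_mul, Real.sqrt_mul (sq_nonneg _), Real.sqrt_sq q0, ← e1] at this
  by_cases hχ : T.χ a ((T.core v).c a x) = 0
  · simp [Atl.den, hχ]
  obtain ⟨b1, b2⟩ := H v a x (cK_of_χ h hx hχ)
  have c1 := abs_q2 (s := s a) l1 (b2 T0) e0 (scl_pos hx) (dAt (eta_sm a) (o.isOpen a) hx)
    (ht.sec.sec.dfT o hx) ((eta_g2 (σ := σ) (T1 := T1) hx).trans
      (mul_le_of_le_one_left (sq_nonneg _) (by nlinarith)))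
  have d1 := (ell_det b1 (by positivity)).1
  have d2 := (ell_det (b2 T0).ell (by positivity)).2
  have d3 : √(gb T g T0 v a x).det ≤ Λ ^ 4 * √(g v a x).det :=
    d2.trans (le_trans (le_of_eq (by field_simp)) (mul_le_mul_of_nonneg_left d1 (by positivity)))
  simp only [Atl.den, mul_assoc, Real.sqrt_mul (sq_nonneg _), Real.sqrt_sq q0,
    Real.sqrt_sq (eta_pos a x).le]
  refine mul_le_mul_of_nonneg_left (mul_le_mul_of_nonneg_left ((mul_le_mul d3 c1 (abs_nonneg _)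
    (by positivity)).trans_eq ?_) ((h.core_pou v).nonneg _ _)) (by positivity)
  ring

end Crest.Agent.N207.K

end
end

-- ▼ part N207/K/CoerH

/-!
# Row 207, block K (helper10): the flat Hardy inequality on the far part of an end of a core
-/

set_option autoImplicit false
open Set Filter Topology Metric MeasureTheory
open scoped ContDiff
open Crest.GeometryTopology.CoordMetric
open Crest.Agent.N207.I Crest.Agent.N207.Hd Crest.Agent.N207.CB

noncomputable section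

namespace Crest.Agent.N207.K

namespace Ch

variable {k : ℕ} {U : Set E4} {W : Tn 4 k}

theorem int_le {f : E4 → ℝ} {A K : Set E4} (hA : MeasurableSet A) (hi : IntegrableOn f K)
    (h0 : ∀ x, 0 ≤ f x) (h : ∀ x ∈ A, f x ≠ 0 → x ∈ K) : ∫ x in A, f x ≤ ∫ x in K, f x := by
  rw [setIntegral_eq_of_subset_of_forall_sdiff_eq_zero hA (inter_subset_left (t := K))
    fun x hx => by_contra fun e => hx.2 ⟨hx.1, h x hx.1 e⟩]
  exact setIntegral_mono_set hi (Eventually.of_forall h0) inter_subset_right.eventuallyLE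

theorem ct_a (hU : IsOpen U) (hW : SmT W U) : ContinuousOn (fun x => ss (pa W x)) U := by
  simp only [ss_pa]
  exact continuousOn_finsetSum _ fun I _ => contOn_g2 hU ((hW I).of_le (by simp))

theorem ct_b (hW : SmT W U) (h0 : ∀ x ∈ U, 0 < ‖x‖) :
    ContinuousOn (fun x => ss (W x) / ‖x‖ ^ 2) U :=
  (continuousOn_finsetSum _ fun I _ => (hW I).continuousOn.pow 2).div
    (continuous_norm.pow 2).continuousOn fun x hx => (pow_pos (h0 x hx) 2).ne'

theorem zero_of {O : Set E4} (hO : IsOpen O) (h : ∀ x ∈ O, W x = 0) {x : E4} (hx : x ∈ O) :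
    ss (pa W x) = 0 ∧ ss (W x) / ‖x‖ ^ 2 = 0 := by
  refine ⟨?_, by simp [ss, h x hx]⟩
  rw [ss_pa]
  refine Finset.sum_eq_zero fun I _ => Finset.sum_eq_zero fun i _ => ?_
  have e : (fun y => W y I) =ᶠ[𝓝 x] fun _ => 0 := by
    filter_upwards [hO.mem_nhds hx] with y hy
    rw [h y hy]; rfl
  simp [pderiv, e.fderiv_eq]

theorem gen : ∃ C : ℝ, 0 ≤ C ∧ ∀ (U F K : Set E4) (W : Tn 4 2) (a c : ℝ), IsOpen U → SmT W U →
    (∀ x ∈ U, 0 < ‖x‖) → MeasurableSet F → F ⊆ U → IsCompact K → K ⊆ U → 0 < a →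
    Real.exp 1 * a ≤ c → An a c ⊆ F →
    (∀ x ∈ F, x ∉ An a c → ss (pa W x) = 0 ∧ ss (W x) / ‖x‖ ^ 2 = 0) →
    (∀ x ∈ An a c, ss (W x) / ‖x‖ ^ 2 ≠ 0 →
      ‖x‖ < Real.exp 1 * a ∨ c / Real.exp 1 ≤ ‖x‖ → x ∈ K) →
    IntegrableOn (fun x => ss (pa W x)) F ∧ IntegrableOn (fun x => ss (W x) / ‖x‖ ^ 2) F ∧
      ∫ x in F, ss (W x) / ‖x‖ ^ 2 ≤ (∫ x in F, ss (pa W x)) + C * ∫ x in K, ss (W x) / ‖x‖ ^ 2 := by
  have he : 1 < Real.exp 1 := Real.one_lt_exp_iff.2 one_pos
  obtain ⟨C, hC, H⟩ := hardy0 he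
  refine ⟨C + 1, by positivity, fun U F K W a c hU hW h0 hF hFU hK hKU ha hac hs hz hk => ?_⟩
  have hc : 0 < c := lt_of_lt_of_le (by positivity) hac
  have su := hs.trans hFU
  have ia := ((ct_a hU hW).mono su).integrableOn_compact (μ := volume) (isCompact_An a c)
  have ib := ((ct_b hW h0).mono su).integrableOn_compact (μ := volume) (isCompact_An a c)
  have iK := ((ct_b hW h0).mono hKU).integrableOn_compact (μ := volume) hK
  have nb : ∀ x, 0 ≤ ss (W x) / ‖x‖ ^ 2 := fun x => div_nonneg (ss_nonneg _) (sq_nonneg _)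
  have s1 : An (Real.exp 1 * a) (c / Real.exp 1) ⊆ An a c :=
    An_mono (by nlinarith) (div_le_self hc.le he.le)
  have s2 : An (c / Real.exp 1) c ⊆ An a c :=
    An_mono (by rw [le_div_iff₀ (by positivity), mul_comm]; exact hac) le_rfl
  refine ⟨ia.of_forall_sdiff_eq_zero hF fun x hx => (hz x hx.1 hx.2).1,
    ib.of_forall_sdiff_eq_zero hF fun x hx => (hz x hx.1 hx.2).2, ?_⟩
  rw [setIntegral_eq_of_subset_of_forall_sdiff_eq_zero hF hs fun x hx => (hz x hx.1 hx.2).1,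
    setIntegral_eq_of_subset_of_forall_sdiff_eq_zero hF hs fun x hx => (hz x hx.1 hx.2).2,
    ← integral_inter_add_sdiff (measurableSet_An (Real.exp 1 * a) (c / Real.exp 1)) ib,
    inter_eq_self_of_subset_right s1]
  have k1 := int_le ((measurableSet_An a c).diff
    (measurableSet_An (Real.exp 1 * a) (c / Real.exp 1))) iK nb fun x hx e => hk x hx.1 e (by
      by_contra n
      rw [not_or, not_lt, not_le] at n
      exact hx.2 ⟨n.1, n.2.le⟩)
  have k2 := mul_le_mul_of_nonneg_left (int_le (measurableSet_An (c / Real.exp 1) c) iK nb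
    fun x hx e => hk x (s2 hx) e (Or.inr hx.1)) hC
  have hW1 : ∀ I, ContDiffOn ℝ 1 (fun y => W y I) U := fun I => (hW I).of_le (by simp)
  have j : ∀ I, IntegrableOn (fun x => (‖x‖ ^ 2)⁻¹ * W x I ^ 2) (An a c) := fun I =>
    ((((continuous_norm.pow 2).continuousOn.inv₀ fun x hx => (pow_pos (h0 x hx) 2).ne').mul
      ((hW I).continuousOn.pow 2)).mono su).integrableOn_compact (isCompact_An a c)
  have e : ∀ x, ss (W x) / ‖x‖ ^ 2 = ∑ I, (‖x‖ ^ 2)⁻¹ * W x I ^ 2 := fun x => by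
    rw [ss, div_eq_inv_mul, Finset.mul_sum]
  have k3 : ∫ x in An (Real.exp 1 * a) (c / Real.exp 1), ss (W x) / ‖x‖ ^ 2 ≤
      (∫ x in An a c, ss (pa W x)) + C * ∫ x in An (c / Real.exp 1) c, ss (W x) / ‖x‖ ^ 2 := by
    simp only [e, ss_pa]
    rw [integral_finsetSum _ fun I _ => (j I).mono_set s1,
      integral_finsetSum _ fun I _ => (j I).mono_set s2, integral_finsetSum _ fun I _ =>
        ((contOn_g2 hU (hW1 I)).mono su).integrableOn_compact (isCompact_An a c), Finset.mul_sum,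
      ← Finset.sum_add_distrib]
    exact Finset.sum_le_sum fun I _ => H U _ a c hU (hW1 I) ha hac su
  linarith

end Ch

/-- the Hardy inequality on the far part of an end -/
theorem hardy_far : ∃ CH : ℝ, 0 ≤ CH ∧ ∀ {M : Type*} (T : TD M) (v w : T.V) (c : ℝ) (t : Fam T)
    (η : T.S → E4 → ℝ), T.Ok → 4 / T.r ≤ Real.exp c → Tst T v t →
    ContDiffOn ℝ ∞ (η (Sum.inr w)) ((T.core v).U (Sum.inr w)) →
    IntegrableOn (aa (t (Sum.inr w)) (η (Sum.inr w)))
        {x | x ∈ (T.core v).U (Sum.inr w) ∧ 0 ≤ tau T v w c x} ∧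
      IntegrableOn (fun x => bb (t (Sum.inr w)) (η (Sum.inr w)) ‖x‖ x)
        {x | x ∈ (T.core v).U (Sum.inr w) ∧ 0 ≤ tau T v w c x} ∧
      ∫ x in {x | x ∈ (T.core v).U (Sum.inr w) ∧ 0 ≤ tau T v w c x},
          bb (t (Sum.inr w)) (η (Sum.inr w)) ‖x‖ x ≤
        (∫ x in {x | x ∈ (T.core v).U (Sum.inr w) ∧ 0 ≤ tau T v w c x},
          aa (t (Sum.inr w)) (η (Sum.inr w)) x) +
        CH * ∫ x in NS.cK0 T v (c + 1) (Sum.inr w), bb (t (Sum.inr w)) (η (Sum.inr w)) ‖x‖ x := by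
  obtain ⟨C, hC, H⟩ := Ch.gen
  refine ⟨C, hC, fun T v w c t η h hc ht hη => ?_⟩
  have hr := h.r_pos
  have hr1 := h.r_lt
  have hO := h.core_ok v
  have hp := h.core_pou v
  have he : 1 < Real.exp 1 := Real.one_lt_exp_iff.2 one_pos
  have ec := Real.exp_pos c
  have c1 : 4 ≤ Real.exp c * T.r := (div_le_iff₀ hr).1 hc
  have hW : SmT (smT (η (Sum.inr w)) (matT (t (Sum.inr w)))) ((T.core v).U (Sum.inr w)) :=
    fun I => hη.mul (ht.sec.sec.sm _ I)
  obtain ⟨S, hS, hV⟩ := ht.cs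
  obtain ⟨D, d1, d2, d3⟩ := hS.exists_cpt hO (hp.sub (Sum.inr w)) (hp.cl _)
  have z : ∀ x ∈ T.cK v (Sum.inr w), x ∉ D →
      smT (η (Sum.inr w)) (matT (t (Sum.inr w))) x = 0 := fun x hx hn => by
    have : t (Sum.inr w) x = 0 := by_contra fun e =>
      hn (d3 x (hp.sub _ hx) ⟨x, hx, rfl⟩ (hV _ x (hp.sub _ hx) e))
    funext I; simp [smT, matT, this]
  have mt : Measurable (tau T v w c) := by unfold tau; split_ifs <;> fun_prop
  have G := fun a b => H _ {x | x ∈ (T.core v).U (Sum.inr w) ∧ 0 ≤ tau T v w c x} _ _ a b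
    (hO.isOpen _) hW (fun x hx => core_pos hx) ((hO.isOpen _).measurableSet.inter
      (measurableSet_le measurable_const mt))
    (fun x hx => hx.1) (NS.Fx.cK0_cpt (c := c + 1) (Sum.inr w)) fun x hx => hp.sub _ hx.1
  by_cases hw : w = v
  · subst hw
    have m : ∀ x : E4, x ∈ (T.core w).U (Sum.inr w) ∧ 0 ≤ tau T w w c x ↔ Real.exp c ≤ ‖x‖ :=
      fun x => by
      rw [TD.mem_core_out, tau, if_pos rfl, sub_nonneg]
      exact ⟨fun k => (Real.le_log_iff_exp_le (by linarith [k.1])).1 k.2, fun k =>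
        ⟨by nlinarith, (Real.le_log_iff_exp_le (by linarith)).2 k⟩⟩
    obtain ⟨b, b0, hb⟩ := d1.isBounded.exists_pos_norm_le
    have zz := fun x => Ch.zero_of (O := {x : E4 | b + 2 < ‖x‖})
      (isOpen_lt continuous_const continuous_norm) (fun x (hx : b + 2 < ‖x‖) =>
        z x (TD.mem_cK_out.2 (by linarith)) fun k => by linarith [hb x k]) (x := x)
    refine G (Real.exp c) (Real.exp 1 * (Real.exp c + b + 3)) ec (by nlinarith)
      (fun x hx => (m x).2 hx.1) (fun x hx hn => zz x ?_) fun x hx e k => ?_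
    · have : Real.exp 1 * (Real.exp c + b + 3) < ‖x‖ := not_le.1 fun k => hn ⟨(m x).1 hx, k⟩
      show b + 2 < ‖x‖
      nlinarith
    · rcases k with k | k
      · have := hx.1
        exact ⟨TD.mem_cK_out.2 (by nlinarith), NS.Fx.mem_cK1_out.2 ⟨by nlinarith, by
          rw [Real.exp_add, mul_comm]; exact k.le⟩⟩
      · rw [mul_div_cancel_left₀ _ (by positivity)] at k
        exact absurd (zz x (show b + 2 < ‖x‖ by linarith)).2 e
  by_cases hk : T.kid v w
  · have c2 : Real.exp (-c) ≤ T.r / 4 := by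
      rw [Real.exp_neg, inv_le_iff_one_le_mul₀ ec]; linarith
    have m : ∀ x : E4, x ∈ (T.core v).U (Sum.inr w) ∧ 0 ≤ tau T v w c x ↔
        0 < ‖x‖ ∧ ‖x‖ ≤ Real.exp (-c) := fun x => by
      rw [TD.mem_core_inn hw, tau, if_neg hw, sub_nonneg, le_neg]
      exact ⟨fun k => ⟨k.1.2.1, (Real.log_le_iff_le_exp k.1.2.1).1 k.2⟩, fun k =>
        ⟨⟨hk, k.1, by linarith [k.2]⟩, (Real.log_le_iff_le_exp k.1).2 k.2⟩⟩
    obtain ⟨b, b0, hb⟩ : ∃ b : ℝ, 0 < b ∧ b ≤ Real.exp (-c) ∧ ∀ x ∈ D, b ≤ ‖x‖ := by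
      rcases D.eq_empty_or_nonempty with rfl | hne
      · exact ⟨_, Real.exp_pos _, le_rfl, by simp⟩
      obtain ⟨x, hx, k⟩ := d1.exists_isMinOn hne continuous_norm.continuousOn
      exact ⟨min ‖x‖ (Real.exp (-c)), lt_min (core_pos (d2 hx)) (Real.exp_pos _), min_le_right _ _,
        fun y hy => (min_le_left _ _).trans (k hy)⟩
    have zz := fun x => Ch.zero_of (O := {x : E4 | 0 < ‖x‖ ∧ ‖x‖ < b}) (NS.Fx.op_ann _ _)
      (fun x hx => z x ((TD.mem_cK_inn hw).2 ⟨hk, hx.1, by linarith [hx.2, hb.1]⟩)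
        fun k => by linarith [hb.2 x k, hx.2]) (x := x)
    have e1 : Real.exp 1 * (b / Real.exp 1) = b := mul_div_cancel₀ _ (by positivity)
    have e2 : 0 < b / Real.exp 1 := by positivity
    refine G (b / Real.exp 1) (Real.exp (-c)) e2 (e1.trans_le hb.1)
      (fun x hx => (m x).2 ⟨e2.trans_le hx.1, hx.2⟩) (fun x hx hn => zz x ?_) fun x hx e k => ?_
    · have := (m x).1 hx
      exact ⟨this.1, (not_le.1 fun k => hn ⟨k, this.2⟩).trans_le (div_le_self b0.le he.le)⟩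
    · have x0 := e2.trans_le hx.1
      have x1 := hx.2
      rcases k with k | k
      · exact absurd (zz x ⟨x0, k.trans_eq e1⟩).2 e
      · exact ⟨(TD.mem_cK_inn hw).2 ⟨hk, x0, by linarith⟩, (NS.Fx.mem_cK1_inn hw).2 ⟨hk, by
          rwa [neg_add, ← sub_eq_add_neg, Real.exp_sub], by linarith⟩⟩
  · have : {x | x ∈ (T.core v).U (Sum.inr w) ∧ 0 ≤ tau T v w c x} = ∅ :=
      eq_empty_of_forall_notMem fun x hx => hk ((TD.mem_core_inn hw).1 hx.1).1
    rw [this]
    refine ⟨integrableOn_empty, integrableOn_empty, ?_⟩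
    simp only [Measure.restrict_empty, integral_zero_measure, zero_add]
    exact mul_nonneg hC (integral_nonneg fun x => bb_nonneg)

end Crest.Agent.N207.K

end
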