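import Crest.Agent.N207.K.Kl1
import Crest.Agent.N207.K.Gbj
import Crest.Agent.N207.K.Trf
import Crest.Agent.N207.K.KSt
import Crest.Agent.N207.CB.Lf3
import Crest.Agent.N207.K.Pop3

-- ▼ part N207/K/Kl2
section

/-!
# Row 207, block K (helper1): dictionary between `Pb` and the cores
-/

set_option autoImplicit false

open scoped ContDiff
open Metric Set Filter Topology MeasureTheory
open Crest.GeometryTopology.CoordMetric
open Crest.Agent.NLib.Ell Crest.Agent.N207.I Crest.Agent.N207.CB Crest.Agent.R249.EV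

noncomputable section

namespace Crest.Agent.N207.K

open Sys

theorem aff_le {f : E4 → ℝ} {x : E4} {ρ R : ℝ} (hρ : 0 < ρ)
    (hf : ContinuousOn f ((fun y => x + ρ • y) '' closedBall 0 R)) (h0 : ∀ y, 0 ≤ f y) :
    ∫ y in ball (0 : E4) R, f (x + ρ • y) ≤
      (ρ ^ 4)⁻¹ * ∫ y in (fun y => x + ρ • y) '' closedBall 0 R, f y := by
  have hd : ∀ z ∈ ball (0 : E4) R, HasFDerivWithinAt (fun z : E4 => x + ρ • z)
      (ρ • ContinuousLinearMap.id ℝ E4) (ball 0 R) z := fun z _ =>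
    (((hasFDerivAt_id z).const_smul ρ).const_add x).hasFDerivWithinAt
  have inj : InjOn (fun z : E4 => x + ρ • z) (ball 0 R) :=
    fun z _ z' _ h => smul_right_injective _ hρ.ne' (add_left_cancel h)
  have dt : |(ρ • ContinuousLinearMap.id ℝ E4).det| = ρ ^ 4 := by
    rw [ContinuousLinearMap.det, ContinuousLinearMap.toLinearMap_smul, LinearMap.det_smul]
    simp [abs_of_pos hρ]
  have e1 := integral_image_eq_integral_abs_det_fderiv_smul volume measurableSet_ball hd inj f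
  simp only [dt, smul_eq_mul, integral_const_mul] at e1
  rw [le_inv_mul_iff₀ (by positivity), ← e1]
  exact setIntegral_mono_set (hf.integrableOn_compact ((isCompact_closedBall _ _).image
    (by fun_prop))) (Eventually.of_forall h0) (image_mono ball_subset_closedBall).eventuallyLE

variable {M : Type*} {T : TD M} {g : T.V → Fam T} {v : T.V} {σ T0 T1 : ℝ} {w t F G : Fam T}

theorem cell_U (h : T.Ok) {s : T.S} {x y : E4} (hx : x ∈ T.cK v s) (hy : ‖y‖ ≤ 9 / 8) :
    x + rad T s x • y ∈ (T.core v).U s := by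
  rcases s with a | u
  · obtain ⟨h1, h2⟩ := TD.mem_cK_inl.1 hx
    refine TD.mem_core_inl.2 ⟨h1, (norm_add_le _ _).trans_lt ?_⟩
    rw [norm_smul, show ‖rad T (Sum.inl a) x‖ = 1 / 8 by simp [rad]]
    linarith
  · exact end_cell h hx hy

theorem pair_eq (h : T.Ok) (hg : (T.core v).IsMet (g v)) (hT : T1 ≤ T0) (h0 : CB.Van T v T1 0 t)
    (w : Fam T) : IK T g T0 v (eta T v σ T1) w t = pair T g v t w := by
  refine Finset.sum_congr rfl fun s _ =>
    setIntegral_congr_fun ((h.core_ok v).isOpen s).measurableSet fun x hx => ?_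
  have c := ip_comm (hg.riem s) hx (matT (t s)) (matT (w s))
  rcases s with a | u
  · simp only [c, eta, Sum.elim_inl, one_pow, one_mul]; rfl
  by_cases ht : 0 ≤ tau T v u T1 x
  · have z : matT (t (Sum.inr u)) x = 0 := by funext I; simp [matT, h0 u x hx ht]
    simp only [c]
    simp only [ip, z, ipA_zero_right, mul_zero]
  · have a : tau T v u T0 x ≤ 0 := by simp only [tau] at ht ⊢; linarith
    simp only [c, eta_one (not_le.1 ht).le, one_pow, one_mul]
    simp only [ip, Atl.den, Ga.gb_eq a]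

theorem ofW_lc {κ : Type} [Fintype κ] (a : κ → ℝ) (u : κ → WT (T.core v) sw) :
    ofW (∑ j, a j • u j).1 = ∑ j, a j • ofW (u j).1 := by
  ext s x p q
  simp [ofW, ofT, Finset.sum_apply, Matrix.sum_apply]

section
variable {η : T.S → E4 → ℝ} (d : Dat (T.core v) sw T.χ (T.cK v) (gb T g T0 v) (g v)
  (fun a x => η a x ^ 2) (eK T η) (pK (gb T g T0 v)))

theorem ip_eq (s : WS (T.core v) sw) (t : WT (T.core v) sw) :
    d.pb.ip s t = IK T g T0 v η (ofW s) (ofW t.1) := by
  simp only [Dat.pb_ip, IK, ofW, matT_ofT]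

theorem N_eq (s t : WT (T.core v) sw) : d.pb.N s t = NK T g v η (ofW s.1) (ofW t.1) := by
  simp only [Dat.pb_N, NK, ofW, matT_ofT]; rfl

theorem P_eq (s : WS (T.core v) sw) : ofW (d.pb.P s) = PK T g T0 v (ofW s) := rfl

theorem ok_of {q : ℝ} (q0 : 0 ≤ q) (hq : ∀ s t, Tst T v s → Tst T v t →
    |IK T g T0 v η (PK T g T0 v s) t| ≤ q * √(NK T g v η s s) * √(NK T g v η t t)) :
    d.pb.Ok q := d.pb_ok q0 fun s t => by
  rw [ip_eq, N_eq, N_eq, P_eq]; exact hq _ _ (tst_ofW s) (tst_ofW t)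

theorem cmp_of {q : ℝ} (ok : d.pb.Ok q) (s : T.S) (D : Set E4) (hD : IsCompact D)
    (hU : D ⊆ (T.core v).U s) : ∃ C : ℝ, 0 ≤ C ∧ ∀ t, Tst T v t →
      ∀ a b, ∫ y in D, t s y a b ^ 2 ≤ C * NK T g v η t t := by
  obtain ⟨C, C0, hC⟩ := ok.cmp s hD hU
  refine ⟨C, C0, fun t ht a b => le_trans ?_ (hC (toT ht))⟩
  exact setIntegral_mono_on ((((ht.sec.sec.sm s ![a, b]).continuousOn.pow 2).mono
    hU).integrableOn_compact hD) (((ok.jc _ s).mono hU).integrableOn_compact hD)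
      hD.measurableSet fun y _ => sq_le_jet (d.pb.c (toT ht) s) ![a, b] y

theorem cell_lim (h : T.Ok) {q : ℝ} (ok : d.pb.Ok q) {f : ℕ → WT (T.core v) sw}
    {u : WS (T.core v) sw} {r c : ℝ} (hf : d.pb.Lc f u)
    (hr : Tendsto (fun l => d.pb.N (f l) (f l)) atTop (𝓝 r)) {s : T.S} {x : E4}
    (hx : x ∈ T.cK v s) (a b : Fin 4) (hc : ∀ t, Tst T v t →
      ∫ y in ball (0 : E4) (9 / 8), t s (x + rad T s x • y) a b ^ 2 ≤ c * NK T g v η t t) :
    ∫ y in ball (0 : E4) (9 / 8), ofW u s (x + rad T s x • y) a b ^ 2 ≤ 2 * c * r := by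
  have hK : IsCompact ((fun y : E4 => x + rad T s x • y) '' closedBall 0 (9 / 8)) :=
    (isCompact_closedBall _ _).image (by fun_prop)
  have m : ∀ y ∈ closedBall (0 : E4) (9 / 8), x + rad T s x • y ∈ (T.core v).U s := fun y hy =>
    cell_U h hx (mem_closedBall_zero_iff.1 hy)
  have hU : (fun y : E4 => x + rad T s x • y) '' closedBall 0 (9 / 8) ⊆ (T.core v).U s := by
    rintro _ ⟨y, hy, rfl⟩; exact m y hy
  have i : ∀ {φ : E4 → ℝ}, ContinuousOn φ ((T.core v).U s) →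
      IntegrableOn (fun y => φ (x + rad T s x • y)) (ball 0 (9 / 8)) := fun hφ =>
    ((hφ.comp (by fun_prop) m).integrableOn_compact (isCompact_closedBall _ _)).mono_set
      ball_subset_closedBall
  have c2 : ∀ z : WS (T.core v) sw,
      ContinuousOn (fun y => ofW z s y a b ^ 2) ((T.core v).U s) := fun z =>
    (z.2.1.sm s ![a, b]).continuousOn.pow 2
  have l := (hr.const_mul (2 * c)).add ((hf s _ hK hU).const_mul (2 * (rad T s x ^ 4)⁻¹))
  rw [mul_zero, add_zero] at l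
  refine ge_of_tendsto' l fun n => ?_
  have a1 := hc _ (tst_ofW (f n))
  have a2 := aff_le (rad_pos' hx) ((ok.jc (f n - u) s).mono hU) (jet_nonneg _)
  rw [N_eq, mul_assoc, mul_assoc]
  refine le_trans ?_ (add_le_add (mul_le_mul_of_nonneg_left a1 zero_le_two)
    (mul_le_mul_of_nonneg_left a2 zero_le_two))
  rw [← integral_const_mul, ← integral_const_mul, ← integral_add ((i (c2 _)).const_mul 2)
    ((i (ok.jc _ s)).const_mul 2)]
  refine setIntegral_mono_on (i (c2 u)) (((i (c2 _)).const_mul 2).add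
    ((i (ok.jc _ s)).const_mul 2)) measurableSet_ball fun y _ => ?_
  have k := sq_le_jet (d.pb.c (f n - u) s) ![a, b] (x + rad T s x • y)
  have e : d.pb.c (f n - u) s ![a, b] (x + rad T s x • y) =
    ofW (f n).1 s (x + rad T s x • y) a b - ofW u s (x + rad T s x • y) a b := rfl
  rw [e] at k
  nlinarith [sq_nonneg (2 * ofW (f n).1 s (x + rad T s x • y) a b - ofW u s (x + rad T s x • y) a b)]

end

end Crest.Agent.N207.K

end
end

-- ▼ part N207/K/Kl3
section

/-!
# Row 207, block K (helper1): `KLin` from the leaves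
-/

set_option autoImplicit false

open scoped ContDiff
open Metric Set Filter Topology MeasureTheory
open Crest.GeometryTopology.CoordMetric
open Crest.Agent.NLib.Ell Crest.Agent.N207.I Crest.Agent.N207.CB Crest.Agent.R249.EV

noncomputable section

namespace Crest.Agent.N207.K

variable {M : Type*} {T : TD M} {g : T.V → Fam T} {v : T.V} {σ T0 T1 : ℝ}

theorem KAt.mono {κ : Type} [Fintype κ] {ψ : κ → Fam T} {k : ℕ} {K K' : ℝ} {En : Fam T → Prop}
    (h : KAt T g ψ v T0 σ k K En) (hK : K ≤ K') : KAt T g ψ v T0 σ k K' En :=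
  ⟨h.add, h.smul, fun F θ N a b c d => by
    obtain ⟨w, μ, h1, h2, h3, h4, h5, h6, h7⟩ := h.ex F θ N a b c d
    have := mul_le_mul_of_nonneg_right hK ((norm_nonneg _).trans d)
    exact ⟨w, μ, h1, h2, h3, h4, h5, fun s x hx hJ a b => (h6 s x hx hJ a b).mono this,
      h7.trans this⟩, h.uniq⟩

theorem van_mono {F : Fam T} {c : ℝ} (h : CB.Van T v T1 c F) (hT : T1 ≤ T0) :
    CB.Van T v T0 c F := fun u x hx ht => h u x hx (by simp only [tau] at ht ⊢; linarith)

open Classical in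
/-- the linear problem on one core -/
theorem kat (h : T.Ok) (hg : (T.core v).IsMet (g v)) (hb : (T.core v).IsMet (gb T g T0 v))
    (hσ : 0 < σ) (hT : 4 / T.r ≤ Real.exp T1) (h1 : T1 ≤ T0) (h0 : 0 ≤ T0)
    {κ : Type} [Fintype κ] {ψ : κ → Fam T} (hψ : ∀ j, Sec T v (ψ j))
    (hv : ∀ j, CB.Van T v T1 0 (ψ j)) {e : κ → ℝ} (he : ∀ j, e j = 1 ∨ e j = -1)
    (eig : ∀ j s, ∀ x ∈ (T.core v).U s, TRg (g v s x) (ψ j s x) = e j • ψ j s x)
    {a : κ → κ → ℝ} (du : ∀ i j, pair T g v (ψ i) (∑ l, a j l • ψ l) = if i = j then 1 else 0)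
    {c q p C1 C2 C3 : ℝ} {k : ℕ} (c0 : 0 < c) (q0 : 0 ≤ q) (p0 : 0 ≤ p) (hC1 : 0 ≤ C1)
    (hC2 : 0 ≤ C2) (hC3 : 0 ≤ C3)
    (hp : ∑ j, √(NK T g v (eta T v σ T1) (∑ l, a j l • ψ l) (∑ l, a j l • ψ l)) ≤ p)
    (hq : ∀ s t, Tst T v s → Tst T v t → |IK T g T0 v (eta T v σ T1) (PK T g T0 v s) t| ≤
      q * √(NK T g v (eta T v σ T1) s s) * √(NK T g v (eta T v σ T1) t t))
    (hc : ∀ t, Tst T v t → (∀ j, pair T g v (ψ j) t = 0) →
      c * NK T g v (eta T v σ T1) t t ≤ IK T g T0 v (eta T v σ T1) (PK T g T0 v t) t)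
    (src : ∀ (F : Fam T) (N : ℝ), 0 ≤ N → Sec T v F → CB.Van T v T0 4 F →
      (∀ s, ∀ x ∈ T.cK v s, ∀ a b, |rad T s x ^ 2 * F s x a b| ≤ N) → ∀ t, Tst T v t →
      |IK T g T0 v (eta T v σ T1) F t| ≤
        C1 * Real.exp (σ * T0) * N * √(NK T g v (eta T v σ T1) t t))
    (cel : ∀ t, Tst T v t → ∀ s, ∀ x ∈ T.cK v s, ∀ a b,
      ∫ y in ball (0 : E4) (9 / 8), t s (x + rad T s x • y) a b ^ 2 ≤
        C2 * scl T s x ^ (-(2 * σ)) * NK T g v (eta T v σ T1) t t)
    (fin : ∀ (w F : Fam T) (μ : κ → ℝ) (N S : ℝ), 0 ≤ N → 0 ≤ S → Sec T v w → Sec T v F →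
      CB.Van T v T0 4 F → CBd T v univ k 2 N F → ‖μ‖ ≤ S →
      (∀ s, ∀ x ∈ (T.core v).U s, Pop (gb T g T0 v s) (w s) x = F s x + ∑ j, μ j • ψ j s x) →
      (∀ s, ∀ x ∈ T.cK v s, ∀ a b, ∫ y in ball (0 : E4) (9 / 8),
        w s (x + rad T s x • y) a b ^ 2 ≤ (S * scl T s x ^ (-σ)) ^ 2) →
      Grw T v σ w ∧ CBd T v (Reg T v T0 5) (k + 2) 0 (C3 * (N + S * Real.exp (σ * T0))) w) :
    ∃ En, KAt T g ψ v T0 σ k ((C3 + (C3 + 1) * ((1 + √(2 * C2)) * (bC c q p * (C1 + 1)))) *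
      Real.exp (2 * σ * T0)) En := by
  have d := dat (σ := σ) h hT hg hb
  have ok := ok_of d q0 hq
  have tψ : ∀ j, Tst T v (ψ j) := fun j => ⟨hψ j, core_cs h (hψ j) (hv j)⟩
  have ipψ : ∀ u j, d.pb.ip u (toT (tψ j)) = pair T g v (ψ j) (ofW u) := fun u j => by
    rw [ip_eq]; exact pair_eq h hg h1 (hv j) _
  have lc : ∀ j, ofW (∑ l, a j l • toT (tψ l)).1 = ∑ l, a j l • ψ l := fun j => ofW_lc _ _
  have fam : d.pb.Fam (fun j => toT (tψ j)) (fun j => ∑ l, a j l • toT (tψ l)) c :=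
    ⟨c0, fun i j => (ipψ _ i).trans ((congrArg _ (lc j)).trans (du i j)), fun t ht => by
      rw [ip_eq, N_eq, P_eq]
      exact hc _ (tst_ofW t) fun j => (ipψ _ j).symm.trans (ht j)⟩
  have e2 : ∀ j, e j * e j = 1 := fun j => by rcases he j with h | h <;> simp [h]
  have tr : ∀ (μ : κ → ℝ) s, ∀ x ∈ (T.core v).U s, ∑ j, μ j • TRg (g v s x) (ψ j s x) =
      ∑ j, (μ j * e j) • ψ j s x := fun μ s x hx =>
    Finset.sum_congr rfl fun j _ => by rw [eig j s x hx, smul_smul]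
  have cs : ∀ (μ : κ → ℝ) s I x, d.pb.c (∑ j, μ j • (toT (tψ j)).1) s I x =
      (∑ j, μ j • ψ j s x) (I 0) (I 1) := fun μ s I x => by
    simp only [map_sum, map_smul, Finset.sum_apply, Pi.smul_apply, Matrix.sum_apply,
      Matrix.smul_apply]
    rfl
  refine ⟨fun w => ∃ u, d.pb.Cl u ∧ w = ofW u, ?_, ?_, fun F θ N hF h4 hN hθ => ?_, ?_⟩
  · rintro _ _ ⟨u, hu, rfl⟩ ⟨u', hu', rfl⟩
    exact ⟨u + u', by simpa using ok.cl_lc hu hu' 1 1, rfl⟩
  · rintro b _ ⟨u, hu, rfl⟩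
    exact ⟨b • u, by simpa using ok.cl_lc hu hu b 0, rfl⟩
  · have N0 : 0 ≤ N := (norm_nonneg _).trans hθ
    have E1 : 1 ≤ Real.exp (σ * T0) := Real.one_le_exp (by positivity)
    obtain ⟨u, μ, cl, eq, hθ', hμ, f, r, hf, hr, hl⟩ := ok.solve fam (p := p)
      (le_of_eq_of_le (Finset.sum_congr rfl fun j _ => congrArg _ ((N_eq d _ _).trans
        (congrArg (fun z => NK T g v _ z z) (lc j)))) hp) (toW hF) (A := C1 * Real.exp (σ * T0) * N)
      (by positivity) (fun t => by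
        rw [ip_eq, N_eq]
        exact src F N N0 hF h4 (fun s x hx a b => by
          simpa using (hN s x hx trivial a b).bdd (mem_ball_self one_pos)) _ (tst_ofW t)) θ
    have b0 : 0 ≤ bC c q p := by unfold bC; positivity
    set B := bC c q p * max (C1 * Real.exp (σ * T0) * N) ‖θ‖
    have B0 : 0 ≤ B := (norm_nonneg _).trans hμ
    have hB : B ≤ bC c q p * (C1 + 1) * (Real.exp (σ * T0) * N) := by
      rw [mul_assoc]
      refine mul_le_mul_of_nonneg_left (max_le ?_ (hθ.trans ?_)) b0 <;>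
        nlinarith [mul_nonneg hC1 (mul_nonneg (zero_le_one.trans E1) N0), mul_nonneg N0
          (sub_nonneg.2 E1)]
    have s0 := Real.sqrt_nonneg (2 * C2)
    have eq' : ∀ s, ∀ x ∈ (T.core v).U s,
        Pop (gb T g T0 v s) (ofW u s) x = F s x + ∑ j, μ j • ψ j s x := fun s x hx => by
      ext i j
      have := eq s ![i, j] x hx
      rw [map_add, Pi.add_apply, Pi.add_apply, Pi.add_apply, cs] at this
      exact this
    have hS : ‖μ‖ ≤ (1 + √(2 * C2)) * B := hμ.trans (le_mul_of_one_le_left B0 (by linarith))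
    obtain ⟨gr, bd⟩ := fin (ofW u) F μ N ((1 + √(2 * C2)) * B) N0 (by positivity) (sec_ofW u) hF
      h4 hN hS eq' fun s x hx i j => by
        have sp := scl_pos ((h.core_pou v).sub s hx)
        refine (cell_lim d h ok hf hl hx i j fun t ht => cel t ht s x hx i j).trans ?_
        have : scl T s x ^ (-(2 * σ)) = (scl T s x ^ (-σ)) ^ 2 := by
          rw [← Real.rpow_natCast, ← Real.rpow_mul sp.le]; congr 1; push_cast; ring
        rw [this, mul_pow, mul_pow]
        calc _ ≤ 2 * (C2 * (scl T s x ^ (-σ)) ^ 2) * B ^ 2 := by gcongr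
          _ = √(2 * C2) ^ 2 * B ^ 2 * (scl T s x ^ (-σ)) ^ 2 := by
            rw [Real.sq_sqrt (by positivity)]; ring
          _ ≤ _ := by gcongr; linarith
    set C' := (1 + √(2 * C2)) * (bC c q p * (C1 + 1))
    have C0 : 0 ≤ C' := by positivity
    have hS' : (1 + √(2 * C2)) * B ≤ C' * (Real.exp (σ * T0) * N) := by
      rw [mul_assoc]; gcongr
    have E2 : Real.exp (2 * σ * T0) = Real.exp (σ * T0) * Real.exp (σ * T0) := by
      rw [← Real.exp_add]; congr 1; ring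
    set E := Real.exp (σ * T0)
    have n1 : N ≤ E * E * N := le_mul_of_one_le_left N0 (one_le_mul_of_one_le_of_one_le E1 E1)
    have n2 : E * N ≤ E * E * N := by gcongr; exact le_mul_of_one_le_left (by linarith) E1
    have n3 : 0 ≤ E * E * N := N0.trans n1
    refine ⟨ofW u, fun j => μ j * e j, sec_ofW u, ⟨u, cl, rfl⟩, gr, fun s x hx => ?_,
      fun j => (ipψ u j).symm.trans (hθ' j), fun s x hx hJ i j => (bd s x hx hJ i j).mono ?_, ?_⟩
    · simp only [eq' s x hx, tr _ s x hx, mul_assoc, e2, mul_one]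
    · rw [E2]
      calc _ ≤ C3 * (E * E * N + C' * (E * N) * E) := by gcongr
        _ = (C3 + C3 * C') * (E * E) * N := by ring
        _ ≤ _ := by gcongr; linarith
    · rw [E2]
      calc _ ≤ ‖μ‖ := (pi_norm_le_iff_of_nonneg (norm_nonneg _)).2 fun j => by
            rcases he j with h | h <;> simpa [h] using norm_le_pi_norm μ j
        _ ≤ C' * (E * E * N) := (hS.trans hS').trans (by gcongr)
        _ ≤ _ := by nlinarith [mul_nonneg hC3 n3, mul_nonneg (mul_nonneg hC3 C0) n3]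
  · rintro _ μ - ⟨u, hu, rfl⟩ eq h0
    obtain ⟨z, z'⟩ := ok.uniq fam hu (μ := fun j => μ j * e j) (fun s I x hx => by
      rw [cs, ← tr μ s x hx, ← eq s x hx]; rfl) fun j => (ipψ u j).trans (h0 j)
    refine ⟨fun s x hx => Matrix.ext fun i j => z s _ x hx, funext fun j => ?_⟩
    have := congrArg (· * e j) (congrFun z' j)
    simpa [mul_assoc, e2] using this

variable {γ : ℝ} {κ : T.V → Type} [∀ v, Fintype (κ v)] {ψ : ∀ v, κ v → Fam T}

/-- **`KLin`** from the analytic leaves -/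
theorem klin_of (h : T.Ok) (hL : T.Lim g γ) (hγ : 0 < γ) (hσ : 0 < σ) (hS : SRC T g σ)
    (hC : CEL T g σ) (hF : FIN T g σ) (hE : EIG T g κ ψ) (hD : DUAL T g κ ψ)
    (hc : COER T g κ ψ σ) : KLin T g κ ψ σ := fun k => by
  obtain ⟨T1, c, q, hT, c0, q0, hψ, hc⟩ := hc
  obtain ⟨Tb, -, -, hb, -⟩ := gbj h hL hγ
  obtain ⟨Ts, C1, hC1, hS⟩ := hS T1 hT
  obtain ⟨C2, hC2, hC⟩ := hC T1 hT fun v => cmp_of (dat h hT (hL.met v) (hb v _ (le_max_left Tb T1)))
    (ok_of _ q0 (hc v _ (le_max_right Tb T1)).1)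
  choose Tf C3 hC3 hF using fun v => hF (κ v) v (ψ v) T1 k (hψ.sec v) (hψ.supp v)
  choose e he eig using hE
  choose a du using hD
  obtain ⟨Tm, hTm⟩ := (Set.finite_range Tf).bddAbove
  let p : T.V → ℝ := fun v =>
    ∑ j, √(NK T g v (eta T v σ T1) (∑ l, a v j l • ψ v l) (∑ l, a v j l • ψ v l))
  have p0 : ∀ v, 0 ≤ p v := fun v => Finset.sum_nonneg fun _ _ => Real.sqrt_nonneg _
  obtain ⟨C, hCm⟩ := (Set.finite_range fun v =>
    C3 v + (C3 v + 1) * ((1 + √(2 * C2)) * (bC c q (p v) * (C1 + 1)))).bddAbove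
  refine ⟨max C 1, max (max T1 Tb) (max (max Ts Tm) 0), by positivity, ⟨hψ.sec, fun v j =>
    van_mono (hψ.supp v j) ((le_max_left _ _).trans (le_max_left _ _))⟩, fun v T0 hT0 => ?_⟩
  simp only [max_le_iff] at hT0
  obtain ⟨⟨t1, t2⟩, ⟨t3, t4⟩, t5⟩ := hT0
  obtain ⟨En, hk⟩ := kat (k := k) h (hL.met v) (hb v T0 t2) hσ hT t1 t5 (hψ.sec v) (hψ.supp v)
    (he v) (eig v) (du v) c0 q0 (p0 v) hC1 hC2 (hC3 v).le le_rfl (hc v T0 t1).1 (hc v T0 t1).2
    (hS v T0 t3) (hC v) (hF v T0 ((hTm ⟨v, rfl⟩).trans t4))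
  exact ⟨En, KAt.mono hk (mul_le_mul_of_nonneg_right ((hCm ⟨v, rfl⟩).trans (le_max_left _ _))
    (Real.exp_pos _).le)⟩

end Crest.Agent.N207.K

end
end

-- ▼ part N207/K/Cel
section

/-!
# Row 207, block K (helper62): the leaf `CEL`
-/

set_option autoImplicit false

open scoped ContDiff
open Metric Set Filter Topology MeasureTheory
open Crest.GeometryTopology.CoordMetric
open Crest.Agent.NLib.Ell Crest.Agent.N207.I Crest.Agent.N207.I.TD Crest.Agent.N207.CB

noncomputable section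

namespace Crest.Agent.N207.K

namespace Ce

theorem cell_le {U : Set E4} {F u : E4 → ℝ} {x : E4} {ρ c : ℝ} (hρ : 0 < ρ) (hc : 0 ≤ c)
    (hU : MeasurableSet U) (hF : IntegrableOn F U) (h0 : ∀ z ∈ U, 0 ≤ F z)
    (hs : ∀ y ∈ ball (0 : E4) (9 / 8), x + ρ • y ∈ U ∧ u (x + ρ • y) ^ 2 ≤ c * F (x + ρ • y)) :
    ∫ y in ball (0 : E4) (9 / 8), u (x + ρ • y) ^ 2 ≤ c / ρ ^ 4 * ∫ z in U, F z := by
  have hd : ∀ z ∈ ball (0 : E4) (9 / 8), HasFDerivWithinAt (fun z : E4 => x + ρ • z)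
      (ρ • ContinuousLinearMap.id ℝ E4) (ball 0 (9 / 8)) z := fun z _ =>
    (((hasFDerivAt_id z).const_smul ρ).const_add x).hasFDerivWithinAt
  have inj : InjOn (fun z : E4 => x + ρ • z) (ball 0 (9 / 8)) :=
    fun z _ z' _ h => smul_right_injective _ hρ.ne' (add_left_cancel h)
  have dt : |(ρ • ContinuousLinearMap.id ℝ E4).det| = ρ ^ 4 := by
    rw [ContinuousLinearMap.det, ContinuousLinearMap.toLinearMap_smul, LinearMap.det_smul]
    simp [abs_of_pos hρ]
  have sU : (fun z : E4 => x + ρ • z) '' ball 0 (9 / 8) ⊆ U := by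
    rintro _ ⟨y, hy, rfl⟩; exact (hs y hy).1
  have i1 := (integrableOn_image_iff_integrableOn_abs_det_fderiv_smul volume measurableSet_ball hd
    inj F).1 (hF.mono_set sU)
  have e1 := integral_image_eq_integral_abs_det_fderiv_smul volume measurableSet_ball hd inj F
  simp only [dt, smul_eq_mul] at i1 e1
  refine (integral_mono_of_nonneg (Eventually.of_forall fun _ => sq_nonneg _)
    (i1.const_mul (c / ρ ^ 4)) ?_).trans ?_
  · filter_upwards [ae_restrict_mem measurableSet_ball] with y hy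
    rw [← mul_assoc, div_mul_cancel₀ _ (by positivity)]
    exact (hs y hy).2
  rw [integral_const_mul, ← e1]
  refine mul_le_mul_of_nonneg_left (setIntegral_mono_set hF ?_ sU.eventuallyLE) (by positivity)
  filter_upwards [ae_restrict_mem hU] with x hx using h0 x hx

theorem nrm {x y : E4} (hy : y ∈ ball (0 : E4) (9 / 8)) :
    55 / 64 * ‖x‖ ≤ ‖x + (‖x‖ / 8) • y‖ ∧ ‖x + (‖x‖ / 8) • y‖ ≤ 73 / 64 * ‖x‖ := by
  have h1 : ‖(‖x‖ / 8) • y‖ ≤ ‖x‖ / 8 * (9 / 8) := by
    rw [norm_smul, Real.norm_of_nonneg (by positivity)]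
    exact mul_le_mul_of_nonneg_left (mem_ball_zero_iff.1 hy).le (by positivity)
  have h2 := norm_add_le x ((‖x‖ / 8) • y)
  have h3 := norm_sub_le (x + (‖x‖ / 8) • y) ((‖x‖ / 8) • y)
  rw [add_sub_cancel_right] at h3
  constructor <;> linarith

theorem eC_nn {k : ℕ} (ρ : ℝ) (t : Tn 4 k) (x : E4) : 0 ≤ eC ρ t t x :=
  Finset.sum_nonneg fun _ _ => add_nonneg (Finset.sum_nonneg fun _ _ => mul_self_nonneg _)
    (div_nonneg (mul_self_nonneg _) (sq_nonneg _))

theorem sq_le {k : ℕ} {ρ : ℝ} (hρ : 0 < ρ) (t : Tn 4 k) (x : E4) (I : Fin k → Fin 4) :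
    t x I ^ 2 ≤ ρ ^ 2 * eC ρ t t x := by
  rw [← div_le_iff₀' (by positivity), pow_two]
  refine le_trans (le_add_of_nonneg_left (Finset.sum_nonneg fun _ _ => mul_self_nonneg _))
    (Finset.single_le_sum (f := fun I => ∑ i, pderiv i (fun y => t y I) x *
      pderiv i (fun y => t y I) x + t x I * t x I / ρ ^ 2) (fun _ _ => ?_) (Finset.mem_univ I))
  exact add_nonneg (Finset.sum_nonneg fun _ _ => mul_self_nonneg _)
    (div_nonneg (mul_self_nonneg _) (sq_nonneg _))

variable {M : Type*} {T : TD M} {g : T.V → Fam T} {v : T.V} {σ T1 γ : ℝ} {t : Fam T}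

theorem ig (h : T.Ok) (hg : (T.core v).IsMet (g v)) (ht : Tst T v t) :
    (T.core v).Intg T.χ (g v) fun a x =>
      eta T v σ T1 a x ^ 2 * eC (scl T a x) (matT (t a)) (matT (t a)) x := by
  obtain ⟨S, h1, h2⟩ := ht.cs
  have ho := h.core_ok v
  obtain ⟨S', h3, h4, h5⟩ := h1.exists_cl ho
  refine Atl.intg_of_cs ho hg (h.core_pou v) h4 (fun a => ((eta_sm a).continuousOn.pow 2).mul ?_)
    ((h2.mono h3).op ho h5 fun b y _ e => ?_)
  · have c := fun I i => (sm_pd (ho.isOpen a) (ht.sec.sec.sm a I) i).continuousOn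
    have c' := fun I => (ht.sec.sec.sm a I).continuousOn
    exact continuousOn_finsetSum _ fun I _ => (continuousOn_finsetSum _ fun i _ =>
      (c I i).mul (c I i)).add (((c' I).mul (c' I)).div ((cont_scl a).continuousOn.pow 2)
        fun x hx => (pow_pos (scl_pos hx) 2).ne')
  · have : ∀ I i, pderiv i (fun z => matT (t b) z I) y = 0 := fun I i => by
      have e' : (fun z => matT (t b) z I) =ᶠ[𝓝 y] fun _ => 0 :=
        e.mono fun z hz => by simp [matT, hz]
      simp [pderiv, e'.fderiv_eq]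
    simp only [eC, this]
    simp [matT, e.self_of_nhds]

theorem NK_le (h : T.Ok) (t : Fam T) (s : T.S) :
    ∫ x in (T.core v).U s, (T.core v).den T.χ (g v) s x *
      (eta T v σ T1 s x ^ 2 * eC (scl T s x) (matT (t s)) (matT (t s)) x) ≤
        NK T g v (eta T v σ T1) t t :=
  Finset.single_le_sum (f := fun s => ∫ x in (T.core v).U s, (T.core v).den T.χ (g v) s x *
      (eta T v σ T1 s x ^ 2 * eC (scl T s x) (matT (t s)) (matT (t s)) x))
    (fun a _ => integral_nonneg fun x => mul_nonneg (Atl.den_nonneg (h.core_pou v) a x)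
      (mul_nonneg (sq_nonneg _) (eC_nn _ _ _))) (Finset.mem_univ s)

theorem NK_nn (h : T.Ok) (t : Fam T) : 0 ≤ NK T g v (eta T v σ T1) t t :=
  Atl.int_nonneg (h.core_ok v) (h.core_pou v) fun _ _ _ => mul_nonneg (sq_nonneg _) (eC_nn _ _ _)

/-- the cells which are not deep lie in a compact set -/
theorem exists_D (h : T.Ok) (v : T.V) (s : T.S) : ∃ D, IsCompact D ∧ D ⊆ (T.core v).U s ∧
    ∀ x ∈ T.cK v s, T.r / 4 ≤ scl T s x → scl T s x ≤ 4 →
      ∀ y ∈ ball (0 : E4) (9 / 8), x + rad T s x • y ∈ D := by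
  have hr := h.r_pos
  have an : ∀ p q : ℝ, IsCompact {z : E4 | p ≤ ‖z‖ ∧ ‖z‖ ≤ q} := fun p q =>
    (isCompact_closedBall (0 : E4) q).of_isClosed_subset
      ((isClosed_le continuous_const continuous_norm).inter
        (isClosed_le continuous_norm continuous_const)) fun _ hz => mem_closedBall_zero_iff.2 hz.2
  rcases s with a | w
  · by_cases e : T.vx a = v
    · refine ⟨closedBall 0 (7 / 4), isCompact_closedBall _ _, fun z hz => mem_core_inl.2
        ⟨e, (mem_closedBall_zero_iff.1 hz).trans_lt (by norm_num)⟩, fun x hx _ _ y hy => ?_⟩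
      refine mem_closedBall_zero_iff.2 ((norm_add_le _ _).trans ?_)
      have := mem_ball_zero_iff.1 hy
      rw [norm_smul, rad, Sum.elim_inl, Real.norm_of_nonneg (by norm_num)]
      linarith [(mem_cK_inl.1 hx).2]
    · exact ⟨∅, isCompact_empty, empty_subset _, fun x hx => absurd (mem_cK_inl.1 hx).1 e⟩
  by_cases e : w = v
  · subst e
    refine ⟨_, an (5 / 4) 5, fun z hz => mem_core_out.2 (by linarith [hz.1]),
      fun x hx _ h2 y hy => ?_⟩
    have := nrm (x := x) hy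
    have := mem_cK_out.1 hx
    simp only [scl, rad, Sum.elim_inr, mem_ofPred_eq] at h2 ⊢
    constructor <;> linarith
  by_cases k : T.kid v w
  · refine ⟨_, an (T.r / 5) (7 / 8 * T.r), fun z hz => (mem_core_inn e).2
      ⟨k, by linarith [hz.1], by linarith [hz.2]⟩, fun x hx h1 _ y hy => ?_⟩
    have := nrm (x := x) hy
    have := ((mem_cK_inn e).1 hx).2.2
    simp only [scl, rad, Sum.elim_inr, mem_ofPred_eq] at h1 ⊢
    constructor <;> linarith
  · exact ⟨∅, isCompact_empty, empty_subset _, fun x hx => absurd ((mem_cK_inn e).1 hx).1 k⟩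

/-- the deep cells -/
theorem deep (h : T.Ok) {w : T.V} {x y : E4} (hx : x ∈ T.cK v (Sum.inr w))
    (hd : ‖x‖ < T.r / 4 ∨ 4 < ‖x‖) (hy : y ∈ ball (0 : E4) (9 / 8)) :
    x + (‖x‖ / 8) • y ∈ T.cK v (Sum.inr w) ∧
      T.χ (Sum.inr w) ((T.core v).c (Sum.inr w) (x + (‖x‖ / 8) • y)) = 1 := by
  have hr := h.r_pos
  have hr1 := h.r_lt
  obtain ⟨h1, h2⟩ := nrm (x := x) hy
  by_cases e : w = v
  · subst e
    have := mem_cK_out.1 hx
    have h3 : 4 < ‖x‖ := hd.resolve_left (by linarith)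
    exact ⟨mem_cK_out.2 (by linarith), by rw [h.core_χ_out w (by linarith), if_pos rfl]⟩
  · obtain ⟨k, h3, h4⟩ := (mem_cK_inn e).1 hx
    have h5 : ‖x‖ < T.r / 4 := hd.resolve_right (by linarith)
    exact ⟨(mem_cK_inn e).2 ⟨k, by linarith, by linarith⟩,
      by rw [h.core_χ_inn k (by linarith) (by linarith), if_pos rfl]⟩

theorem num {a n e E η c d σ u : ℝ} (hσ : 0 < σ) (hσ1 : σ < 1) (ha : 0 < a) (hn : 0 < n)
    (han : n ≤ 2 * a) (he : 0 < e) (hη : e * n ^ (σ - 1) ≤ η) (hc : 0 < c) (hd : c ≤ d)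
    (hE : 0 ≤ E) (hu : u ≤ n ^ 2 * E) :
    u ≤ 16 * a ^ 4 * a ^ (-(2 * σ)) / (c * e ^ 2) * (d * (η ^ 2 * E)) := by
  have h1 : n ^ 2 = n ^ (4 - 2 * σ) * (n ^ (σ - 1)) ^ 2 := by
    rw [← Real.rpow_natCast, ← Real.rpow_natCast, ← Real.rpow_mul hn.le, ← Real.rpow_add hn]
    congr 1; push_cast; ring
  have h2 : n ^ (4 - 2 * σ) ≤ 16 * a ^ 4 * a ^ (-(2 * σ)) := by
    refine (Real.rpow_le_rpow hn.le han (by linarith)).trans ?_
    rw [Real.mul_rpow (by norm_num) ha.le, sub_eq_add_neg, Real.rpow_add ha, mul_assoc]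
    gcongr
    · exact (Real.rpow_le_rpow_of_exponent_le (by norm_num) (by linarith : _ ≤ (4 : ℝ))).trans
        (by norm_num)
    · exact (Real.rpow_natCast a 4).le
  have h3 : (n ^ (σ - 1)) ^ 2 ≤ η ^ 2 / e ^ 2 := by
    rw [← div_pow]
    exact pow_le_pow_left₀ (by positivity) ((le_div_iff₀' he).2 hη) 2
  have h4 : 0 ≤ d := hc.le.trans hd
  calc u ≤ 16 * a ^ 4 * a ^ (-(2 * σ)) * (η ^ 2 / e ^ 2) * E := by
        refine hu.trans ?_
        rw [h1]; gcongr
    _ = 16 * a ^ 4 * a ^ (-(2 * σ)) / (c * e ^ 2) * (c * (η ^ 2 * E)) := by field_simp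
    _ ≤ _ := by gcongr

theorem cel1 (h : T.Ok) (hL : T.Lim g γ) (h0 : 0 < σ) (h1 : σ < 1) (hC : CMP T g σ T1) (v : T.V)
    (s : T.S) : ∃ C : ℝ, ∀ t, Tst T v t → ∀ x ∈ T.cK v s, ∀ a b,
      ∫ y in ball (0 : E4) (9 / 8), t s (x + rad T s x • y) a b ^ 2 ≤
        C * scl T s x ^ (-(2 * σ)) * NK T g v (eta T v σ T1) t t := by
  have hr := h.r_pos
  have ho := h.core_ok v
  obtain ⟨D, d1, d2, d3⟩ := exists_D h v s
  obtain ⟨C, c0, hc⟩ := hC v s D d1 d2
  obtain ⟨c, cp, hp⟩ := lim_pos hL v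
  have := ho.fin s
  have n0 : (0 : ℝ) < Nat.card ((T.core v).Γ s) := by exact_mod_cast Nat.card_pos
  refine ⟨max (16 * C / (T.r / 32) ^ 4) (16 * 8 ^ 4 / ((Nat.card ((T.core v).Γ s) : ℝ)⁻¹ * c ^ 2 *
    Real.exp (-(|T1| + 1)) ^ 2)), fun t ht x hx a b => ?_⟩
  have hN := NK_nn (g := g) (v := v) (σ := σ) (T1 := T1) h t
  have hs := scl_pos ((h.core_pou v).sub s hx)
  by_cases hd : T.r / 4 ≤ scl T s x ∧ scl T s x ≤ 4
  · have e := cell_le (u := fun z => t s z a b) (F := fun z => t s z a b ^ 2) (rad_pos1 hx)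
      zero_le_one d1.measurableSet
      ((((ht.sec.sec.sm s ![a, b]).continuousOn.mono d2).pow 2).integrableOn_compact d1)
      (fun _ _ => sq_nonneg _) fun y hy => ⟨d3 x hx hd.1 hd.2 y hy, (one_mul _).ge⟩
    have e2 : 1 / 16 ≤ scl T s x ^ (-(2 * σ)) := by
      refine le_trans ?_ (Real.rpow_le_rpow_of_nonpos hs hd.2 (by linarith))
      exact le_trans (by norm_num) (Real.rpow_le_rpow_of_exponent_le (by norm_num)
        (by linarith : (-2 : ℝ) ≤ _))
    refine e.trans ((mul_le_mul_of_nonneg_left (hc t ht a b) (by positivity)).trans ?_)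
    rw [← mul_assoc]
    refine mul_le_mul_of_nonneg_right ?_ hN
    calc 1 / rad T s x ^ 4 * C ≤ 1 / (T.r / 32) ^ 4 * C := by
          gcongr; rw [rad_eq]; linarith [hd.1]
      _ = 16 * C / (T.r / 32) ^ 4 * (1 / 16) := by ring
      _ ≤ _ := by gcongr; exact le_max_left _ _
  rcases s with s | w
  · exact absurd ⟨by simp only [scl, Sum.elim_inl]; linarith [h.r_lt], by simp [scl]⟩ hd
  simp only [scl, rad, Sum.elim_inr, not_and_or, not_le] at hd hs ⊢
  have e := cell_le (u := fun z => t (Sum.inr w) z a b) (x := x) (ρ := ‖x‖ / 8)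
    (c := 16 * ‖x‖ ^ 4 * ‖x‖ ^ (-(2 * σ)) / ((Nat.card ((T.core v).Γ (Sum.inr w)) : ℝ)⁻¹ * c ^ 2 *
      Real.exp (-(|T1| + 1)) ^ 2)) (by positivity) (by positivity)
    (ho.isOpen _).measurableSet (ig (σ := σ) (T1 := T1) h (hL.met v) ht (Sum.inr w))
    (fun z _ => mul_nonneg (Atl.den_nonneg (h.core_pou v) _ z)
      (mul_nonneg (sq_nonneg _) (eC_nn _ _ _))) fun y hy => by
      obtain ⟨k1, k2⟩ := deep h hx hd hy
      have k3 := (h.core_pou v).sub _ k1
      have k4 := pos_det (hp ⟨(_, _), k1⟩ 0 (mem_ball_self one_pos)) cp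
      simp only [cpt, smul_zero, add_zero] at k4
      refine ⟨k3, num h0 h1 hs (core_pos k3) (by linarith [(nrm (x := x) hy).2]) (Real.exp_pos _)
        (eta_cmp h h0 h1 k3).1 (by positivity) ?_ (eC_nn _ _ _)
        (sq_le (core_pos k3) (matT (t (Sum.inr w))) _ ![a, b])⟩
      rw [Atl.den, k2, one_mul]
      gcongr
      exact Real.le_sqrt_of_sq_le (by rwa [← pow_mul])
  refine e.trans ((mul_le_mul_of_nonneg_left (NK_le h t _) (by positivity)).trans ?_)
  refine mul_le_mul_of_nonneg_right (le_trans (le_of_eq ?_) (mul_le_mul_of_nonneg_right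
    (le_max_right _ _) (by positivity))) hN
  field_simp

end Ce

/-- **leaf CEL** -/
theorem cel {M : Type*} {T : TD M} {g : T.V → Fam T} {γ σ : ℝ} (h : T.Ok) (hL : T.Lim g γ)
    (h0 : 0 < σ) (h1 : σ < 1) : CEL T g σ := by
  intro T1 _ hC
  choose C hc using Ce.cel1 h hL h0 h1 hC
  obtain ⟨B, hB⟩ := Finite.exists_le fun p : T.V × T.S => C p.1 p.2
  refine ⟨max B 0, le_max_right _ _, fun v t ht s x hx a b => (hc v s t ht x hx a b).trans ?_⟩
  have := scl_pos ((h.core_pou v).sub s hx)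
  exact mul_le_mul_of_nonneg_right (mul_le_mul_of_nonneg_right
    ((hB (v, s)).trans (le_max_left _ _)) (by positivity)) (Ce.NK_nn h t)

end Crest.Agent.N207.K

end
end

-- ▼ part N207/K/Fin
section

/-!
# Row 207, block K (helper21): the leaf `FIN`
-/

set_option autoImplicit false

open scoped ContDiff
open Metric Set Filter Topology MeasureTheory
open Crest.GeometryTopology.CoordMetric
open Crest.Agent.NLib.Ell Crest.Agent.N207.I Crest.Agent.N207.CB Crest.Agent.N207.I.TD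

noncomputable section

namespace Crest.Agent.N207.K

variable {M : Type*} {T : TD M} {g : T.V → Fam T} {σ : ℝ}

/-- the weight on the cells of depth at most `5` -/
theorem scl_reg (h0 : 0 < σ) (h1 : σ < 1) {v : T.V} {T0 : ℝ} (hT : 0 ≤ T0) {s : T.S}
    {x : E4} (hx : x ∈ T.cK v s) (hr : (s, x) ∈ Reg T v T0 5) :
    scl T s x ^ (-σ) ≤ Real.exp 5 * Real.exp (σ * T0) := by
  have o : (1 : ℝ) ≤ Real.exp 5 * Real.exp (σ * T0) :=
    one_le_mul_of_one_le_of_one_le (Real.one_le_exp (by norm_num)) (Real.one_le_exp (by positivity))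
  rcases s with a | u
  · simpa [scl] using o
  by_cases hu : u = v
  · subst hu
    exact (Real.rpow_le_one_of_one_le_of_nonpos (by
      simp only [scl, Sum.elim_inr]; linarith [mem_cK_out.1 hx]) (by linarith)).trans o
  · have h2 := hr u rfl
    simp only [tau, hu, if_false] at h2
    simp only [scl, Sum.elim_inr]
    rw [Real.rpow_def_of_pos ((mem_cK_inn hu).1 hx).2.1, ← Real.exp_add, Real.exp_le_exp]
    nlinarith

theorem fin (h : T.Ok) (h0 : 0 < σ) (h1 : σ < 1) (hE : EST T g) : FIN T g σ := by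
  intro κ _ v ψ T1 k hψ hV
  obtain ⟨Ct, δ, hCt, hδ, hδ8, ht⟩ := trf T h k 2
  choose P hP0 hP using fun j => psb T h k 2 v T1 (ψ j) (hψ j) (hV j)
  obtain ⟨T2, Ce, hCe, he⟩ := hE k δ hδ hδ8
  have hQ : 0 ≤ ∑ j, P j := Finset.sum_nonneg fun j _ => hP0 j
  refine ⟨max T2 0, Ce * (Ct + Ct * ∑ j, P j + Real.exp 5), by positivity,
    fun T0 hT w F μ N S hN hS hw hF hF0 hFN hμ hq hL => ?_⟩
  have hs : ∀ s, ∀ x ∈ T.cK v s, 0 ≤ scl T s x ^ (-σ) := fun s x hx =>
    Real.rpow_nonneg (scl_pos ((h.core_pou v).sub s hx)).le _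
  have E := fun N' (hN' : 0 ≤ N') s x (hx : x ∈ T.cK v s) hH =>
    he v T0 (le_of_max_le_left hT) w (fun s x => F s x + ∑ j, μ j • ψ j s x) N'
      (S * scl T s x ^ (-σ)) hN' (mul_nonneg hS (hs s x hx)) hw hq s x hx hH (hL s x hx)
  have A : ∀ s, ∀ x ∈ T.cK v s, ∀ a b, CKA (1 / 2) B1 (k + 2)
      (Ce * (Ct * N + Ct * (∑ j, P j) * S + S * scl T s x ^ (-σ)))
      fun y => w s (x + rad T s x • y) a b := fun s x hx =>
    E _ (by positivity) s x hx fun y0 hy0 a b => by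
      refine (((ht v F N hF hFN s x hx y0 hy0 a b).add isOpen_ball (CKA.sum isOpen_ball
        Finset.univ fun j _ => (ht v (ψ j) (P j) (hψ j) (hP j) s x hx y0 hy0 a b).const_mul
          isOpen_ball (μ j))).congr isOpen_ball fun y _ => ?_).mono ?_
      · simp only [Matrix.add_apply, Matrix.sum_apply, Matrix.smul_apply, smul_eq_mul, mul_add,
          Finset.mul_sum, mul_left_comm]
      · rw [Finset.mul_sum, Finset.sum_mul]
        refine add_le_add le_rfl (Finset.sum_le_sum fun j _ => ?_)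
        rw [mul_comm]
        exact mul_le_mul_of_nonneg_left ((norm_le_pi_norm μ j).trans hμ)
          (mul_nonneg hCt.le (hP0 j))
  have c0 : ∀ {s x a b K}, (CKA (1 / 2) B1 (k + 2) K fun y => w s (x + rad T s x • y) a b) →
      |w s x a b| ≤ K := fun hK => by simpa using hK.bdd (mem_ball_self one_pos)
  refine ⟨?_, fun s x hx hr a b => ?_⟩
  · set R := 2 * (Real.exp (T0 + 4) + Real.exp T1 + 1) with hR
    have e1 := Real.exp_pos (T0 + 4)
    have e2 := Real.exp_pos T1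
    have hR1 : 1 ≤ R ^ σ := Real.one_le_rpow (by linarith) h0.le
    have hN' : 0 ≤ Ct * N + Ct * (∑ j, P j) * S := by positivity
    refine ⟨Ce * ((Ct * N + Ct * (∑ j, P j) * S) * R ^ σ + S), fun u x hx a b => ?_⟩
    have hx0 : 0 < ‖x‖ := scl_pos ((h.core_pou v).sub _ hx)
    have p0 := Real.rpow_pos_of_pos hx0 (-σ)
    rcases le_total ‖x‖ R with h2 | h2
    · refine (c0 (A _ x hx a b)).trans ?_
      have h3 : 1 ≤ R ^ σ * ‖x‖ ^ (-σ) := by
        rw [Real.rpow_neg hx0.le, ← div_eq_mul_inv, one_le_div (Real.rpow_pos_of_pos hx0 σ)]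
        exact Real.rpow_le_rpow hx0.le h2 h0.le
      rw [mul_assoc Ce, add_mul _ S, mul_assoc _ (R ^ σ)]
      exact mul_le_mul_of_nonneg_left
        (add_le_add (le_mul_of_one_le_right hN' h3) le_rfl) hCe.le
    · obtain rfl : u = v := by_contra fun hu => by
        linarith [((mem_cK_inn hu).1 hx).2.2, h.r_lt]
      refine (c0 (E 0 le_rfl _ x hx (fun y0 hy0 a b => CKA.zero.congr isOpen_ball
        fun y hy => ?_) a b)).trans ?_
      · have n1 : ‖y‖ ≤ 2 := by
          have := norm_add_le (y - y0) y0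
          rw [sub_add_cancel] at this
          linarith [mem_ball_iff_norm.1 hy, mem_ball_zero_iff.1 hy0]
        have n2 : R / 2 ≤ ‖x + rad T (Sum.inr u) x • y‖ := by
          have := norm_sub_le (x + rad T (Sum.inr u) x • y) (rad T (Sum.inr u) x • y)
          rw [add_sub_cancel_right, norm_smul] at this
          simp only [rad, Sum.elim_inr, Real.norm_of_nonneg (by positivity : 0 ≤ ‖x‖ / 8)] at this ⊢
          nlinarith
        generalize x + rad T (Sum.inr u) x • y = z at n2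
        have z1 : 1 < ‖z‖ := by linarith
        have l1 : T0 + 4 ≤ Real.log ‖z‖ := (Real.le_log_iff_exp_le (by linarith)).2 (by linarith)
        have l2 : T1 ≤ Real.log ‖z‖ := (Real.le_log_iff_exp_le (by linarith)).2 (by linarith)
        rw [hF0 u z (mem_core_out.2 z1) (by simp only [tau, if_true]; linarith),
          Finset.sum_eq_zero fun j _ => by
            rw [hV j u z (mem_core_out.2 z1) (by simp only [tau, if_true]; linarith), smul_zero]]
        simp
      · rw [zero_add, mul_assoc]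
        exact mul_le_mul_of_nonneg_left (mul_le_mul_of_nonneg_right
          (le_add_of_nonneg_left (by positivity)) p0.le) hCe.le
  · refine ((A s x hx a b).congr isOpen_ball fun y _ => by rw [pow_zero, one_mul]).mono ?_
    have hT0 : 0 ≤ T0 := le_of_max_le_right hT
    have h2 := mul_le_mul_of_nonneg_left (scl_reg h0 h1 hT0 hx hr) hS
    have h3 : S ≤ S * Real.exp (σ * T0) := le_mul_of_one_le_right hS (Real.one_le_exp (by positivity))
    have h4 := mul_le_mul_of_nonneg_left h3 (mul_nonneg hCt.le hQ)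
    have e5 := Real.exp_pos 5
    rw [mul_left_comm] at h2
    rw [mul_assoc Ce]
    refine mul_le_mul_of_nonneg_left ?_ hCe.le
    generalize S * Real.exp (σ * T0) = Z at *
    have hZ : 0 ≤ Z := hS.trans h3
    nlinarith [mul_nonneg hCt.le hZ, mul_nonneg (mul_nonneg hCt.le hQ) hN, mul_nonneg e5.le hN]

end Crest.Agent.N207.K

end
end

-- ▼ part N207/K/Est

/-!
# Row 207, block K (helper24): **EST**
-/

set_option autoImplicit false

open scoped ContDiff
open Metric Set Filter Topology MeasureTheory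
open Crest.GeometryTopology.CoordMetric
open Crest.Agent.NLib.Ell Crest.Agent.N207.I Crest.Agent.N207.CB

noncomputable section

namespace Crest.Agent.N207.K

variable {M : Type*} {T : TD M} {g : T.V → Fam T} {γ : ℝ}

theorem big_cell (h : T.Ok) {v : T.V} {s : T.S} {x y : E4} (hx : x ∈ T.cK v s) (hy : ‖y‖ ≤ 9 / 8) :
    x + rad T s x • y ∈ (T.core v).U s := by
  cases s with
  | inl a =>
    obtain ⟨h1, h2⟩ := TD.mem_cK_inl.1 hx
    exact TD.mem_core_inl.2 ⟨h1, (Ga.ball_norm h2 hy).trans_lt (by norm_num)⟩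
  | inr w => exact end_cell h hx hy

theorem est_of (h : T.Ok) (hG : GBJ T g) : EST T g := by
  intro k δ hδ hδ1
  obtain ⟨T1, lam, hl, hm, hK⟩ := hG
  obtain ⟨K, hK⟩ := hK (k + 2)
  obtain ⟨C, hC, hP⟩ := psch k lam K δ hl hδ (by linarith)
  refine ⟨T1, 2 / (δ / 2) * C, by positivity, fun v T0 hT w H N S hN hS hw hE s x hx hH hI a b => ?_⟩
  rw [mul_assoc]
  refine CKA.of_local (by norm_num) (by norm_num) (half_pos hδ) (by linarith) fun y0 hy0 => ?_
  have h0 : ‖y0‖ < 1 := mem_ball_zero_iff.1 hy0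
  have h1 : ∀ y ∈ closedBall y0 δ, ‖y‖ < 9 / 8 := fun y hy => by
    linarith [norm_le_of_mem_closedBall hy]
  have h2 : ball y0 δ ⊆ ball (0 : E4) (9 / 8) := fun y hy =>
    mem_ball_zero_iff.2 (h1 y (ball_subset_closedBall hy))
  have hr : 0 < rad T s x := by
    rw [rad_eq]; exact div_pos (scl_pos ((h.core_pou v).sub _ hx)) (by norm_num)
  refine hP _ (w s) _ x y0 _ N S hr hN hS ((hm v T0 hT).riem s) (hw.sec.sm s) (hw.symm s)
    (fun y hy => big_cell h hx (h1 y hy).le) (fun y hy => (hK v T0 hT s x hx).1 y (h2 hy))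
    (fun a b => ((hK v T0 hT s x hx).2 a b).subset h2)
    (fun a b => (hH y0 hy0 a b).congr isOpen_ball fun y hy => by
      rw [hE s _ (big_cell h hx (h1 y (ball_subset_closedBall hy)).le)])
    (fun a b => le_trans (setIntegral_mono_set ?_ (.of_forall fun _ => sq_nonneg _)
      h2.eventuallyLE) (hI a b)) a b
  have hc : ContinuousOn (fun y => w s (x + rad T s x • y) a b ^ 2) (closedBall 0 (9 / 8)) :=
    ((hw.sec.sm s ![a, b]).continuousOn.comp (f := fun y : E4 => x + rad T s x • y) (by fun_prop)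
      fun y hy => big_cell h hx (mem_closedBall_zero_iff.1 hy)).pow 2
  exact (hc.integrableOn_compact (isCompact_closedBall _ _)).mono_set ball_subset_closedBall

/-- **EST** -/
theorem est (h : T.Ok) (hL : T.Lim g γ) (hγ : 0 < γ) : EST T g := est_of h (gbj h hL hγ)

end Crest.Agent.N207.K

end
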