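import Crest.Agent.N207.K.Hd4

/-!
# Row 207, block K (helper5): Hardy and Poincaré inequalities as lower integrals
-/

set_option autoImplicit false
open MeasureTheory Set Filter Topology Metric
open scoped ContDiff ENNReal NNReal Pointwise
open Crest.GeometryTopology.CoordMetric

noncomputable section

namespace Crest.Agent.N207.Hd

/-- `∫_S u²` -/
def L2 (u : E4 → ℝ) (S : Set E4) : ℝ≥0∞ := ∫⁻ x in S, ENNReal.ofReal (u x ^ 2)

/-- `∫_S u²/|x|²` -/
def Lw (u : E4 → ℝ) (S : Set E4) : ℝ≥0∞ := ∫⁻ x in S, ENNReal.ofReal ((‖x‖ ^ 2)⁻¹ * u x ^ 2)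

/-- `∫_S |Du|²` -/
def DD (u : E4 → ℝ) (S : Set E4) : ℝ≥0∞ := ∫⁻ x in S, ENNReal.ofReal (g2 u x)

variable {U S T K : Set E4} {u f : E4 → ℝ} {a c r : ℝ}

theorem L2_mono (h : S ⊆ T) : L2 u S ≤ L2 u T := lintegral_mono_set h
theorem Lw_mono (h : S ⊆ T) : Lw u S ≤ Lw u T := lintegral_mono_set h
theorem DD_mono (h : S ⊆ T) : DD u S ≤ DD u T := lintegral_mono_set h
theorem L2_union (S T : Set E4) : L2 u (S ∪ T) ≤ L2 u S + L2 u T := lintegral_union_le _ _ _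

theorem lint_eq (hK : IsCompact K) (hf : ContinuousOn f K) (h0 : ∀ x, 0 ≤ f x) :
    ∫⁻ x in K, ENNReal.ofReal (f x) = ENNReal.ofReal (∫ x in K, f x) :=
  (ofReal_integral_eq_lintegral_ofReal (hf.integrableOn_compact hK) (Eventually.of_forall h0)).symm

theorem lint_le_mul {g : E4 → ℝ} {C : ℝ} (hS : MeasurableSet S) (hC : 0 ≤ C)
    (h : ∀ x ∈ S, f x ≤ C * g x) :
    ∫⁻ x in S, ENNReal.ofReal (f x) ≤ ENNReal.ofReal C * ∫⁻ x in S, ENNReal.ofReal (g x) := by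
  rw [← lintegral_const_mul' _ _ ENNReal.ofReal_ne_top]
  refine setLIntegral_mono' hS fun x hx => ?_
  rw [← ENNReal.ofReal_mul hC]
  exact ENNReal.ofReal_le_ofReal (h x hx)

theorem Lw_le_L2 (hS : MeasurableSet S) (ha : 0 < a) (h : ∀ x ∈ S, a ≤ ‖x‖) :
    Lw u S ≤ ENNReal.ofReal (a ^ 2)⁻¹ * L2 u S :=
  lint_le_mul hS (by positivity) fun x hx => mul_le_mul_of_nonneg_right
    (inv_anti₀ (by positivity) (pow_le_pow_left₀ ha.le (h x hx) 2)) (sq_nonneg _)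

theorem L2_le_Lw (hS : MeasurableSet S) (h : ∀ x ∈ S, 0 < ‖x‖ ∧ ‖x‖ ≤ c) :
    L2 u S ≤ ENNReal.ofReal (c ^ 2) * Lw u S :=
  lint_le_mul hS (by positivity) fun x hx => by
    have h1 := (h x hx).1
    rw [← mul_assoc]
    refine le_mul_of_one_le_left (sq_nonneg _) ?_
    rw [← div_eq_mul_inv, one_le_div (by positivity)]
    exact pow_le_pow_left₀ h1.le (h x hx).2 2

theorem contOn_w (ha : 0 < a) (hu : ContinuousOn u (An a c)) :
    ContinuousOn (fun x : E4 => (‖x‖ ^ 2)⁻¹ * u x ^ 2) (An a c) :=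
  (((continuous_norm.pow 2).continuousOn).inv₀ fun _ hx =>
    (pow_pos (pos_of_An ha hx) 2).ne').mul (hu.pow 2)

/-- Hardy on a neck, outer collar -/
theorem hardyL {κ : ℝ} (hκ : 1 < κ) : ∃ C : ℝ≥0, ∀ (U : Set E4) (u : E4 → ℝ) (a c : ℝ),
    IsOpen U → ContDiffOn ℝ 1 u U → 0 < a → κ * a ≤ c → An a c ⊆ U →
    Lw u (An (κ * a) (c / κ)) ≤ DD u (An a c) + C * Lw u (An (c / κ) c) := by
  obtain ⟨C, hC, h⟩ := hardy0 hκ
  refine ⟨⟨C, hC⟩, fun U u a c hU hu ha hac hsub => ?_⟩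
  have hκ0 : 0 < κ := by linarith
  have hc : 0 < c := lt_of_lt_of_le (by positivity) hac
  have hac' : a ≤ c / κ := by rw [le_div_iff₀ hκ0, mul_comm]; exact hac
  have s1 : An (κ * a) (c / κ) ⊆ An a c := An_mono (by nlinarith) (div_le_self hc.le hκ.le)
  have s2 : An (c / κ) c ⊆ An a c := An_mono hac' le_rfl
  have c1 := contOn_w ha (hu.continuousOn.mono hsub)
  have p : ∀ x : E4, 0 ≤ (‖x‖ ^ 2)⁻¹ * u x ^ 2 := fun x => by positivity
  rw [Lw, Lw, DD, lint_eq (isCompact_An _ _) (c1.mono s1) p, lint_eq (isCompact_An _ _) (c1.mono s2) p,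
    lint_eq (isCompact_An _ _) ((contOn_g2 hU hu).mono hsub) (g2_nonneg u),
    ENNReal.coe_nnreal_eq, ← ENNReal.ofReal_mul (NNReal.coe_nonneg _),
    ← ENNReal.ofReal_add (integral_nonneg (g2_nonneg u))
      (mul_nonneg (NNReal.coe_nonneg _) (integral_nonneg p))]
  exact ENNReal.ofReal_le_ofReal (h U u a c hU hu ha hac hsub)

/-- Hardy on an infinite end -/
theorem hardyL_end {κ : ℝ} (hκ : 1 < κ) (hU : IsOpen U) (hu : ContDiffOn ℝ 1 u U) (ha : 0 < a)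
    (hsub : {x | a ≤ ‖x‖} ⊆ U) {R : ℝ} (hf : Lw u {x | R ≤ ‖x‖} ≠ ⊤) :
    Lw u {x | κ * a ≤ ‖x‖} ≤ DD u {x | a ≤ ‖x‖} := by
  obtain ⟨C, h⟩ := hardyL hκ
  have hκ0 : 0 < κ := by linarith
  let ν : Measure E4 := volume.withDensity fun x => ENNReal.ofReal ((‖x‖ ^ 2)⁻¹ * u x ^ 2)
  have hν : ∀ S, MeasurableSet S → Lw u S = ν S := fun S hS => (withDensity_apply _ hS).symm
  have mc : ∀ t : ℝ, MeasurableSet {x : E4 | t ≤ ‖x‖} := fun t =>
    (isClosed_le continuous_const continuous_norm).measurableSet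
  have t1 : Tendsto (fun t : ℝ => ν {x | t ≤ ‖x‖}) atTop (𝓝 0) := by
    have := tendsto_measure_iInter_atTop (μ := ν) (s := fun t : ℝ => {x : E4 | t ≤ ‖x‖})
      (fun t => (mc t).nullMeasurableSet) (fun s t hst x hx => le_trans hst hx)
      ⟨R, hν _ (mc R) ▸ hf⟩
    have e : ⋂ t : ℝ, {x : E4 | t ≤ ‖x‖} = ∅ := eq_empty_of_forall_notMem fun x hx => by
      have := mem_iInter.1 hx (‖x‖ + 1)
      simp only [mem_ofPred_eq] at this
      linarith
    rwa [e, measure_empty] at this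
  have t2 : Tendsto (fun t : ℝ => ν (An (κ * a) t)) atTop (𝓝 (ν {x | κ * a ≤ ‖x‖})) := by
    have := tendsto_measure_iUnion_atTop (μ := ν) (s := fun t : ℝ => An (κ * a) t)
      fun s t hst => An_mono le_rfl hst
    have e : ⋃ t : ℝ, An (κ * a) t = {x | κ * a ≤ ‖x‖} := by
      ext x
      simp only [mem_iUnion, An, mem_ofPred_eq]
      exact ⟨fun ⟨_, h⟩ => h.1, fun h => ⟨_, h, le_rfl⟩⟩
    rwa [e] at this
  have t3 : Tendsto (fun t : ℝ => DD u {x | a ≤ ‖x‖} + C * ν {x | t ≤ ‖x‖}) atTop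
      (𝓝 (DD u {x | a ≤ ‖x‖} + C * 0)) :=
    tendsto_const_nhds.add (ENNReal.Tendsto.const_mul t1 (Or.inr ENNReal.coe_ne_top))
  rw [mul_zero, add_zero] at t3
  rw [hν _ (mc _)]
  refine le_of_tendsto_of_tendsto t2 t3 ?_
  filter_upwards [eventually_ge_atTop a] with t ht
  have h1 := h U u a (κ * t) hU hu ha (by nlinarith) fun x hx => hsub hx.1
  rw [mul_div_cancel_left₀ t hκ0.ne'] at h1
  rw [← hν _ (measurableSet_An _ _), ← hν _ (mc _)]
  refine h1.trans (add_le_add (DD_mono fun x hx => hx.1) ?_)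
  exact mul_le_mul_right (Lw_mono fun x hx => hx.1) _

/-! ### translations and dilations -/

theorem lint_affine (y : E4) {t : ℝ} (ht : 0 < t) (F : E4 → ℝ≥0∞) (hS : MeasurableSet S) :
    ∫⁻ x in (fun z => y + t • z) '' S, F x = ENNReal.ofReal (t ^ 4) * ∫⁻ z in S, F (y + t • z) := by
  have hd : ∀ z ∈ S, HasFDerivWithinAt (fun z : E4 => y + t • z)
      (t • ContinuousLinearMap.id ℝ E4) S z := fun z _ =>
    (((hasFDerivAt_id z).const_smul t).const_add y).hasFDerivWithinAt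
  rw [lintegral_image_eq_lintegral_abs_det_fderiv_mul volume hS hd
    fun z _ z' _ h => smul_right_injective _ ht.ne' (add_left_cancel h),
    ← lintegral_const_mul' _ _ ENNReal.ofReal_ne_top]
  have : (t • ContinuousLinearMap.id ℝ E4).det = t ^ 4 := by
    rw [ContinuousLinearMap.det, ContinuousLinearMap.toLinearMap_smul, LinearMap.det_smul]
    simp
  rw [this, abs_of_pos (by positivity)]

theorem g2_affine (y : E4) (t : ℝ) {z : E4} (hu : DifferentiableAt ℝ u (y + t • z)) :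
    g2 (fun z => u (y + t • z)) z = t ^ 2 * g2 u (y + t • z) := by
  have h := (hu.hasFDerivAt.comp z (((hasFDerivAt_id z).const_smul t).const_add y)).fderiv
  have e : (fun z => u (y + t • z)) = u ∘ fun z => y + t • z := rfl
  simp only [g2, pderiv, Finset.mul_sum]
  refine Finset.sum_congr rfl fun i _ => ?_
  rw [e]
  erw [h]
  simp [mul_pow]

theorem cd_affine {n : WithTop ℕ∞} (y : E4) (t : ℝ) (hu : ContDiffOn ℝ n u U) :
    ContDiffOn ℝ n (fun z => u (y + t • z)) ((fun z => y + t • z) ⁻¹' U) :=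
  hu.comp (contDiff_const.add (contDiff_id.const_smul t)).contDiffOn fun _ hz => hz

theorem op_affine (y : E4) (t : ℝ) (hU : IsOpen U) : IsOpen ((fun z : E4 => y + t • z) ⁻¹' U) :=
  hU.preimage (by fun_prop)

theorem L2_affine (y : E4) {t : ℝ} (ht : 0 < t) (hS : MeasurableSet S) :
    L2 u ((fun z => y + t • z) '' S) = ENNReal.ofReal (t ^ 4) * L2 (fun z => u (y + t • z)) S :=
  lint_affine y ht _ hS

theorem DD_affine (y : E4) {t : ℝ} (ht : 0 < t) (hS : MeasurableSet S) (hU : IsOpen U)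
    (hu : ContDiffOn ℝ 1 u U) (hsub : (fun z => y + t • z) '' S ⊆ U) :
    DD u ((fun z => y + t • z) '' S) = ENNReal.ofReal (t ^ 2) * DD (fun z => u (y + t • z)) S := by
  rw [DD, lint_affine y ht _ hS, DD, ← lintegral_const_mul' _ _ ENNReal.ofReal_ne_top,
    ← lintegral_const_mul' _ _ ENNReal.ofReal_ne_top]
  refine setLIntegral_congr_fun hS fun z hz => ?_
  have hd := (hu.contDiffAt (hU.mem_nhds (hsub ⟨z, hz, rfl⟩))).differentiableAt one_ne_zero
  simp only [g2_affine y t hd]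
  rw [← ENNReal.ofReal_mul (by positivity), ← ENNReal.ofReal_mul (by positivity)]
  congr 1; ring

theorem Lw_dil {t : ℝ} (ht : 0 < t) (hS : MeasurableSet S) :
    Lw u ((fun z => 0 + t • z) '' S) = ENNReal.ofReal (t ^ 2) * Lw (fun z => u (0 + t • z)) S := by
  rw [Lw, lint_affine 0 ht _ hS, Lw, ← lintegral_const_mul' _ _ ENNReal.ofReal_ne_top,
    ← lintegral_const_mul' _ _ ENNReal.ofReal_ne_top]
  refine lintegral_congr fun z => ?_
  rw [← ENNReal.ofReal_mul (by positivity), ← ENNReal.ofReal_mul (by positivity)]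
  congr 1
  rw [zero_add, norm_smul, Real.norm_of_nonneg ht.le, mul_pow, mul_inv]
  field_simp

theorem img_An {t : ℝ} (ht : 0 < t) (y : E4) (a c : ℝ) :
    (fun z => y + t • z) '' An a c = {x | t * a ≤ ‖x - y‖ ∧ ‖x - y‖ ≤ t * c} := by
  ext x
  constructor
  · rintro ⟨z, hz, rfl⟩
    simp only [mem_ofPred_eq, add_sub_cancel_left, norm_smul, Real.norm_of_nonneg ht.le]
    exact ⟨mul_le_mul_of_nonneg_left hz.1 ht.le, mul_le_mul_of_nonneg_left hz.2 ht.le⟩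
  · intro hx
    refine ⟨t⁻¹ • (x - y), ?_, by simp [smul_smul, ht.ne']⟩
    simp only [An, mem_ofPred_eq, norm_smul, Real.norm_of_nonneg (inv_pos.2 ht).le]
    rw [le_inv_mul_iff₀ ht, inv_mul_le_iff₀ ht]
    exact hx

theorem img_An0 {t : ℝ} (ht : 0 < t) (a c : ℝ) :
    (fun z => 0 + t • z) '' An a c = An (t * a) (t * c) := by
  rw [img_An ht]; simp only [sub_zero]; rfl

/-! ### Poincaré inequality on balls -/

theorem ball_poinc0 {δ ρ : ℝ} (hδ : 0 < δ) (hρ : δ ≤ ρ) : ∃ C : ℝ≥0, ∀ (U : Set E4) (u : E4 → ℝ),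
    IsOpen U → ContDiffOn ℝ 1 u U → An (δ / 4) (2 * ρ) ⊆ U →
    L2 u (An (δ / 2) ρ) ≤ C * (DD u (An (δ / 4) (2 * ρ)) + L2 u (An (δ / 4) (δ / 2))) := by
  obtain ⟨C, hC, h⟩ := hardy_neck (κ := 2) one_lt_two
  have hρ0 : 0 < ρ := hδ.trans_le hρ
  set m : ℝ := ((δ / 4) ^ 2)⁻¹ with hm
  have m0 : 0 < m := by positivity
  set D : ℝ := (ρ ^ 2) ^ 3 * (m ^ 2 + C * m ^ 3) with hD
  have D0 : 0 ≤ D := by positivity
  refine ⟨⟨D, D0⟩, fun U u hU hu hsub => ?_⟩
  have ha : 0 < δ / 4 := by positivity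
  have h1 := h U u (δ / 4) (2 * ρ) (-2) hU hu ha (by linarith) hsub
  have h2 := int_dr_le hU hu ha hsub (-2)
  rw [show 2 * (δ / 4) = δ / 2 by ring, show 2 * ρ / 2 = ρ by ring, if_neg (by norm_num)] at h1
  have e3 : ∀ s : ℝ, s ^ ((-2 : ℝ) - 1) = (s ^ 3)⁻¹ := fun s => by
    rw [show (-2 : ℝ) - 1 = ((-3 : ℤ) : ℝ) by norm_num, Real.rpow_intCast]; rfl
  have e2 : ∀ s : ℝ, s ^ (-2 : ℝ) = (s ^ 2)⁻¹ := fun s => by
    rw [show (-2 : ℝ) = ((-2 : ℤ) : ℝ) by norm_num, Real.rpow_intCast]; rfl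
  have s1 : An (δ / 2) ρ ⊆ An (δ / 4) (2 * ρ) := An_mono (by linarith) (by linarith)
  have s2 : An (δ / 4) (δ / 2) ⊆ An (δ / 4) (2 * ρ) := An_mono le_rfl (by linarith)
  have cu : ContinuousOn (fun x => u x ^ 2) (An (δ / 4) (2 * ρ)) :=
    (hu.continuousOn.mono hsub).pow 2
  have cg := (contOn_g2 hU hu).mono hsub
  have cw := fun p => contOn_wt (c := 2 * ρ) ha p
  have lo : ∀ x ∈ An (δ / 4) (2 * ρ), (‖x‖ ^ 2)⁻¹ ≤ m := fun x hx =>
    inv_anti₀ (by positivity) (pow_le_pow_left₀ ha.le hx.1 2)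
  have i1 : ∫ x in An (δ / 2) ρ, u x ^ 2 ≤
      (ρ ^ 2) ^ 3 * ∫ x in An (δ / 2) ρ, (‖x‖ ^ 2) ^ ((-2 : ℝ) - 1) * u x ^ 2 := by
    rw [← integral_const_mul]
    refine setIntegral_mono_on ((cu.mono s1).integrableOn_compact (isCompact_An _ _))
      (((((cw _).mul cu).mono s1).integrableOn_compact (isCompact_An _ _)).const_mul _)
      (measurableSet_An _ _) fun x hx => ?_
    have := pos_of_An ha (s1 hx)
    rw [e3, ← mul_assoc]
    refine le_mul_of_one_le_left (sq_nonneg _) ?_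
    rw [← div_eq_mul_inv, one_le_div (by positivity)]
    exact pow_le_pow_left₀ (by positivity) (pow_le_pow_left₀ this.le hx.2 2) 3
  have i2 : ∫ x in An (δ / 4) (2 * ρ), (‖x‖ ^ 2) ^ (-2 : ℝ) * g2 u x ≤
      m ^ 2 * ∫ x in An (δ / 4) (2 * ρ), g2 u x := by
    rw [← integral_const_mul]
    refine setIntegral_mono_on (((cw _).mul cg).integrableOn_compact (isCompact_An _ _))
      ((cg.integrableOn_compact (isCompact_An _ _)).const_mul _)
      (measurableSet_An _ _) fun x hx => mul_le_mul_of_nonneg_right ?_ (g2_nonneg u x)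
    rw [e2, ← inv_pow]
    exact pow_le_pow_left₀ (by positivity) (lo x hx) 2
  have i3 : ∫ x in An (δ / 4) (δ / 2), (‖x‖ ^ 2) ^ ((-2 : ℝ) - 1) * u x ^ 2 ≤
      m ^ 3 * ∫ x in An (δ / 4) (δ / 2), u x ^ 2 := by
    rw [← integral_const_mul]
    refine setIntegral_mono_on ((((cw _).mul cu).mono s2).integrableOn_compact (isCompact_An _ _))
      (((cu.mono s2).integrableOn_compact (isCompact_An _ _)).const_mul _)
      (measurableSet_An _ _) fun x hx => mul_le_mul_of_nonneg_right ?_ (sq_nonneg _)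
    rw [e3, ← inv_pow]
    exact pow_le_pow_left₀ (by positivity) (lo x (s2 hx)) 3
  have p : ∀ x, 0 ≤ u x ^ 2 := fun x => sq_nonneg _
  have n1 : 0 ≤ ∫ x in An (δ / 4) (2 * ρ), g2 u x := integral_nonneg (g2_nonneg u)
  have n2 : 0 ≤ ∫ x in An (δ / 4) (δ / 2), u x ^ 2 := integral_nonneg p
  rw [L2, L2, DD, lint_eq (isCompact_An _ _) (cu.mono s1) p, lint_eq (isCompact_An _ _) (cu.mono s2) p,
    lint_eq (isCompact_An _ _) cg (g2_nonneg u), ← ENNReal.ofReal_add n1 n2,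
    ENNReal.coe_nnreal_eq, ← ENNReal.ofReal_mul (NNReal.coe_nonneg _)]
  refine ENNReal.ofReal_le_ofReal (i1.trans ?_)
  change _ ≤ D * _
  rw [hD, mul_assoc]
  refine mul_le_mul_of_nonneg_left ?_ (by positivity)
  have := mul_le_mul_of_nonneg_left i3 hC
  have q1 : 0 ≤ C * m ^ 3 * ∫ x in An (δ / 4) (2 * ρ), g2 u x := by positivity
  have q2 : 0 ≤ m ^ 2 * ∫ x in An (δ / 4) (δ / 2), u x ^ 2 := by positivity
  rw [show (1 + -2 : ℝ) ^ 2 = 1 by norm_num, show |(1 + -2 : ℝ)| = 1 by norm_num, one_mul,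
    mul_one] at h1
  nlinarith

/-- `∫_(B(y,ρ)) u² ≤ C (∫_(B(y,2ρ)) |Du|² + ∫_(B(y,δ)) u²)` -/
theorem ball_poinc {δ ρ : ℝ} (hδ : 0 < δ) (hρ : δ ≤ ρ) : ∃ C : ℝ≥0, ∀ (U : Set E4) (u : E4 → ℝ)
    (y : E4), IsOpen U → ContDiffOn ℝ 1 u U → closedBall y (2 * ρ) ⊆ U →
    L2 u (ball y ρ) ≤ C * (DD u (closedBall y (2 * ρ)) + L2 u (ball y δ)) := by
  obtain ⟨C, h⟩ := ball_poinc0 hδ hρ
  refine ⟨C + 1, fun U u y hU hu hsub => ?_⟩
  have s0 : (fun z => y + (1 : ℝ) • z) '' An (δ / 4) (2 * ρ) ⊆ closedBall y (2 * ρ) := by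
    rw [img_An one_pos]
    exact fun x hx => mem_closedBall_iff_norm.2 (by simpa using hx.2)
  have h1 := h _ _ (op_affine y 1 hU) (cd_affine y 1 hu) fun z hz => hsub (s0 ⟨z, hz, rfl⟩)
  have e1 := L2_affine (u := u) y one_pos (measurableSet_An (δ / 2) ρ)
  have e2 := L2_affine (u := u) y one_pos (measurableSet_An (δ / 4) (δ / 2))
  have e3 := DD_affine y one_pos (measurableSet_An (δ / 4) (2 * ρ)) hU hu (s0.trans hsub)
  simp only [one_pow, ENNReal.ofReal_one, one_mul] at e1 e2 e3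
  rw [← e1, ← e2, ← e3] at h1
  have s1 : ball y ρ ⊆ (fun z => y + (1 : ℝ) • z) '' An (δ / 2) ρ ∪ ball y δ := fun x hx => by
    rw [img_An one_pos]
    by_cases h2 : ‖x - y‖ < δ
    · exact Or.inr (mem_ball_iff_norm.2 h2)
    · exact Or.inl ⟨by linarith, by linarith [mem_ball_iff_norm.1 hx]⟩
  have s2 : (fun z => y + (1 : ℝ) • z) '' An (δ / 4) (δ / 2) ⊆ ball y δ := by
    rw [img_An one_pos]
    exact fun x hx => mem_ball_iff_norm.2 (by linarith [hx.2])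
  refine ((L2_mono s1).trans (L2_union _ _)).trans ?_
  rw [ENNReal.coe_add, add_mul, ENNReal.coe_one, one_mul]
  exact add_le_add (h1.trans (mul_le_mul_right (add_le_add (DD_mono s0) (L2_mono s2)) _))
    le_add_self

end Crest.Agent.N207.Hd

end
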