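import Crest.Agent.N207.K.KSt
import Crest.Agent.N207.K.Pop2

/-!
# Row 207, block K (helper1): the linear problem on a core as an instance of `Dat`
-/

set_option autoImplicit false

open scoped ContDiff
open Metric Set Filter Topology MeasureTheory
open Crest.GeometryTopology.CoordMetric
open Crest.Agent.NLib.Ell Crest.Agent.N207.I Crest.Agent.N207.CB Crest.Agent.R249.EV

noncomputable section

namespace Crest.Agent.N207.K

open Sys

section EC

variable {k : ℕ} {ρ : ℝ} {U : Set E4} {s s' t : Tn 4 k} {y : E4}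

theorem eC_self (ρ : ℝ) (s : Tn 4 k) (y : E4) : eC ρ s s y =
    (∑ I, s y I ^ 2) / ρ ^ 2 + ∑ i, ∑ I, pderiv i (fun z => s z I) y ^ 2 := by
  rw [Finset.sum_comm, Finset.sum_div, ← Finset.sum_add_distrib]
  simp only [eC, sq, add_comm]

theorem eC_nonneg (ρ : ℝ) (s : Tn 4 k) (y : E4) : 0 ≤ eC ρ s s y := by
  rw [eC_self]; positivity

theorem sum_le_eC (hρ : ρ ≠ 0) (s : Tn 4 k) (y : E4) : ∑ I, s y I ^ 2 ≤ ρ ^ 2 * eC ρ s s y := by
  rw [eC_self, mul_add, mul_div_cancel₀ _ (pow_ne_zero _ hρ)]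
  exact le_add_of_nonneg_right (by positivity)

theorem jT_le_eC (hρ : ρ ≠ 0) (s : Tn 4 k) (y : E4) : jT s y ≤ (1 + ρ ^ 2) * eC ρ s s y := by
  have a := sum_le_eC hρ s y
  have b : ∑ i, ∑ I, pderiv i (fun z => s z I) y ^ 2 ≤ eC ρ s s y := by
    rw [eC_self]; exact le_add_of_nonneg_left (by positivity)
  simp only [jT, jet]; linarith


theorem eC_comm (ρ : ℝ) (s t : Tn 4 k) (y : E4) : eC ρ s t y = eC ρ t s y := by
  simp only [eC, mul_comm]

theorem eC_lc (hU : IsOpen U) (hs : SmT s U) (hs' : SmT s' U) (b c : ℝ) (hy : y ∈ U) :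
    eC ρ (b • s + c • s') t y = b * eC ρ s t y + c * eC ρ s' t y := by
  simp only [eC, Pi.add_apply, Pi.smul_apply, smul_eq_mul, pd_lc hU (hs _) (hs' _) b c _ hy,
    Finset.mul_sum, mul_add, ← Finset.sum_add_distrib]
  refine Finset.sum_congr rfl fun I _ => ?_
  rw [add_add_add_comm, ← Finset.sum_add_distrib]
  congr 1
  · exact Finset.sum_congr rfl fun i _ => by ring
  · ring

theorem eC_van (h : t =ᶠ[𝓝 y] 0) : eC ρ s t y = 0 := by
  refine Finset.sum_eq_zero fun I _ => ?_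
  have e : (fun z => t z I) =ᶠ[𝓝 y] fun _ => 0 := h.mono fun z hz => by simp [hz]
  have : ∀ i, pderiv i (fun _ : E4 => (0 : ℝ)) y = 0 := fun i => by simp [pderiv]
  simp [pd_congr e, this, h.eq_of_nhds]

theorem eC_ct {ρ : E4 → ℝ} (hU : IsOpen U) (hs : SmT s U) (ht : SmT t U) (hρ : ContinuousOn ρ U)
    (h0 : ∀ y ∈ U, ρ y ≠ 0) : ContinuousOn (fun y => eC (ρ y) s t y) U :=
  continuousOn_finsetSum _ fun I _ => (continuousOn_finsetSum _ fun i _ =>
    (smpd hU (hs I) i).continuousOn.mul (smpd hU (ht I) i).continuousOn).add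
      (((hs I).continuousOn.mul (ht I).continuousOn).div (hρ.pow 2)
        fun y hy => pow_ne_zero _ (h0 y hy))

end EC

/-- a `2`-tensor as a matrix field -/
def ofT (t : Tn 4 2) : MetricField 4 := fun y => Matrix.of fun a b => t y ![a, b]

theorem matT_ofT (t : Tn 4 2) : matT (ofT t) = t := by
  funext y I
  simp only [matT, ofT, Matrix.of_apply]
  congr 1
  funext i
  fin_cases i <;> rfl


/-- the symmetry of matrices -/
abbrev sw : Equiv.Perm (Fin 2) := Equiv.swap 0 1

variable {M : Type*} {T : TD M} {g : T.V → Fam T} {v : T.V} {σ T0 T1 : ℝ} {w t F G : Fam T}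

/-- sections as elements of `WS` -/
def toW (hw : Sec T v w) : WS (T.core v) sw :=
  ⟨fun s => matT (w s), hw.sec, fun a x hx _ => (hw.symm a x hx).apply _ _⟩

/-- elements of `WS` as sections -/
def ofW (u : WS (T.core v) sw) : Fam T := fun s => ofT (u.1 s)

theorem sec_of {u : T.S → Tn 4 2} (hu : u ∈ WS (T.core v) sw) : Sec T v fun s => ofT (u s) :=
  ⟨by simpa only [matT_ofT] using hu.1, fun s x hx => Matrix.IsSymm.ext fun a b => by
    rw [ofT, Matrix.of_apply, Matrix.of_apply, ← hu.2 s x hx]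
    congr 1
    funext i
    fin_cases i <;> rfl⟩

theorem sec_ofW (u : WS (T.core v) sw) : Sec T v (ofW u) := sec_of u.2


/-- tests as elements of `WT` -/
def toT (ht : Tst T v t) : WT (T.core v) sw :=
  ⟨toW ht.sec, ht.cs.imp fun _ h => ⟨h.1, fun b y hy hn => h.2 b y hy fun e => hn (by
    funext I; simp [toW, matT, e])⟩⟩

theorem tst_ofW (t : WT (T.core v) sw) : Tst T v (ofW t.1) :=
  ⟨sec_ofW _, t.2.imp fun _ h => ⟨h.1, fun b y hy hn => h.2 b y hy fun e => hn (by
    ext a c; simp [ofW, ofT, e])⟩⟩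

/-- the energy density -/
def eK (T : TD M) (η : T.S → E4 → ℝ) (s t : T.S → Tn 4 2) (a : T.S) (x : E4) : ℝ :=
  η a x ^ 2 * eC (scl T a x) (s a) (t a) x

/-- the operator on tensors -/
def pK (G : Fam T) (t : T.S → Tn 4 2) : T.S → Tn 4 2 := fun a => matT (Pop (G a) (ofT (t a)))

theorem dat (h : T.Ok) (hT : 4 / T.r ≤ Real.exp T1) (hg : (T.core v).IsMet (g v))
    (hG : (T.core v).IsMet G) : Dat (T.core v) sw T.χ (T.cK v) G (g v)
      (fun a x => eta T v σ T1 a x ^ 2) (eK T (eta T v σ T1)) (pK G) where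
  ok := h.core_ok v
  pou := h.core_pou v
  met := hG
  met0 := hg
  inv i := Equiv.swap_apply_self _ _ i
  ηc a b x hx y hy e := by simp only [eta_comp h hT a b x hx y hy e]
  ηs a := (eta_sm a).pow 2
  ηp a x _ := pow_pos (eta_pos a x) 2
  lin s s' t hs hs' _ b c a y hy := by
    simp only [eK, Pi.add_apply, Pi.smul_apply,
      eC_lc ((h.core_ok v).isOpen a) (hs.sm a) (hs'.sm a) b c hy]
    ring
  symm s t a y _ := by simp only [eK, eC_comm]
  ct s t hs ht a := ((eta_sm a).continuousOn.pow 2).mul (eC_ct ((h.core_ok v).isOpen a) (hs.sm a)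
    (ht.sm a) (cont_scl a).continuousOn fun y hy => (scl_pos hy).ne')
  van s t a y _ h0 := by rw [eK, eC_van h0, mul_zero]
  lo a D hD hU := by
    obtain ⟨c, c0, hc⟩ := exists_lb hD (((eta_sm (σ := σ) (T1 := T1) a).continuousOn.pow 2).mono hU)
      fun y _ => pow_pos (eta_pos a y) 2
    obtain ⟨R, R0, hR⟩ := exists_ub hD ((cont_scl (T := T) a).pow 2).continuousOn
    refine ⟨(1 + R) / c, by positivity, fun s y hy => (jT_le_eC (scl_pos (hU hy)).ne' _ y).trans ?_⟩
    have p0 := eC_nonneg (scl T a y) (s a) y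
    calc _ ≤ (1 + R) * eC (scl T a y) (s a) (s a) y := by
          gcongr; exact (le_abs_self _).trans (hR y hy)
      _ = (1 + R) / c * (c * eC (scl T a y) (s a) (s a) y) := by field_simp
      _ ≤ _ := by unfold eK; gcongr; exact hc y hy
  P_mem s hs := by
    obtain ⟨a, b⟩ := pops _ _ _ G _ (h.core_ok v) hG (sec_of hs).sec (sec_of hs).symm
    exact ⟨a, fun c x hx _ => (b c x hx).apply _ _⟩
  P_eq a := by
    obtain ⟨B, C, h1, h2⟩ := pop (G a) _ (hG.riem a)
    refine ⟨_, B, C, h1, fun s hs I y hy => ?_⟩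
    simpa only [matT_ofT, pK] using h2 _ ((sec_of hs).sec.sm a) ((sec_of hs).symm a) I y hy


section
variable (h : T.Ok) (hT : 4 / T.r ≤ Real.exp T1) (hg : (T.core v).IsMet (g v))
include h hT hg

theorem ig_IK (hb : (T.core v).IsMet G) (hF : Sec T v F) (ht : Tst T v t) :
    (T.core v).Intg T.χ G fun a x =>
      eta T v σ T1 a x ^ 2 * ip (G a) (matT (F a)) (matT (t a)) x :=
  (dat h hT hg hb).ig_ip (toW hF) (toT ht)

theorem ig_NK (hF : Sec T v F) (ht : Tst T v t) : (T.core v).Intg T.χ (g v) fun a x =>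
    eta T v σ T1 a x ^ 2 * eC (scl T a x) (matT (F a)) (matT (t a)) x :=
  (dat h hT hg hg).ig_e (toW hF) (toT ht)


omit hT hg in
theorem NK_nonneg (t : Fam T) : 0 ≤ NK T g v (eta T v σ T1) t t :=
  Finset.sum_nonneg fun a _ => setIntegral_nonneg ((h.core_ok v).isOpen a).measurableSet
    fun x _ => mul_nonneg (Atl.den_nonneg (h.core_pou v) a x)
      (mul_nonneg (sq_nonneg _) (eC_nonneg _ _ _))

end

end Crest.Agent.N207.K

end
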